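import Vale.Agent.P229.Base

/-!
# P229, Core: families of functions bounded uniformly, and uniformly close pairs of families

`Unif U n w f`: the members `f i` are `C^n` on `U` with derivatives up to order `n` at most
`C * w i`, for one constant `C`. `Near U n γ f g`: both families are bounded and their difference is
`O(γ)`. Both are closed under the operations building metrics' derived quantities, so no constant
has to be named.
-/

open scoped ContDiff
open Set Topology Filter

namespace Vale.Agent.P229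

variable {ι : Type*} {U : Set Pl} {n : ℕ} {w v : ι → ℝ} {f g : ι → Pl → ℝ}

/-- Members `C^n` on `U` with derivatives bounded by a fixed multiple of the weight. -/
def Unif (U : Set Pl) (n : ℕ) (w : ι → ℝ) (f : ι → Pl → ℝ) : Prop :=
  ∃ C, 0 ≤ C ∧ ∀ i, ContDiffOn ℝ n (f i) U ∧ BdOn U n (C * w i) (f i)

/-- Two bounded families with difference `O(γ)`. -/
structure Near (U : Set Pl) (n : ℕ) (γ : ι → ℝ) (f g : ι → Pl → ℝ) : Prop where
  left : Unif U n (fun _ => 1) f
  right : Unif U n (fun _ => 1) g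
  diff : Unif U n γ (fun i x => f i x - g i x)

namespace Unif

theorem of_bound (C : ℝ) (h0 : 0 ≤ C)
    (h : ∀ i, ContDiffOn ℝ n (f i) U ∧ BdOn U n (C * w i) (f i)) : Unif U n w f :=
  ⟨C, h0, h⟩

theorem contDiffOn (hf : Unif U n w f) (i : ι) : ContDiffOn ℝ n (f i) U :=
  let ⟨_, _, h⟩ := hf; (h i).1

theorem mono {m : ℕ} {V : Set Pl} (hmn : m ≤ n) (hVU : V ⊆ U) (hf : Unif U n w f) :
    Unif V m w f :=
  let ⟨C, h0, h⟩ := hf
  ⟨C, h0, fun i => ⟨((h i).1.mono hVU).of_le (mod_cast hmn),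
    fun j hj x hx => (h i).2 j (hj.trans hmn) x (hVU hx)⟩⟩


theorem weight {K : ℝ} (hK : 0 ≤ K) (hwv : ∀ i, w i ≤ K * v i) (hf : Unif U n w f) :
    Unif U n v f :=
  let ⟨C, h0, h⟩ := hf
  ⟨C * K, mul_nonneg h0 hK, fun i => ⟨(h i).1, fun j hj x hx => ((h i).2 j hj x hx).trans
    (by rw [mul_assoc]; exact mul_le_mul_of_nonneg_left (hwv i) h0)⟩⟩

theorem congr (hU : IsOpen U) (hf : Unif U n w f) (h : ∀ i, EqOn (g i) (f i) U) :
    Unif U n w g :=
  let ⟨C, h0, hC⟩ := hf
  ⟨C, h0, fun i => ⟨(hC i).1.congr (h i), fun j hj x hx => by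
    have e : g i =ᶠ[𝓝 x] f i := eventually_of_mem (hU.mem_nhds hx) (h i)
    rw [(e.iteratedFDeriv ℝ j).eq_of_nhds]; exact (hC i).2 j hj x hx⟩⟩

theorem zero : Unif U n w (fun _ _ => 0) :=
  ⟨0, le_rfl, fun i => ⟨contDiffOn_const, fun j _ x _ => by simp⟩⟩

theorem const {a : ι → ℝ} {K : ℝ} (hK : 0 ≤ K) (h : ∀ i, |a i| ≤ K * w i) :
    Unif U n w (fun i _ => a i) :=
  ⟨K, hK, fun i => ⟨contDiffOn_const, fun j _ x _ => by
    rcases eq_or_ne j 0 with rfl | hj
    · simpa using h i
    · rw [iteratedFDeriv_const_of_ne hj]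
      simpa using (abs_nonneg _).trans (h i)⟩⟩

theorem neg (_hU : IsOpen U) (hf : Unif U n w f) : Unif U n w (fun i x => -f i x) :=
  let ⟨C, h0, h⟩ := hf
  ⟨C, h0, fun i => ⟨(h i).1.neg, fun j hj x hx => by
    show ‖iteratedFDeriv ℝ j (-f i) x‖ ≤ _
    rw [iteratedFDeriv_neg_apply, norm_neg]
    exact (h i).2 j hj x hx⟩⟩

theorem add (hU : IsOpen U) (hf : Unif U n w f) (hg : Unif U n w g) :
    Unif U n w (fun i x => f i x + g i x) :=
  let ⟨C, h0, h⟩ := hf
  let ⟨D, d0, k⟩ := hg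
  ⟨C + D, add_nonneg h0 d0, fun i => ⟨(h i).1.add (k i).1, fun j hj x hx => by
    show ‖iteratedFDeriv ℝ j (f i + g i) x‖ ≤ _
    rw [iteratedFDeriv_add_apply
      (((h i).1.contDiffAt (hU.mem_nhds hx)).of_le (mod_cast hj))
      (((k i).1.contDiffAt (hU.mem_nhds hx)).of_le (mod_cast hj)), add_mul]
    exact (norm_add_le _ _).trans (add_le_add ((h i).2 j hj x hx) ((k i).2 j hj x hx))⟩⟩

theorem sub (hU : IsOpen U) (hf : Unif U n w f) (hg : Unif U n w g) :
    Unif U n w (fun i x => f i x - g i x) :=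
  (hf.add hU (hg.neg hU)).congr hU fun _ _ _ => sub_eq_add_neg _ _

theorem mul (hU : IsOpen U) (hf : Unif U n w f) (hg : Unif U n v g) :
    Unif U n (fun i => w i * v i) (fun i x => f i x * g i x) :=
  let ⟨C, h0, h⟩ := hf
  let ⟨D, d0, k⟩ := hg
  ⟨2 ^ n * C * D, by positivity, fun i => ⟨(h i).1.mul (k i).1, fun j hj x hx => by
    rw [← iteratedFDerivWithin_of_isOpen j hU hx]
    refine (norm_iteratedFDerivWithin_mul_le (h i).1 (k i).1 hU.uniqueDiffOn hx
      (mod_cast hj)).trans ?_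
    have a0 : 0 ≤ C * w i := (norm_nonneg _).trans ((h i).2 0 (Nat.zero_le _) x hx)
    have b0 : 0 ≤ D * v i := (norm_nonneg _).trans ((k i).2 0 (Nat.zero_le _) x hx)
    calc ∑ l ∈ Finset.range (j + 1), (j.choose l : ℝ) * ‖iteratedFDerivWithin ℝ l (f i) U x‖ *
          ‖iteratedFDerivWithin ℝ (j - l) (g i) U x‖
        ≤ ∑ l ∈ Finset.range (j + 1), (j.choose l : ℝ) * ((C * w i) * (D * v i)) := by
          refine Finset.sum_le_sum fun l hl => ?_
          rw [iteratedFDerivWithin_of_isOpen l hU hx,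
            iteratedFDerivWithin_of_isOpen (j - l) hU hx, mul_assoc]
          have hl' := Finset.mem_range.1 hl
          exact mul_le_mul_of_nonneg_left (mul_le_mul ((h i).2 l (by omega) x hx)
            ((k i).2 (j - l) (by omega) x hx) (norm_nonneg _) a0) (by positivity)
      _ = 2 ^ j * ((C * w i) * (D * v i)) := by
          rw [← Finset.sum_mul, ← Nat.cast_sum, Nat.sum_range_choose]; norm_num
      _ ≤ 2 ^ n * ((C * w i) * (D * v i)) :=
          mul_le_mul_of_nonneg_right (pow_le_pow_right₀ one_le_two hj) (mul_nonneg a0 b0)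
      _ = _ := by ring⟩⟩

theorem mul_one (hU : IsOpen U) (hf : Unif U n w f) (hg : Unif U n (fun _ => (1 : ℝ)) g) :
    Unif U n w (fun i x => f i x * g i x) :=
  (hf.mul hU hg).weight zero_le_one fun i => by simp

theorem one_mul (hU : IsOpen U) (hf : Unif U n (fun _ => (1 : ℝ)) f) (hg : Unif U n w g) :
    Unif U n w (fun i x => f i x * g i x) :=
  (hf.mul hU hg).weight zero_le_one fun i => by simp

theorem fderiv_apply (hU : IsOpen U) {a : Pl} (ha : ‖a‖ ≤ 1) (hf : Unif U (n + 1) w f) :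
    Unif U n w (fun i x => fderiv ℝ (f i) x a) :=
  let ⟨C, h0, h⟩ := hf
  ⟨C, h0, fun i => ⟨((h i).1.fderiv_of_isOpen hU le_rfl).clm_apply contDiffOn_const,
    fun j hj x hx => by
      have hd : ContDiffAt ℝ n (fderiv ℝ (f i)) x :=
        ((h i).1.fderiv_of_isOpen hU le_rfl).contDiffAt (hU.mem_nhds hx)
      refine (norm_iteratedFDeriv_clm_apply_const hd (mod_cast hj)).trans ?_
      rw [norm_iteratedFDeriv_fderiv]
      exact (mul_le_of_le_one_left (norm_nonneg _) ha).trans ((h i).2 (j + 1) (by omega) x hx)⟩⟩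

theorem d1 (hU : IsOpen U) (hf : Unif U (n + 1) w f) : Unif U n w (fun i => d1 (f i)) :=
  hf.fderiv_apply hU (by simp [Prod.norm_def])

theorem d2 (hU : IsOpen U) (hf : Unif U (n + 1) w f) : Unif U n w (fun i => d2 (f i)) :=
  hf.fderiv_apply hU (by simp [Prod.norm_def])

theorem inv (hU : IsOpen U) (hf : Unif U n (fun _ => (1 : ℝ)) f)
    (hpos : ∀ i, ∀ x ∈ U, 1 / 2 ≤ f i x) : Unif U n (fun _ => (1 : ℝ)) (fun i x => (f i x)⁻¹) := by
  obtain ⟨C, h0, h⟩ := hf
  refine ⟨(n.factorial : ℝ) * ((n.factorial : ℝ) * 2 ^ (n + 1)) * (max C 1) ^ n, by positivity,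
    fun i => ?_⟩
  have hne : ∀ x ∈ U, f i x ≠ 0 := fun x hx => by have := hpos i x hx; linarith
  refine ⟨(h i).1.inv hne, fun j hj x hx => ?_⟩
  rw [← iteratedFDerivWithin_of_isOpen j hU hx, _root_.mul_one]
  have hinv : ContDiffOn ℝ n (fun t : ℝ => t⁻¹) (Ioi 0) :=
    contDiffOn_id.inv fun t ht => ne_of_gt ht
  have key := norm_iteratedFDerivWithin_comp_le hinv (h i).1 (mod_cast hj : (j : ℕ∞ω) ≤ n)
    isOpen_Ioi.uniqueDiffOn hU.uniqueDiffOn (fun y hy => show f i y ∈ Ioi (0 : ℝ) by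
      have := hpos i y hy; exact mem_Ioi.2 (by linarith)) hx
    (C := (n.factorial : ℝ) * 2 ^ (n + 1)) (D := max C 1)
    (fun l hl => by
      have ht : 1 / 2 ≤ f i x := hpos i x hx
      rw [iteratedFDerivWithin_of_isOpen l isOpen_Ioi (mem_Ioi.2 (by linarith)),
        norm_iteratedFDeriv_eq_norm_iteratedDeriv, iteratedDeriv_eq_iterate,
        show (fun t : ℝ => t⁻¹) = Inv.inv from rfl, iter_deriv_inv]
      rw [norm_mul, norm_mul, norm_pow, norm_neg, norm_one, one_pow, _root_.one_mul,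
        Real.norm_natCast, Real.norm_eq_abs, abs_zpow, abs_of_pos (by linarith : 0 < f i x)]
      refine mul_le_mul (mod_cast Nat.factorial_le (hl.trans hj)) ?_
        (zpow_nonneg (by linarith) _) (by positivity)
      calc (f i x) ^ (-1 - (l : ℤ)) ≤ (1 / 2 : ℝ) ^ (-1 - (l : ℤ)) := by
            rw [show (-1 - (l : ℤ)) = -((l + 1 : ℕ) : ℤ) by push_cast; ring, zpow_neg, zpow_neg,
              zpow_natCast, zpow_natCast]
            exact inv_anti₀ (by positivity) (pow_le_pow_left₀ (by norm_num) ht _)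
        _ = 2 ^ (l + 1) := by
            rw [show (-1 - (l : ℤ)) = -((l + 1 : ℕ) : ℤ) by push_cast; ring, zpow_neg,
              zpow_natCast, one_div, inv_pow, inv_inv]
        _ ≤ 2 ^ (n + 1) := pow_le_pow_right₀ one_le_two (by omega))
    (fun l hl1 hl => by
      rw [iteratedFDerivWithin_of_isOpen l hU hx]
      refine ((h i).2 l (hl.trans hj) x hx).trans ?_
      rw [_root_.mul_one]
      exact (le_max_left _ _).trans (le_self_pow₀ (le_max_right _ _) (by omega)))
  refine key.trans ?_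
  gcongr
  exact le_max_right _ _

end Unif

namespace Near

variable {γ : ι → ℝ} {f' g' : ι → Pl → ℝ}

theorem self (hf : Unif U n (fun _ => (1 : ℝ)) f) : Near U n γ f f :=
  ⟨hf, hf, by simpa using Unif.zero⟩

theorem mono {m : ℕ} {V : Set Pl} (hmn : m ≤ n) (hVU : V ⊆ U) (h : Near U n γ f g) :
    Near V m γ f g :=
  ⟨h.left.mono hmn hVU, h.right.mono hmn hVU, h.diff.mono hmn hVU⟩

theorem congr (hU : IsOpen U) (h : Near U n γ f g) (hf : ∀ i, EqOn (f' i) (f i) U)
    (hg : ∀ i, EqOn (g' i) (g i) U) : Near U n γ f' g' :=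
  ⟨h.left.congr hU hf, h.right.congr hU hg,
    h.diff.congr hU fun i x hx => by simp only [hf i hx, hg i hx]⟩

theorem neg (hU : IsOpen U) (h : Near U n γ f g) :
    Near U n γ (fun i x => -f i x) (fun i x => -g i x) :=
  ⟨h.left.neg hU, h.right.neg hU, (h.diff.neg hU).congr hU fun i x _ => by ring⟩

theorem add (hU : IsOpen U) (h : Near U n γ f g) (h' : Near U n γ f' g') :
    Near U n γ (fun i x => f i x + f' i x) (fun i x => g i x + g' i x) :=
  ⟨h.left.add hU h'.left, h.right.add hU h'.right,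
    (h.diff.add hU h'.diff).congr hU fun i x _ => by ring⟩

theorem sub (hU : IsOpen U) (h : Near U n γ f g) (h' : Near U n γ f' g') :
    Near U n γ (fun i x => f i x - f' i x) (fun i x => g i x - g' i x) :=
  ⟨h.left.sub hU h'.left, h.right.sub hU h'.right,
    (h.diff.sub hU h'.diff).congr hU fun i x _ => by ring⟩

theorem mul (hU : IsOpen U) (h : Near U n γ f g) (h' : Near U n γ f' g') :
    Near U n γ (fun i x => f i x * f' i x) (fun i x => g i x * g' i x) :=
  ⟨h.left.mul_one hU h'.left, h.right.mul_one hU h'.right,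
    ((h.diff.mul_one hU h'.left).add hU (h.right.one_mul hU h'.diff)).congr hU
      fun i x _ => by ring⟩

theorem inv (hU : IsOpen U) (h : Near U n γ f g) (hf : ∀ i, ∀ x ∈ U, 1 / 2 ≤ f i x)
    (hg : ∀ i, ∀ x ∈ U, 1 / 2 ≤ g i x) :
    Near U n γ (fun i x => (f i x)⁻¹) (fun i x => (g i x)⁻¹) :=
  ⟨h.left.inv hU hf, h.right.inv hU hg,
    ((h.diff.neg hU).mul_one hU ((h.left.inv hU hf).mul_one hU (h.right.inv hU hg))).congr hU
      fun i x hx => by
        have : f i x ≠ 0 := by have := hf i x hx; linarith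
        have : g i x ≠ 0 := by have := hg i x hx; linarith
        field_simp; ring⟩

theorem const {a : ι → ℝ} (K : ℝ) (hK : 0 ≤ K) (h : ∀ i, |a i| ≤ K) :
    Near U n γ (fun i _ => a i) (fun i _ => a i) :=
  self (Unif.const hK fun i => by simpa using h i)

theorem fderiv_apply (hU : IsOpen U) {a : Pl} (ha : ‖a‖ ≤ 1) (h : Near U (n + 1) γ f g) :
    Near U n γ (fun i x => fderiv ℝ (f i) x a) (fun i x => fderiv ℝ (g i) x a) :=
  ⟨h.left.fderiv_apply hU ha, h.right.fderiv_apply hU ha,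
    (h.diff.fderiv_apply hU ha).congr hU fun i x hx => by
      have df : DifferentiableAt ℝ (f i) x := (h.left.contDiffOn i).contDiffAt
        (hU.mem_nhds hx) |>.differentiableAt (by simp)
      have dg : DifferentiableAt ℝ (g i) x := (h.right.contDiffOn i).contDiffAt
        (hU.mem_nhds hx) |>.differentiableAt (by simp)
      rw [fderiv_fun_sub df dg]
      rfl⟩

theorem d1 (hU : IsOpen U) (h : Near U (n + 1) γ f g) :
    Near U n γ (fun i => d1 (f i)) (fun i => d1 (g i)) :=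
  h.fderiv_apply hU (by simp [Prod.norm_def])

theorem d2 (hU : IsOpen U) (h : Near U (n + 1) γ f g) :
    Near U n γ (fun i => d2 (f i)) (fun i => d2 (g i)) :=
  h.fderiv_apply hU (by simp [Prod.norm_def])

end Near

end Vale.Agent.P229
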