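import Vale.Agent.P229.Core.Spec2
import Vale.Agent.P229.Core.Unif
import Vale.Agent.P229.IslandBasic
import Vale.Agent.P229.Gauss

/-!
# P229, Core: the equation of a pair

`pairSpec`: the difference of the heights of two island solutions solves the linear equation whose
coefficients are the cofactors of the mean Hessian, and these are `γ`-close to the linearisation at
a representative that both solutions are `γ`-close to.
-/

open scoped ContDiff RealInnerProductSpace
open Set Topology Filter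

namespace Vale.Agent.P229

theorem contDiff_psi : ContDiff ℝ ∞ psi := by
  have hn : ContDiff ℝ ∞ nsq := (contDiff_fst.pow 2).add (contDiff_snd.pow 2)
  exact ((hn.div_const 4).sub ((hn.pow 2).div_const 16)).mul
    (Real.smoothTransition.contDiff.comp ((contDiff_const.sub hn).div_const 3))

theorem hasCompactSupport_psi : HasCompactSupport psi := by
  refine HasCompactSupport.intro (isCompact_closedBall (0 : Pl) 3) fun x hx => ?_
  have h8 : 8 ≤ nsq x := by
    simp only [Metric.mem_closedBall, dist_zero_right, Prod.norm_def, Real.norm_eq_abs,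
      max_le_iff, not_and_or, not_le] at hx
    rcases hx with h | h <;>
      · simp only [nsq]
        nlinarith [sq_abs x.1, sq_abs x.2, sq_nonneg x.1, sq_nonneg x.2]
  simp [psi, Real.smoothTransition.zero_of_nonpos
    (show (8 - nsq x) / 3 ≤ 0 by linarith)]

theorem psi_bdOn (n : ℕ) : ∃ B, 0 ≤ B ∧ BdOn univ n B psi := by
  obtain ⟨B, hB, hb⟩ := exists_deriv_bound (contDiff_psi) hasCompactSupport_psi n
  exact ⟨B, hB.le, fun j hj x _ => hb j hj x⟩

theorem island_small {B : ℝ} (hB : BdOn univ 0 B psi) {s β : ℝ} {π : Pert} (hs : 0 < s)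
    (hs1 : s ≤ 1) (hsB : s * (2 * B + 1) ≤ 1 / 10) (hβ : 0 < β) (hβ1 : β ≤ 1)
    (hπ : ∀ i, BdOn univ 8 1 (π i)) (x : Pl) :
    9 / 10 ≤ (islandMet s β π).e x ∧ 9 / 10 ≤ (islandMet s β π).g x ∧
      1 / 2 ≤ (islandMet s β π).det x := by
  have hp : ∀ i, |π i x| ≤ 1 := fun i => by
    simpa using hπ i 0 (Nat.zero_le _) x (mem_univ x)
  have hψ : |psi x| ≤ B := by simpa using hB 0 le_rfl x (mem_univ x)
  have hs2 : s ^ 2 ≤ s := by nlinarith
  have key : ∀ a : ℝ, |a| ≤ 2 * B + 1 → |s ^ 2 * a| ≤ 1 / 10 := fun a ha => by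
    rw [abs_mul, abs_of_nonneg (sq_nonneg s)]
    exact (mul_le_mul hs2 ha (abs_nonneg _) hs.le).trans hsB
  have hb : ∀ i, |2 * β * psi x + π i x| ≤ 2 * B + 1 := fun i => by
    refine (abs_add_le _ _).trans (add_le_add ?_ (hp i))
    rw [abs_mul, abs_of_nonneg (by linarith : (0 : ℝ) ≤ 2 * β)]
    nlinarith [abs_nonneg (psi x)]
  obtain ⟨e1, e2⟩ := abs_le.1 (key _ (hb 0))
  obtain ⟨g1, g2⟩ := abs_le.1 (key _ (hb 2))
  obtain ⟨f1, f2⟩ := abs_le.1 (key (π 1 x) ((hp 1).trans (by
    linarith [(abs_nonneg (psi x)).trans hψ])))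
  simp only [Met.det, islandMet]
  refine ⟨by linarith, by linarith, ?_⟩
  nlinarith

/-- Linearity of the covariant Hessian in the function. -/
theorem Met.hess_sub (m : Met) {U : Set Pl} (hU : IsOpen U) {z w : Pl → ℝ}
    (hz : ContDiffOn ℝ 2 z U) (hw : ContDiffOn ℝ 2 w U) {x : Pl} (hx : x ∈ U) :
    m.h11 (fun y => z y - w y) x = m.h11 z x - m.h11 w x ∧
    m.h12 (fun y => z y - w y) x = m.h12 z x - m.h12 w x ∧
    m.h22 (fun y => z y - w y) x = m.h22 z x - m.h22 w x ∧
    d1 (fun y => z y - w y) x = d1 z x - d1 w x ∧ d2 (fun y => z y - w y) x = d2 z x - d2 w x := by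
  have first : ∀ (a : Pl), ∀ y ∈ U,
      fderiv ℝ (fun q => z q - w q) y a = fderiv ℝ z y a - fderiv ℝ w y a := fun a y hy => by
    rw [fderiv_fun_sub ((hz.contDiffAt (hU.mem_nhds hy)).differentiableAt (by norm_num))
      ((hw.contDiffAt (hU.mem_nhds hy)).differentiableAt (by norm_num))]
    rfl
  have second : ∀ a b : Pl, fderiv ℝ (fun y => fderiv ℝ (fun q => z q - w q) y b) x a =
      fderiv ℝ (fun y => fderiv ℝ z y b) x a - fderiv ℝ (fun y => fderiv ℝ w y b) x a := by
    intro a b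
    have hd : ∀ f : Pl → ℝ, ContDiffOn ℝ 2 f U →
        DifferentiableAt ℝ (fun y => fderiv ℝ f y b) x := fun f hf =>
      (((hf.fderiv_of_isOpen hU (m := 1) (by norm_num)).clm_apply contDiffOn_const).contDiffAt
        (hU.mem_nhds hx)).differentiableAt one_ne_zero
    have e : (fun y => fderiv ℝ (fun q => z q - w q) y b) =ᶠ[𝓝 x]
        fun y => fderiv ℝ z y b - fderiv ℝ w y b :=
      eventually_of_mem (hU.mem_nhds hx) fun y hy => first b y hy
    rw [e.fderiv_eq, fderiv_fun_sub (hd z hz) (hd w hw)]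
    rfl
  unfold Met.h11 Met.h12 Met.h22 d1 d2
  simp only [first _ x hx]
  refine ⟨?_, ?_, ?_, trivial, trivial⟩ <;>
    · rw [second]; ring

variable {ι : Type*} {U : Set Pl} {γ : ι → ℝ}

/-- The covariant Hessians of two nearby families. -/
theorem near_hess (hU : IsOpen U) (m mr : ι → Met) (z zr : ι → Pl → ℝ)
    (he : Near U 5 γ (fun i => (m i).e) (fun i => (mr i).e))
    (hf : Near U 5 γ (fun i => (m i).f) (fun i => (mr i).f))
    (hg : Near U 5 γ (fun i => (m i).g) (fun i => (mr i).g))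
    (hd : ∀ i, ∀ x ∈ U, 1 / 2 ≤ (m i).det x) (hdr : ∀ i, ∀ x ∈ U, 1 / 2 ≤ (mr i).det x)
    (hz : Near U 6 γ z zr) :
    Near U 4 γ (fun i => (m i).h11 (z i)) (fun i => (mr i).h11 (zr i)) ∧
    Near U 4 γ (fun i => (m i).h12 (z i)) (fun i => (mr i).h12 (zr i)) ∧
    Near U 4 γ (fun i => (m i).h22 (z i)) (fun i => (mr i).h22 (zr i)) := by
  have e4 := he.mono (m := 4) (by norm_num) Subset.rfl
  have f4 := hf.mono (m := 4) (by norm_num) Subset.rfl
  have g4 := hg.mono (m := 4) (by norm_num) Subset.rfl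
  have e1 := he.d1 hU
  have e2 := he.d2 hU
  have f1 := hf.d1 hU
  have f2 := hf.d2 hU
  have g1 := hg.d1 hU
  have g2 := hg.d2 hU
  have two : Near U 4 γ (fun _ _ => (2 : ℝ)) (fun _ _ => (2 : ℝ)) :=
    Near.const 2 zero_le_two fun _ => by norm_num
  have half : Near U 4 γ (fun _ _ => (1 / 2 : ℝ)) (fun _ _ => (1 / 2 : ℝ)) :=
    Near.const 1 zero_le_one fun _ => by norm_num
  have det : Near U 4 γ (fun i => (m i).det) (fun i => (mr i).det) :=
    ((e4.mul hU g4).sub hU (f4.mul hU f4)).congr hU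
      (fun i x _ => by simp only [Met.det]; ring) (fun i x _ => by simp only [Met.det]; ring)
  have q := half.mul hU (det.inv hU hd hdr)
  have z1' := (hz.mono (m := 5) (by norm_num) Subset.rfl).d1 hU
  have z2' := (hz.mono (m := 5) (by norm_num) Subset.rfl).d2 hU
  have z11 := (hz.d1 hU).d1 hU
  have z12 := (hz.d2 hU).d1 hU
  have z22 := (hz.d2 hU).d2 hU
  have n111 := (((g4.mul hU e1).sub hU ((two.mul hU f4).mul hU f1)).add hU (f4.mul hU e2)).mul hU q
  have n211 := ((((two.mul hU e4).mul hU f1).sub hU (e4.mul hU e2)).sub hU (f4.mul hU e1)).mul hU q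
  have n112 := ((g4.mul hU e2).sub hU (f4.mul hU g1)).mul hU q
  have n212 := ((e4.mul hU g1).sub hU (f4.mul hU e2)).mul hU q
  have n122 := ((((two.mul hU g4).mul hU f2).sub hU (g4.mul hU g1)).sub hU (f4.mul hU g2)).mul hU q
  have n222 := (((e4.mul hU g2).sub hU ((two.mul hU f4).mul hU f2)).add hU (f4.mul hU g1)).mul hU q
  refine ⟨((z11.sub hU (n111.mul hU z1')).sub hU (n211.mul hU z2')).congr hU ?_ ?_,
    ((z12.sub hU (n112.mul hU z1')).sub hU (n212.mul hU z2')).congr hU ?_ ?_,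
    ((z22.sub hU (n122.mul hU z1')).sub hU (n222.mul hU z2')).congr hU ?_ ?_⟩
  all_goals
    intro i x _
    simp only [Met.h11, Met.h12, Met.h22, Met.c111, Met.c211, Met.c112, Met.c212, Met.c122,
      Met.c222, div_eq_mul_inv, mul_inv]
    ring

/-- The parameters and hypotheses of `PairSpec`. -/
structure PairData (k : ℕ) (M a0 s0 : ℝ) where
  s : ℝ
  β : ℝ
  γ : ℝ
  π : Pert
  π' : Pert
  πr : Pert
  G : Pl → R3
  G' : Pl → R3
  Gr : Pl → R3
  e : R3
  e' : R3
  er : R3
  hs : 0 < s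
  hs0 : s ≤ s0
  hβ : 0 < β
  hβs : β ≤ s ^ 2
  hγ : 0 < γ
  hγβ : γ ≤ β ^ 2
  ok : PertOK π
  ok' : PertOK π'
  okr : PertOK πr
  bd : ∀ i, BdOn univ 8 γ (π i)
  bd' : ∀ i, BdOn univ 8 γ (π' i)
  bdr : ∀ i, BdOn univ 8 γ (πr i)
  sol : IslandSol k s β M a0 π G e
  sol' : IslandSol k s β M a0 π' G' e'
  solr : IslandSol k s β M a0 πr Gr er
  cl : BdOn (disc 2) 8 γ (fun x => zOf s G e x - zOf s Gr er x)
  cl' : BdOn (disc 2) 8 γ (fun x => zOf s G' e' x - zOf s Gr er x)

/-- The Gauss equation of a height: the Hessian determinant is `rho`. -/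
theorem det_hess_eq_rho (hG : GaussSpec) {k : ℕ} (hk : 3 ≤ k) {s β M a0 : ℝ} {π : Pert}
    {G : Pl → R3} {e : R3} (h : IslandSol k s β M a0 π G e) (hs : 0 < s)
    (hdet : ∀ x, 0 < (islandMet s β π).det x) {x : Pl} (hx : x ∈ disc 4) :
    (islandMet s β π).h11 (zOf s G e) x * (islandMet s β π).h22 (zOf s G e) x
      - (islandMet s β π).h12 (zOf s G e) x ^ 2 = rho s (islandMet s β π) (zOf s G e) x := by
  obtain ⟨n, a, b, c, -, hn⟩ := hG (islandMet s β π) (disc 4) G (isOpen_disc 4)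
    (h.1.of_le (mod_cast hk)) h.2.1 fun y _ => hdet y
  obtain ⟨-, -, -, hac, hh⟩ := hn x hx
  obtain ⟨h11, h12, h22, hgr⟩ := hh s e hs.ne'
  rw [h.2.2.2.2.1, one_pow] at hgr
  rw [h11, h12, h22, rho, ← hac, show (1 : ℝ) - s ^ 2 * (islandMet s β π).gradSq (zOf s G e) x =
    ⟪n x, e⟫ ^ 2 by linarith]
  field_simp

/-- The equation of a pair, from the two Gauss equations. -/
theorem pair_identity {U : Set Pl} (hU : IsOpen U) (s : ℝ) (hs : s ≠ 0) (m m' : Met)
    {z z' : Pl → ℝ} (hz : ContDiffOn ℝ 2 z U) (hz' : ContDiffOn ℝ 2 z' U) {x : Pl} (hx : x ∈ U)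
    (hg : m.h11 z x * m.h22 z x - m.h12 z x ^ 2 = rho s m z x)
    (hg' : m'.h11 z' x * m'.h22 z' x - m'.h12 z' x ^ 2 = rho s m' z' x) :
    lop m' (pairA1 m m' z z') (pairA2 m m' z z') (pairA3 m m' z z') (fun y => z y + z' y)
        (fun y => z y - z' y) x
      = srcTerm s m m' (pairA1 m m' z z') (pairA2 m m' z z') (pairA3 m m' z z') z x := by
  obtain ⟨a, b, c, d, d'⟩ := m'.hess_sub hU hz hz' hx
  have dz := (hz.contDiffAt (hU.mem_nhds hx)).differentiableAt (by norm_num)
  have dz' := (hz'.contDiffAt (hU.mem_nhds hx)).differentiableAt (by norm_num)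
  have s1 : d1 (fun y => z y + z' y) x = d1 z x + d1 z' x := by
    simp only [d1, fderiv_fun_add dz dz']; rfl
  have s2 : d2 (fun y => z y + z' y) x = d2 z x + d2 z' x := by
    simp only [d2, fderiv_fun_add dz dz']; rfl
  have hr : rho s m' z x - rho s m' z' x =
      -(m'.rcur x * m'.gradIP (fun y => z y + z' y) (fun y => z y - z' y) x) := by
    simp only [rho, Met.gradSq, Met.gradIP, s1, s2, d, d']
    field_simp
    ring
  simp only [lop, srcTerm, pairA1, pairA2, pairA3, a, b, c]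
  linear_combination hr + hg - hg'

theorem pairSpec {k : ℕ} (hG : GaussSpec) (hk : 12 ≤ k) : PairSpec k := by
  intro M a0 ha0
  obtain ⟨B, hB0, hB⟩ := psi_bdOn 8
  set s0 : ℝ := 1 / (10 * (2 * B + 1)) with hs0
  have hs0' : 0 < s0 := by positivity
  -- consequences of the parameter restrictions
  have hs1 : ∀ d : PairData k M a0 s0, d.s ≤ 1 ∧ d.s * (2 * B + 1) ≤ 1 / 10 ∧ d.β ≤ 1 ∧
      d.γ ≤ 1 := fun d => by
    have h1 : d.s * (2 * B + 1) ≤ 1 / 10 := by
      refine (mul_le_mul_of_nonneg_right d.hs0 (by positivity)).trans (le_of_eq ?_)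
      rw [hs0]; field_simp
    have h2 : d.s ≤ 1 := by nlinarith [d.hs]
    have h3 : d.β ≤ 1 := d.hβs.trans (pow_le_one₀ d.hs.le h2)
    exact ⟨h2, h1, h3, d.hγβ.trans (pow_le_one₀ d.hβ.le h3)⟩
  have pert1 : ∀ (d : PairData k M a0 s0) (p : Pert), (∀ i, BdOn univ 8 d.γ (p i)) →
      ∀ i, BdOn univ 8 1 (p i) := fun d p h i j hj x hx => (h i j hj x hx).trans (hs1 d).2.2.2
  have det_pos : ∀ (d : PairData k M a0 s0) (p : Pert), (∀ i, BdOn univ 8 d.γ (p i)) →
      ∀ x, 1 / 2 ≤ (islandMet d.s d.β p).det x := fun d p h x =>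
    (island_small (fun j hj => hB j (hj.trans (Nat.zero_le _))) d.hs (hs1 d).1 (hs1 d).2.1 d.hβ
      (hs1 d).2.2.1 (pert1 d p h) x).2.2
  let D := PairData k M a0 s0
  -- the perturbations and their differences
  have hπU : ∀ (P : D → Pert), (∀ d, PertOK (P d)) → (∀ d i, BdOn univ 8 d.γ (P d i)) → ∀ i,
      Unif (disc 4) 8 (fun d : D => d.γ) (fun d => P d i) := fun P hP hb i =>
    Unif.of_bound 1 zero_le_one fun d => ⟨((hP d i).1.of_le (WithTop.coe_le_coe.2 le_top)).contDiffOn,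
      fun j hj x _ => by simpa using hb d i j hj x (mem_univ x)⟩
  have hψU : Unif (disc 4) 8 (fun _ : D => (1 : ℝ)) (fun _ => psi) :=
    Unif.of_bound B hB0 fun d => ⟨(contDiff_psi.of_le (WithTop.coe_le_coe.2 le_top)).contDiffOn,
      fun j hj x _ => by simpa using hB j hj x (mem_univ x)⟩
  have o4 := isOpen_disc 4
  have hmet : ∀ (P Q : D → Pert), (∀ d, PertOK (P d)) → (∀ d i, BdOn univ 8 d.γ (P d i)) →
      (∀ d, PertOK (Q d)) → (∀ d i, BdOn univ 8 d.γ (Q d i)) →
      Near (disc 4) 8 (fun d : D => d.γ) (fun d => (islandMet d.s d.β (P d)).e)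
          (fun d => (islandMet d.s d.β (Q d)).e) ∧
      Near (disc 4) 8 (fun d : D => d.γ) (fun d => (islandMet d.s d.β (P d)).f)
          (fun d => (islandMet d.s d.β (Q d)).f) ∧
      Near (disc 4) 8 (fun d : D => d.γ) (fun d => (islandMet d.s d.β (P d)).g)
          (fun d => (islandMet d.s d.β (Q d)).g) := by
    intro P Q hP hPb hQ hQb
    have one : Near (disc 4) 8 (fun d : D => d.γ) (fun _ _ => (1 : ℝ)) (fun _ _ => (1 : ℝ)) :=
      Near.const 1 zero_le_one fun _ => by norm_num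
    have ss : Near (disc 4) 8 (fun d : D => d.γ) (fun d _ => d.s ^ 2) (fun d _ => d.s ^ 2) :=
      Near.const 1 zero_le_one fun d => by
        rw [abs_of_nonneg (sq_nonneg _)]; exact pow_le_one₀ d.hs.le (hs1 d).1
    have bb : Near (disc 4) 8 (fun d : D => d.γ) (fun d _ => 2 * d.β) (fun d _ => 2 * d.β) :=
      Near.const 2 zero_le_two fun d => by
        rw [abs_of_nonneg (by linarith [d.hβ])]; linarith [(hs1 d).2.2.1]
    have hp : ∀ i, Near (disc 4) 8 (fun d : D => d.γ) (fun d => P d i) (fun d => Q d i) :=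
      fun i => ⟨(hπU P hP hPb i).weight zero_le_one fun d => by simpa using (hs1 d).2.2.2,
        (hπU Q hQ hQb i).weight zero_le_one fun d => by simpa using (hs1 d).2.2.2,
        (hπU P hP hPb i).sub o4 (hπU Q hQ hQb i)⟩
    have hb := bb.mul o4 (Near.self hψU)
    exact ⟨(one.add o4 (ss.mul o4 (hb.add o4 (hp 0)))).congr o4
        (fun d x _ => rfl) (fun d x _ => rfl),
      (ss.mul o4 (hp 1)).congr o4 (fun d x _ => rfl) (fun d x _ => rfl),
      (one.add o4 (ss.mul o4 (hb.add o4 (hp 2)))).congr o4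
        (fun d x _ => rfl) (fun d x _ => rfl)⟩
  -- the heights
  have hzU : ∀ (G : D → Pl → R3) (e : D → R3) (P : D → Pert),
      (∀ d, IslandSol k d.s d.β M a0 (P d) (G d) (e d)) →
      Unif (disc 3) 6 (fun _ : D => (1 : ℝ)) (fun d => zOf d.s (G d) (e d)) := fun G e P h =>
    Unif.of_bound (9 * |M|) (by positivity) fun d => by
      have hd : disc 3 ⊆ disc 4 := disc_mono (by norm_num) (by norm_num)
      refine ⟨((h d).contDiffOn_zOf.mono hd).of_le (by exact_mod_cast (show 6 ≤ k by omega)),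
        fun j hj x hx => ((h d).bdOn_zOf d.hs (hs1 d).1 (by omega) j (by omega) x hx).trans ?_⟩
      linarith [le_abs_self M]
  have z3 := hzU (fun d => d.G) (fun d => d.e) (fun d => d.π) fun d => d.sol
  have z3' := hzU (fun d => d.G') (fun d => d.e') (fun d => d.π') fun d => d.sol'
  have zr3 := hzU (fun d => d.Gr) (fun d => d.er) (fun d => d.πr) fun d => d.solr
  have o2 := isOpen_disc 2
  have o3 := isOpen_disc 3
  have s23 : disc 2 ⊆ disc 3 := disc_mono (by norm_num) (by norm_num)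
  have s34 : disc 3 ⊆ disc 4 := disc_mono (by norm_num) (by norm_num)
  have zn : Near (disc 2) 6 (fun d : D => d.γ) (fun d => zOf d.s d.G d.e)
      (fun d => zOf d.s d.Gr d.er) :=
    ⟨z3.mono le_rfl s23, zr3.mono le_rfl s23, Unif.of_bound 1 zero_le_one fun d =>
      ⟨((z3.contDiffOn d).sub (zr3.contDiffOn d)).mono s23,
        fun j hj x hx => by simpa using d.cl j (by omega) x hx⟩⟩
  have zn' : Near (disc 2) 6 (fun d : D => d.γ) (fun d => zOf d.s d.G' d.e')
      (fun d => zOf d.s d.Gr d.er) :=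
    ⟨z3'.mono le_rfl s23, zr3.mono le_rfl s23, Unif.of_bound 1 zero_le_one fun d =>
      ⟨((z3'.contDiffOn d).sub (zr3.contDiffOn d)).mono s23,
        fun j hj x hx => by simpa using d.cl' j (by omega) x hx⟩⟩
  obtain ⟨ne, nf, ng⟩ := hmet (fun d => d.π) (fun d => d.πr) (fun d => d.ok) (fun d => d.bd)
    (fun d => d.okr) (fun d => d.bdr)
  obtain ⟨ne', nf', ng'⟩ := hmet (fun d => d.π') (fun d => d.πr) (fun d => d.ok') (fun d => d.bd')
    (fun d => d.okr) (fun d => d.bdr)
  obtain ⟨h11, h12, h22⟩ := near_hess o2 (fun d : D => islandMet d.s d.β d.π)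
    (fun d => islandMet d.s d.β d.πr) _ _ (ne.mono (by norm_num) (s23.trans s34))
    (nf.mono (by norm_num) (s23.trans s34)) (ng.mono (by norm_num) (s23.trans s34))
    (fun d x _ => det_pos d _ d.bd x) (fun d x _ => det_pos d _ d.bdr x) zn
  obtain ⟨h11', h12', h22'⟩ := near_hess o2 (fun d : D => islandMet d.s d.β d.π')
    (fun d => islandMet d.s d.β d.πr) _ _ (ne'.mono (by norm_num) (s23.trans s34))
    (nf'.mono (by norm_num) (s23.trans s34)) (ng'.mono (by norm_num) (s23.trans s34))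
    (fun d x _ => det_pos d _ d.bd' x) (fun d x _ => det_pos d _ d.bdr x) zn'
  obtain ⟨k11, k12, k22⟩ := near_hess (γ := fun d : D => d.γ) o3
    (fun d : D => islandMet d.s d.β d.π) (fun d => islandMet d.s d.β d.π) _ _
    (Near.self (ne.left.mono (by norm_num) s34)) (Near.self (nf.left.mono (by norm_num) s34))
    (Near.self (ng.left.mono (by norm_num) s34))
    (fun d x _ => det_pos d _ d.bd x) (fun d x _ => det_pos d _ d.bd x) (Near.self z3)
  obtain ⟨k11', k12', k22'⟩ := near_hess (γ := fun d : D => d.γ) o3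
    (fun d : D => islandMet d.s d.β d.π') (fun d => islandMet d.s d.β d.π') _ _
    (Near.self (ne'.left.mono (by norm_num) s34)) (Near.self (nf'.left.mono (by norm_num) s34))
    (Near.self (ng'.left.mono (by norm_num) s34))
    (fun d x _ => det_pos d _ d.bd' x) (fun d x _ => det_pos d _ d.bd' x) (Near.self z3')
  have half : ∀ U : Set Pl, Near U 4 (fun d : D => d.γ) (fun _ _ => (1 / 2 : ℝ))
      (fun _ _ => (1 / 2 : ℝ)) := fun _ => Near.const 1 zero_le_one fun _ => by norm_num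
  have A1 : Near (disc 2) 4 (fun d : D => d.γ)
      (fun d => pairA1 (islandMet d.s d.β d.π) (islandMet d.s d.β d.π') (zOf d.s d.G d.e)
        (zOf d.s d.G' d.e'))
      (fun d => (islandMet d.s d.β d.πr).h22 (zOf d.s d.Gr d.er)) :=
    ((half _).mul o2 (h22.add o2 h22')).congr o2 (fun d x _ => by simp only [pairA1]; ring)
      (fun d x _ => by ring)
  have A2 : Near (disc 2) 4 (fun d : D => d.γ)
      (fun d => pairA2 (islandMet d.s d.β d.π) (islandMet d.s d.β d.π') (zOf d.s d.G d.e)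
        (zOf d.s d.G' d.e'))
      (fun d x => -(islandMet d.s d.β d.πr).h12 (zOf d.s d.Gr d.er) x) :=
    (((half _).mul o2 (h12.add o2 h12')).neg o2).congr o2
      (fun d x _ => by simp only [pairA2]; ring) (fun d x _ => by ring)
  have A3 : Near (disc 2) 4 (fun d : D => d.γ)
      (fun d => pairA3 (islandMet d.s d.β d.π) (islandMet d.s d.β d.π') (zOf d.s d.G d.e)
        (zOf d.s d.G' d.e'))
      (fun d => (islandMet d.s d.β d.πr).h11 (zOf d.s d.Gr d.er)) :=
    ((half _).mul o2 (h11.add o2 h11')).congr o2 (fun d x _ => by simp only [pairA3]; ring)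
      (fun d x _ => by ring)
  have B1 : Unif (disc 3) 4 (fun _ : D => (1 : ℝ))
      (fun d => pairA1 (islandMet d.s d.β d.π) (islandMet d.s d.β d.π') (zOf d.s d.G d.e)
        (zOf d.s d.G' d.e')) :=
    (((half _).mul o3 (k22.add o3 k22')).left).congr o3 fun d x _ => by simp only [pairA1]; ring
  have B2 : Unif (disc 3) 4 (fun _ : D => (1 : ℝ))
      (fun d => pairA2 (islandMet d.s d.β d.π) (islandMet d.s d.β d.π') (zOf d.s d.G d.e)
        (zOf d.s d.G' d.e')) :=
    ((((half _).mul o3 (k12.add o3 k12')).neg o3).left).congr o3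
      fun d x _ => by simp only [pairA2]; ring
  have B3 : Unif (disc 3) 4 (fun _ : D => (1 : ℝ))
      (fun d => pairA3 (islandMet d.s d.β d.π) (islandMet d.s d.β d.π') (zOf d.s d.G d.e)
        (zOf d.s d.G' d.e')) :=
    (((half _).mul o3 (k11.add o3 k11')).left).congr o3 fun d x _ => by simp only [pairA3]; ring
  have Z := ((zn.add o2 zn').mono (m := 4) (by norm_num) Subset.rfl).diff
  obtain ⟨C1, c10, hC1⟩ := A1.left
  obtain ⟨C2, c20, hC2⟩ := A2.left
  obtain ⟨C3, c30, hC3⟩ := A3.left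
  obtain ⟨C4, c40, hC4⟩ := A1.diff
  obtain ⟨C5, c50, hC5⟩ := A2.diff
  obtain ⟨C6, c60, hC6⟩ := A3.diff
  obtain ⟨C7, c70, hC7⟩ := Z
  refine ⟨1 + C1 + C2 + C3 + C4 + C5 + C6 + C7, s0, by linarith, hs0', ?_⟩
  intro s hs hss β hβ hβs γ hγ hγβ π π' πr G G' Gr e e' er ok ok' okr bd bd' bdr sol sol' solr cl cl'
    m m' mr z z' zr hm hm' hmr hz hz' hzr
  subst hm hm' hmr hz hz' hzr
  let d : D := ⟨s, β, γ, π, π', πr, G, G', Gr, e, e', er, hs, hss, hβ, hβs, hγ, hγβ, ok, ok', okr,
    bd, bd', bdr, sol, sol', solr, cl, cl'⟩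
  have up : ∀ {f : Pl → ℝ} {c w : ℝ}, BdOn (disc 2) 4 (c * w) f → 0 ≤ w →
      c ≤ 1 + C1 + C2 + C3 + C4 + C5 + C6 + C7 →
      BdOn (disc 2) 4 ((1 + C1 + C2 + C3 + C4 + C5 + C6 + C7) * w) f :=
    fun h hw hc j hj x hx => (h j hj x hx).trans (mul_le_mul_of_nonneg_right hc hw)
  refine ⟨B1.contDiffOn d, B2.contDiffOn d, B3.contDiffOn d,
    by simpa using up (hC1 d).2 zero_le_one (by linarith),
    by simpa using up (hC2 d).2 zero_le_one (by linarith),
    by simpa using up (hC3 d).2 zero_le_one (by linarith),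
    up (hC4 d).2 hγ.le (by linarith),
    by simpa using up (hC5 d).2 hγ.le (by linarith),
    up (hC6 d).2 hγ.le (by linarith), ?_, fun x hx => ?_⟩
  · intro j hj x hx
    have := up (hC7 d).2 hγ.le (by linarith) j hj x hx
    simpa [two_mul] using this
  · have hz2 : ∀ (H : Pl → R3) (v : R3) (P : Pert), IslandSol k s β M a0 P H v →
        ContDiffOn ℝ 2 (zOf s H v) (disc 3) := fun H v P h =>
      (h.contDiffOn_zOf.mono s34).of_le (by exact_mod_cast (show 2 ≤ k by omega))
    exact pair_identity o3 s hs.ne' _ _ (hz2 _ _ _ sol) (hz2 _ _ _ sol') hx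
      (det_hess_eq_rho hG (by omega) sol hs
        (fun y => by linarith [det_pos d π bd y]) (s34 hx))
      (det_hess_eq_rho hG (by omega) sol' hs
        (fun y => by linarith [det_pos d π' bd' y]) (s34 hx))

end Vale.Agent.P229
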