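import Vale.Agent.P229.Core.AHatAxis
import Vale.Agent.P229.Core.Pair

/-!
# P229, Core: the coefficient `aHat` of the chart equation

`aHatSpec`: `aHat = det D²u / α²` is `β / α²` times `nsq q - 1`, up to `O (s)` in `C²`, and on the
curve `p = 0` its `p`-derivative is `O (s √β)` times `β / α²`.
-/

open scoped ContDiff RealInnerProductSpace Topology Nat
open Set Filter

namespace Vale.Agent.P229

variable {ι : Type*} {w v : ι → ℝ} {U : Set Pl} {n : ℕ} {f : ι → Pl → ℝ}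

/-- Composition of a family with a family of uniformly bounded maps. -/
theorem Unif.comp {V : Set Pl} {g : ι → Pl → Pl} {C : ℝ} (hU : IsOpen U) (hV : IsOpen V)
    (hf : Unif V n w f)
    (hg : ∀ i, ContDiffOn ℝ n (g i) U ∧ BdOn U n C (g i) ∧ MapsTo (g i) U V) :
    Unif U n w (fun i x => f i (g i x)) := by
  obtain ⟨D, d0, h⟩ := hf
  refine ⟨n ! * D * max 1 C ^ n, by positivity, fun i => ⟨(h i).1.comp (hg i).1 (hg i).2.2, ?_⟩⟩
  have := (h i).2.comp hU hV (hg i).2.2 (h i).1 (hg i).1 (hg i).2.1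
  exact this.mono_const (le_of_eq (by ring))

/-- A point bound from a uniform bound. -/
theorem Unif.exists_abs_le (hf : Unif U n w f) :
    ∃ C, 0 ≤ C ∧ ∀ i, ∀ x ∈ U, |f i x| ≤ C * w i :=
  let ⟨C, h0, h⟩ := hf
  ⟨C, h0, fun i _ hx => abs_le_of_bdOn (h i).2 hx⟩

theorem psi_hess {x : Pl} (hx : nsq x < 5) : d1 (d1 psi) x + d2 (d2 psi) x = 1 - nsq x := by
  set q : Pl → ℝ := fun y => nsq y / 4 - nsq y ^ 2 / 16 with hq
  have hU : IsOpen {y : Pl | nsq y < 5} := isOpen_lt (by unfold nsq; fun_prop) continuous_const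
  have he : EqOn psi q {y : Pl | nsq y < 5} := fun y hy => by
    rw [psi, Real.smoothTransition.one_of_one_le (by
      simp only [mem_ofPred_eq] at hy; linarith), mul_one]
  have hd : ∀ y, HasFDerivAt q ((1 / 2 - nsq y / 4) •
      (y.1 • ContinuousLinearMap.fst ℝ ℝ ℝ + y.2 • ContinuousLinearMap.snd ℝ ℝ ℝ)) y := fun y => by
    have hr : HasFDerivAt nsq ((2 * y.1) • ContinuousLinearMap.fst ℝ ℝ ℝ +
        (2 * y.2) • ContinuousLinearMap.snd ℝ ℝ ℝ) y := by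
      have h := ((hasFDerivAt_fst (𝕜 := ℝ) (p := y)).pow 2).fun_add
        ((hasFDerivAt_snd (𝕜 := ℝ) (p := y)).pow 2)
      refine h.congr_fderiv ?_
      ext <;> simp
    refine ((hr.mul_const (4 : ℝ)⁻¹).fun_sub ((hr.pow 2).mul_const (16 : ℝ)⁻¹)).congr_fderiv ?_
    ext <;> simp <;> ring
  have e1 : d1 q = fun y => (1 / 2 - (y.1 ^ 2 + y.2 ^ 2) / 4) * y.1 := funext fun y => by
    simp [d1, (hd y).fderiv, nsq]
  have e2 : d2 q = fun y => (1 / 2 - (y.1 ^ 2 + y.2 ^ 2) / 4) * y.2 := funext fun y => by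
    simp [d2, (hd y).fderiv, nsq]
  have k : ∀ p : Pl → ℝ, DifferentiableAt ℝ p x → HasFDerivAt
      (fun y : Pl => (1 / 2 - (y.1 ^ 2 + y.2 ^ 2) / 4) * p y) _ x := fun p hp =>
    (((hasFDerivAt_fst (𝕜 := ℝ) (p := x)).pow 2).fun_add
      ((hasFDerivAt_snd (𝕜 := ℝ) (p := x)).pow 2) |>.mul_const (4 : ℝ)⁻¹ |>.const_sub (1 / 2)).fun_mul
      hp.hasFDerivAt
  rw [d1_congr hU (fun y hy => d1_congr hU he hy) (show x ∈ {y | nsq y < 5} from hx),
    d2_congr hU (fun y hy => d2_congr hU he hy) (show x ∈ {y | nsq y < 5} from hx), e1, e2]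
  show fderiv ℝ (fun y : Pl => (1 / 2 - (y.1 ^ 2 + y.2 ^ 2) / 4) * y.1) x (1, 0)
    + fderiv ℝ (fun y : Pl => (1 / 2 - (y.1 ^ 2 + y.2 ^ 2) / 4) * y.2) x (0, 1) = _
  have h1 : HasFDerivAt (fun y : Pl => (1 / 2 - (y.1 ^ 2 + y.2 ^ 2) / 4) * y.1) _ x :=
    k _ differentiableAt_fst
  have h2 : HasFDerivAt (fun y : Pl => (1 / 2 - (y.1 ^ 2 + y.2 ^ 2) / 4) * y.2) _ x :=
    k _ differentiableAt_snd
  rw [h1.fderiv, h2.fderiv]
  simp [fderiv_fst, fderiv_snd, nsq]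
  ring

/-- Second derivatives of `r (c f + g)`. -/
theorem dd_lin {f g : Pl → ℝ} (hf : ContDiff ℝ 2 f) (hg : ContDiff ℝ 2 g) (r c : ℝ) (a b x : Pl) :
    fderiv ℝ (fun y => fderiv ℝ (fun y => r * (c * f y + g y)) y b) x a
      = r * (c * fderiv ℝ (fun y => fderiv ℝ f y b) x a + fderiv ℝ (fun y => fderiv ℝ g y b) x a) := by
  have hd : ∀ h : Pl → ℝ, ContDiff ℝ 2 h → Differentiable ℝ (fun y => fderiv ℝ h y b) := fun h hh y =>
    ChartId.differentiableAt_dir hh.contDiffAt b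
  have e : (fun y => fderiv ℝ (fun y => r * (c * f y + g y)) y b)
      = fun y => r * (c * fderiv ℝ f y b + fderiv ℝ g y b) := funext fun y => by
    have df := hf.differentiable (by norm_num) y
    have dg := hg.differentiable (by norm_num) y
    rw [fderiv_const_mul ((df.const_mul c).fun_add dg), fderiv_fun_add (df.const_mul c) dg,
      fderiv_const_mul df]
    simp
    ring
  rw [e, fderiv_const_mul (((hd f hf x).const_mul c).fun_add (hd g hg x)),
    fderiv_fun_add ((hd f hf x).const_mul c) (hd g hg x), fderiv_const_mul (hd f hf x)]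
  simp
  ring

theorem d1_zero {f : Pl → ℝ} (h : ∀ y, f y = 0) (x : Pl) : d1 f x = 0 := by
  simp [d1, show f = fun _ => 0 from funext h]

/-- The data of `AHatSpec`. -/
structure AData (k : ℕ) (M a0 C s0 : ℝ) where
  s : ℝ
  β : ℝ
  π : Pert
  G : Pl → R3
  e : R3
  ch : Chart
  hs : 0 < s
  hs0 : s ≤ s0
  hβ : 0 < β
  hβs : β ≤ s ^ 2
  ok : PertOK π
  bd : ∀ i, BdOn univ 8 (β ^ 2) (π i)
  sol : IslandSol k s β M a0 π G e
  hch : ch.OK s C G e

/-- The metric of the data. -/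
noncomputable def AData.m {k : ℕ} {M a0 C s0 : ℝ} (d : AData k M a0 C s0) : Met :=
  islandMet d.s d.β d.π

theorem Chart.one_le_const {ch : Chart} {s C : ℝ} {G : Pl → R3} {e : R3} (h : ch.OK s C G e) :
    1 ≤ C := by
  obtain ⟨-, -, -, -, -, hα1, hα2, -, -, -, -, -, -, -, -, -, hΦb, -, -, -, -, hΦP, -, -, -, -, -,
    -, -⟩ := h
  have hC : 0 < C := by
    by_contra hC
    push Not at hC
    have hz : ∀ X ∈ disc 3, ch.Φ X = 0 := fun X hX =>
      norm_le_zero_iff.1 ((hΦb.norm_le hX).trans hC)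
    have m1 : ((1, 0) : Pl) ∈ disc 3 := by norm_num [disc, nsq]
    have m0 : (0 : Pl) ∈ disc 3 := zero_mem_disc (by norm_num)
    have e1 := (hΦP _ m1).2
    rw [hz _ m1, ← hz _ m0, (hΦP _ m0).2] at e1
    simp [Prod.ext_iff] at e1
  have := hα1.trans hα2
  rw [div_le_iff₀ hC] at this
  nlinarith

section

variable {k : ℕ} {M a0 C s0 : ℝ}

/-- The curvature of the island over `s² det` is `β (|x|² - 1)` up to `O (β²)`. -/
theorem island_curv (hC : 1 ≤ C) {B : ℝ} (hB0 : 0 ≤ B) (hB : BdOn univ 8 B psi)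
    (hs0 : s0 ≤ 1 / (100 * C ^ 2 * (2 * B + 1))) :
    (∀ d : AData k M a0 C s0, d.s ≤ 1 ∧ C * d.s ≤ 1 / (100 * C) ∧ d.β ≤ 1 ∧ ∀ x, 1 / 2 ≤ d.m.det x) ∧
    Unif (disc (29 / 10)) 6 (fun _ : AData k M a0 C s0 => (1 : ℝ)) (fun d => d.m.det) ∧
    (∃ K, 0 ≤ K ∧ ∀ d : AData k M a0 C s0, ∀ x ∈ disc (29 / 10),
      |d.m.e x - 1| ≤ K * d.β ∧ |d.m.f x| ≤ K * d.β ∧ |d.m.g x - 1| ≤ K * d.β ∧
      |d.m.c111 x| ≤ K * d.β ∧ |d.m.c211 x| ≤ K * d.β ∧ |d.m.c112 x| ≤ K * d.β ∧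
      |d.m.c212 x| ≤ K * d.β ∧ |d.m.c122 x| ≤ K * d.β ∧ |d.m.c222 x| ≤ K * d.β) ∧
    ∃ E : AData k M a0 C s0 → Pl → ℝ, Unif (disc (29 / 10)) 6 (fun d => d.β ^ 2) E ∧
      ∀ d, ∀ x, nsq x < 5 → d.m.rcur x / (d.s ^ 2 * d.m.det x) = d.β * (nsq x - 1) + E d x := by
  set U := disc (29 / 10) with hU
  have oU : IsOpen U := isOpen_disc _
  have hden : 0 < 100 * C ^ 2 * (2 * B + 1) := by positivity
  have hsmall : ∀ d : AData k M a0 C s0, d.s * (100 * C ^ 2 * (2 * B + 1)) ≤ 1 := fun d => by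
    rw [← le_div_iff₀ hden]; exact d.hs0.trans hs0
  have hb : ∀ d : AData k M a0 C s0, d.s ≤ 1 ∧ C * d.s ≤ 1 / (100 * C) ∧ d.β ≤ 1 ∧
      d.s * (2 * B + 1) ≤ 1 / 10 := fun d => by
    have h := hsmall d
    have hC2 : 1 ≤ C ^ 2 := one_le_pow₀ hC
    have p : 0 < d.s * (2 * B + 1) := mul_pos d.hs (by linarith)
    have hsB : d.s * (2 * B + 1) ≤ 1 / 10 := by
      have := mul_nonneg p.le (by linarith : 0 ≤ C ^ 2 - 1)
      linarith
    have h1 : d.s ≤ 1 := by linarith [mul_nonneg d.hs.le hB0]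
    refine ⟨h1, ?_, d.hβs.trans (pow_le_one₀ d.hs.le h1), hsB⟩
    rw [le_div_iff₀ (by positivity)]
    linarith [mul_nonneg (mul_nonneg d.hs.le hB0) (sq_nonneg C)]
  have hdet : ∀ d : AData k M a0 C s0, ∀ x, 1 / 2 ≤ d.m.det x := fun d x =>
    (island_small (fun j hj => hB j (hj.trans (Nat.zero_le _))) d.hs (hb d).1 (hb d).2.2.2 d.hβ
      (hb d).2.2.1 (fun i j hj y hy => (d.bd i j hj y hy).trans (pow_le_one₀ d.hβ.le (hb d).2.2.1)) x).2.2
  refine ⟨fun d => ⟨(hb d).1, (hb d).2.1, (hb d).2.2.1, hdet d⟩, ?_⟩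
  -- the increments of the metric
  have hψ : Unif U 8 (fun _ : AData k M a0 C s0 => (1 : ℝ)) (fun _ => psi) :=
    Unif.of_bound B hB0 fun d => ⟨(contDiff_psi.of_le (WithTop.coe_le_coe.2 le_top)).contDiffOn,
      fun j hj x _ => by simpa using hB j hj x (mem_univ x)⟩
  have hπ : ∀ i, Unif U 8 (fun d : AData k M a0 C s0 => d.β ^ 2) (fun d => d.π i) := fun i =>
    Unif.of_bound 1 zero_le_one fun d => ⟨((d.ok i).1.of_le (WithTop.coe_le_coe.2 le_top)).contDiffOn,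
      fun j hj x _ => by simpa using d.bd i j hj x (mem_univ x)⟩
  have hπ1 : ∀ i, Unif U 8 (fun d : AData k M a0 C s0 => d.β) (fun d => d.π i) := fun i =>
    (hπ i).weight zero_le_one fun d => by nlinarith [d.hβ, (hb d).2.2.1]
  have h2β : Unif U 8 (fun d : AData k M a0 C s0 => d.β) (fun d _ => 2 * d.β) :=
    Unif.const zero_le_two fun d => le_of_eq (abs_of_pos (by linarith [d.hβ]))
  have hs2 : Unif U 8 (fun d : AData k M a0 C s0 => d.s ^ 2) (fun d _ => d.s ^ 2) :=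
    Unif.const zero_le_one fun d => by rw [abs_sq, one_mul]
  set ww := fun d : AData k M a0 C s0 => d.s ^ 2 * d.β with hww
  set E0 := fun (d : AData k M a0 C s0) x => d.s ^ 2 * (2 * d.β * psi x + d.π 0 x) with hE0
  set E1 := fun (d : AData k M a0 C s0) x => d.s ^ 2 * d.π 1 x with hE1
  set E2 := fun (d : AData k M a0 C s0) x => d.s ^ 2 * (2 * d.β * psi x + d.π 2 x) with hE2
  have u0 : Unif U 8 ww E0 := hs2.mul oU ((h2β.mul_one oU hψ).add oU (hπ1 0))
  have u1 : Unif U 8 ww E1 := hs2.mul oU (hπ1 1)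
  have u2 : Unif U 8 ww E2 := hs2.mul oU ((h2β.mul_one oU hψ).add oU (hπ1 2))
  have hww1 : ∀ d, ww d ≤ 1 * d.β := fun d => by
    rw [hww, one_mul]; exact mul_le_of_le_one_left d.hβ.le (pow_le_one₀ d.hs.le (hb d).1)
  have hww2 : ∀ d, ww d ≤ 1 * (fun _ : AData k M a0 C s0 => (1 : ℝ)) d := fun d =>
    (hww1 d).trans (by simpa using (hb d).2.2.1)
  have one : ∀ n, Unif U n (fun _ : AData k M a0 C s0 => (1 : ℝ)) (fun _ _ => (1 : ℝ)) := fun n =>
    Unif.const zero_le_one fun _ => by simp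
  have two : ∀ n, Unif U n (fun _ : AData k M a0 C s0 => (1 : ℝ)) (fun _ _ => (2 : ℝ)) := fun n =>
    Unif.const zero_le_two fun _ => by simp
  have half : Unif U 6 (fun _ : AData k M a0 C s0 => (1 : ℝ)) (fun _ _ => (1 / 2 : ℝ)) :=
    Unif.const zero_le_one fun _ => by norm_num
  have me : Unif U 6 (fun _ : AData k M a0 C s0 => (1 : ℝ)) (fun d => d.m.e) :=
    (((one 8).add oU (u0.weight zero_le_one hww2)).mono (by norm_num) Subset.rfl).congr oU
      fun d x _ => rfl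
  have mf : Unif U 6 (fun _ : AData k M a0 C s0 => (1 : ℝ)) (fun d => d.m.f) :=
    ((u1.weight zero_le_one hww2).mono (by norm_num) Subset.rfl).congr oU fun d x _ => rfl
  have mg : Unif U 6 (fun _ : AData k M a0 C s0 => (1 : ℝ)) (fun d => d.m.g) :=
    (((one 8).add oU (u2.weight zero_le_one hww2)).mono (by norm_num) Subset.rfl).congr oU
      fun d x _ => rfl
  have udet : Unif U 6 (fun _ : AData k M a0 C s0 => (1 : ℝ)) (fun d => d.m.det) :=
    ((me.mul_one oU mg).sub oU (mf.mul_one oU mf)).congr oU fun d x _ => by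
      simp only [Met.det]; ring
  refine ⟨udet, ?_⟩
  have uinv := udet.inv oU fun d x _ => hdet d x
  have de : ∀ d : AData k M a0 C s0, d1 d.m.e = d1 (E0 d) ∧ d2 d.m.e = d2 (E0 d) ∧
      d1 d.m.g = d1 (E2 d) ∧ d2 d.m.g = d2 (E2 d) := fun d => by
    refine ⟨?_, ?_, ?_, ?_⟩ <;> funext x <;> simp [d1, d2, AData.m, islandMet, hE0, hE2]
  have df : ∀ d : AData k M a0 C s0, d1 d.m.f = d1 (E1 d) ∧ d2 d.m.f = d2 (E1 d) := fun d =>
    ⟨rfl, rfl⟩
  have e1 := (u0.d1 oU).mono (m := 6) (by norm_num) Subset.rfl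
  have e2 := (u0.d2 oU).mono (m := 6) (by norm_num) Subset.rfl
  have f1 := (u1.d1 oU).mono (m := 6) (by norm_num) Subset.rfl
  have f2 := (u1.d2 oU).mono (m := 6) (by norm_num) Subset.rfl
  have g1 := (u2.d1 oU).mono (m := 6) (by norm_num) Subset.rfl
  have g2 := (u2.d2 oU).mono (m := 6) (by norm_num) Subset.rfl
  have q := half.mul_one oU uinv
  have two6 := two 6
  have k111 : Unif U 6 ww (fun d => d.m.c111) :=
    ((((mg.one_mul oU e1).sub oU ((two6.mul_one oU mf).one_mul oU f1)).add oU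
      (mf.one_mul oU e2)).mul_one oU q).congr oU fun d x _ => by
      simp only [Met.c111, de d, df d, div_eq_mul_inv, mul_inv]; ring
  have k211 : Unif U 6 ww (fun d => d.m.c211) :=
    (((((two6.mul_one oU me).one_mul oU f1).sub oU (me.one_mul oU e2)).sub oU
      (mf.one_mul oU e1)).mul_one oU q).congr oU fun d x _ => by
      simp only [Met.c211, de d, df d, div_eq_mul_inv, mul_inv]; ring
  have k112 : Unif U 6 ww (fun d => d.m.c112) :=
    (((mg.one_mul oU e2).sub oU (mf.one_mul oU g1)).mul_one oU q).congr oU fun d x _ => by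
      simp only [Met.c112, de d, div_eq_mul_inv, mul_inv]; ring
  have k212 : Unif U 6 ww (fun d => d.m.c212) :=
    (((me.one_mul oU g1).sub oU (mf.one_mul oU e2)).mul_one oU q).congr oU fun d x _ => by
      simp only [Met.c212, de d, div_eq_mul_inv, mul_inv]; ring
  have k122 : Unif U 6 ww (fun d => d.m.c122) :=
    (((((two6.mul_one oU mg).one_mul oU f2).sub oU (mg.one_mul oU g1)).sub oU
      (mf.one_mul oU g2)).mul_one oU q).congr oU fun d x _ => by
      simp only [Met.c122, de d, df d, div_eq_mul_inv, mul_inv]; ring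
  have k222 : Unif U 6 ww (fun d => d.m.c222) :=
    ((((me.one_mul oU g2).sub oU ((two6.mul_one oU mf).one_mul oU f2)).add oU
      (mf.one_mul oU g1)).mul_one oU q).congr oU fun d x _ => by
      simp only [Met.c222, de d, df d, div_eq_mul_inv, mul_inv]; ring
  refine ⟨?_, ?_⟩
  · obtain ⟨K0, p0, b0⟩ := u0.exists_abs_le
    obtain ⟨K1, p1, b1⟩ := u1.exists_abs_le
    obtain ⟨K2, p2, b2⟩ := u2.exists_abs_le
    obtain ⟨L1, q1, c1⟩ := k111.exists_abs_le
    obtain ⟨L2, q2, c2⟩ := k211.exists_abs_le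
    obtain ⟨L3, q3, c3⟩ := k112.exists_abs_le
    obtain ⟨L4, q4, c4⟩ := k212.exists_abs_le
    obtain ⟨L5, q5, c5⟩ := k122.exists_abs_le
    obtain ⟨L6, q6, c6⟩ := k222.exists_abs_le
    refine ⟨K0 + K1 + K2 + L1 + L2 + L3 + L4 + L5 + L6, by positivity, fun d x hx => ?_⟩
    have up : ∀ {a L : ℝ}, |a| ≤ L * ww d → 0 ≤ L →
        L ≤ K0 + K1 + K2 + L1 + L2 + L3 + L4 + L5 + L6 →
        |a| ≤ (K0 + K1 + K2 + L1 + L2 + L3 + L4 + L5 + L6) * d.β := fun h hL hle =>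
      h.trans ((mul_le_mul_of_nonneg_left (by simpa using hww1 d) hL).trans
        (mul_le_mul_of_nonneg_right hle d.hβ.le))
    exact ⟨up (by simpa [AData.m, islandMet, hE0] using b0 d x hx) p0 (by linarith),
      up (by simpa [AData.m, islandMet, hE1] using b1 d x hx) p1 (by linarith),
      up (by simpa [AData.m, islandMet, hE2] using b2 d x hx) p2 (by linarith),
      up (c1 d x hx) q1 (by linarith), up (c2 d x hx) q2 (by linarith),
      up (c3 d x hx) q3 (by linarith), up (c4 d x hx) q4 (by linarith),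
      up (c5 d x hx) q5 (by linarith), up (c6 d x hx) q6 (by linarith)⟩
  -- the error
  set Qd := fun (d : AData k M a0 C s0) x => (d.s ^ 2)⁻¹ *
    (d.m.e x * (d.m.c112 x ^ 2 - d.m.c111 x * d.m.c122 x)
      + d.m.f x * (2 * d.m.c112 x * d.m.c212 x - d.m.c111 x * d.m.c222 x - d.m.c211 x * d.m.c122 x)
      + d.m.g x * (d.m.c212 x ^ 2 - d.m.c211 x * d.m.c222 x)) with hQd
  have uQ : Unif U 6 (fun d : AData k M a0 C s0 => d.β ^ 2) Qd := by
    have hsi : Unif U 6 (fun d : AData k M a0 C s0 => (d.s ^ 2)⁻¹) (fun d _ => (d.s ^ 2)⁻¹) :=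
      Unif.const zero_le_one fun d => by rw [abs_inv, abs_sq, one_mul]
    have a1 := me.one_mul oU ((k112.mul oU k112).sub oU (k111.mul oU k122))
    have a2 := mf.one_mul oU (((two6.one_mul oU (k112.mul oU k212)).sub oU
      (k111.mul oU k222)).sub oU (k211.mul oU k122))
    have a3 := mg.one_mul oU ((k212.mul oU k212).sub oU (k211.mul oU k222))
    refine ((hsi.mul oU ((a1.add oU a2).add oU a3)).weight zero_le_one fun d => ?_).congr oU
      fun d x _ => by simp only [hQd]; ring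
    have := d.hs
    simp only [hww, one_mul]
    rw [show (d.s ^ 2)⁻¹ * (d.s ^ 2 * d.β * (d.s ^ 2 * d.β)) = d.s ^ 2 * d.β ^ 2 by field_simp]
    exact mul_le_of_le_one_left (sq_nonneg _) (pow_le_one₀ d.hs.le (hb d).1)
  set LP := fun (d : AData k M a0 C s0) => lin2 d.π with hLP
  have uL : Unif U 6 (fun d : AData k M a0 C s0 => d.β ^ 2) LP := by
    have a := ((((hπ 0).d2 oU).d2 oU).sub oU ((two 6).one_mul oU (((hπ 1).d2 oU).d1 oU))).add oU
      (((hπ 2).d1 oU).d1 oU)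
    exact ((half.one_mul oU a).neg oU).congr oU fun d x _ => by simp only [hLP, lin2]; ring
  have unsq : Unif U 6 (fun _ : AData k M a0 C s0 => (1 : ℝ)) (fun _ => nsq) := by
    have hn : ContDiffOn ℝ (6 : ℕ) nsq univ :=
      ((contDiff_fst.pow 2).add (contDiff_snd.pow 2)).contDiffOn
    obtain ⟨Cn, hn0, hnb⟩ := exists_bdOn_compact isOpen_univ hn
      (isCompact_closedBall (0 : Pl) 3) (subset_univ _)
    refine Unif.of_bound Cn hn0 fun d => ⟨hn.mono (subset_univ _), fun j hj x hx => ?_⟩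
    rw [mul_one]
    refine hnb j hj x ?_
    rw [Metric.mem_closedBall, dist_zero_right]
    linarith [norm_lt_of_mem_disc (by norm_num) hx]
  set E := fun (d : AData k M a0 C s0) x =>
    (d.β * (nsq x - 1) * (1 - d.m.det x) + LP d x + Qd d x) * (d.m.det x)⁻¹ with hEdef
  refine ⟨E, ?_, fun d x hx => ?_⟩
  · have hβc : Unif U 6 (fun d : AData k M a0 C s0 => d.β) (fun d _ => d.β) :=
      Unif.const zero_le_one fun d => le_of_eq (by rw [abs_of_pos d.hβ, one_mul])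
    have w6 : ∀ {F : AData k M a0 C s0 → Pl → ℝ}, Unif U 8 ww F →
        Unif U 6 (fun d : AData k M a0 C s0 => d.β) F := fun h =>
      (h.weight zero_le_one hww1).mono (by norm_num) Subset.rfl
    have v0 := w6 u0
    have v1 := w6 u1
    have v2 := w6 u2
    have one' : ∀ {F : AData k M a0 C s0 → Pl → ℝ}, Unif U 6 (fun d : AData k M a0 C s0 => d.β) F →
        Unif U 6 (fun _ => (1 : ℝ)) F := fun h =>
      h.weight zero_le_one fun d => by simpa using (hb d).2.2.1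
    have uD : Unif U 6 (fun d : AData k M a0 C s0 => d.β) (fun d x => 1 - d.m.det x) :=
      ((((v0.add oU v2).add oU ((one' v0).one_mul oU v2)).sub oU ((one' v1).one_mul oU v1)).neg
        oU).congr oU fun d x _ => by
          simp only [Met.det, AData.m, islandMet, hE0, hE1, hE2]; ring
    have a := ((((hβc.mul_one oU (unsq.sub oU (one 6))).mul oU uD).weight (v := fun d => d.β ^ 2)
      zero_le_one fun d => le_of_eq (by ring)).add oU uL).add oU uQ
    exact (a.mul_one oU uinv).congr oU fun d x _ => rfl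
  · have hψ2 : ContDiff ℝ 2 psi := contDiff_psi.of_le (WithTop.coe_le_coe.2 le_top)
    have hπ2 : ∀ i, ContDiff ℝ 2 (d.π i) := fun i => (d.ok i).1.of_le (WithTop.coe_le_coe.2 le_top)
    have a00 : d2 (d2 d.m.e) x = d.s ^ 2 * (2 * d.β * d2 (d2 psi) x + d2 (d2 (d.π 0)) x) := by
      rw [(de d).2.1, hE0]; exact dd_lin hψ2 (hπ2 0) _ _ (0, 1) (0, 1) x
    have a22 : d1 (d1 d.m.g) x = d.s ^ 2 * (2 * d.β * d1 (d1 psi) x + d1 (d1 (d.π 2)) x) := by
      rw [(de d).2.2.1, hE2]; exact dd_lin hψ2 (hπ2 2) _ _ (1, 0) (1, 0) x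
    have a11 : d1 (d2 d.m.f) x = d.s ^ 2 * d1 (d2 (d.π 1)) x := by
      have h := dd_lin hψ2 (hπ2 1) (d.s ^ 2) 0 (1, 0) (0, 1) x
      simp only [zero_mul, zero_add] at h
      exact h
    have hdp : d.m.det x ≠ 0 := by linarith [hdet d x]
    have hs' := d.hs.ne'
    simp only [Met.rcur, hEdef, hQd, hLP, lin2, a00, a11, a22]
    field_simp
    linear_combination (-(2 : ℝ) * d.β * d.s ^ 2) * psi_hess hx

end

/-- `|Du|²` at `Θ q`. -/
noncomputable def Chart.gg (ch : Chart) (s : ℝ) (G : Pl → R3) (e : R3) (q : Pl) : ℝ :=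
  d1 (ch.u s G e) (ch.Θ q) * d1 (ch.u s G e) (ch.Θ q)
    + d2 (ch.u s G e) (ch.Θ q) * d2 (ch.u s G e) (ch.Θ q)

/-- `(1 + s² |Du|²)²` at `Θ q`. -/
noncomputable def Chart.wW (ch : Chart) (s : ℝ) (G : Pl → R3) (e : R3) (q : Pl) : ℝ :=
  (1 + s ^ 2 * ch.gg s G e q) * (1 + s ^ 2 * ch.gg s G e q)

/-- The deviation of `(|Lam q|² - 1) (1 + s² |Du|²)²` from `|q|² - 1`. -/
noncomputable def Chart.dev (ch : Chart) (s : ℝ) (G : Pl → R3) (e : R3) (q : Pl) : ℝ :=
  (nsq (ch.Lam q) - nsq q) * ch.wW s G e q + (nsq q - 1) * (ch.wW s G e q - 1)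

/-- The `p`-derivative of the deviation on `p = 0`. -/
theorem dev_axis {s C β K2 CW CG CY : ℝ} {G : Pl → R3} {e : R3} {ch : Chart} (hC : 1 ≤ C)
    (hs : 0 < s) (hs1 : s ≤ 1) (hβ : 0 ≤ β) (hK2 : 0 ≤ K2) (hG0 : 0 ≤ CG) (hch : ch.OK s C G e)
    (hU11 : ∀ X ∈ disc 3, 1 / (2 * C) ≤ d1 (d1 (ch.u s G e)) X) {y : ℝ}
    (hq00 : ((0, y) : Pl) ∈ disc 2) (hn : nsq (ch.Lam (0, y)) < 441 / 100)
    (hx1 : d1 (ch.u s G e) (ch.Θ (0, y)) = 0) (hy1 : |d2 (ch.u s G e) (ch.Θ (0, y))| ≤ K2 * β)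
    (hpr : |(ch.Lam (0, y)).1 * (d1 ch.Φ (ch.Θ (0, y))).1
      + (ch.Lam (0, y)).2 * (d1 ch.Φ (ch.Θ (0, y))).2| ≤ K2 * β)
    (hCW : |ch.wW s G e (0, y)| ≤ CW) (hCG : |ch.gg s G e (0, y)| ≤ CG)
    (hY1 : |d1 (fun q => d2 (ch.u s G e) (ch.Θ q)) (0, y)| ≤ CY) :
    |d1 (ch.dev s G e) (0, y)|
      ≤ (2 * (2 * C ^ 2) * K2 * CW + 6 * (2 * (1 + CG) * (2 * K2 * CY))) * β := by
  obtain ⟨-, -, -, -, -, hα1, hα2, -, -, -, -, -, -, hΦc, hu, hΘc, -, -, -, -, -, -, -, hΨΘ, -, -,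
    -, -, -⟩ := id hch
  have hα : 0 < ch.α := lt_of_lt_of_le (by positivity) hα1
  have o3 := isOpen_disc 3
  set q0 : Pl := (0, y) with hq0
  have hq05 : q0 ∈ disc (5 / 2) := disc_mono (by norm_num) (by norm_num) hq00
  obtain ⟨-, -, t1, -, t3, -⟩ := theta_diff hC hch hq05
  have hX : ch.Θ q0 ∈ disc 3 := disc_mono (by norm_num) (by norm_num) (hΨΘ q0 hq05).1
  have dΘ : DifferentiableAt ℝ ch.Θ q0 := (hΘc.contDiffAt ((isOpen_disc _).mem_nhds hq05)).differentiableAt (by simp)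
  have dΦ : DifferentiableAt ℝ ch.Φ (ch.Θ q0) := (hΦc.contDiffAt (o3.mem_nhds hX)).differentiableAt (by simp)
  have eL : d1 ch.Lam q0 = (d1 ch.Θ q0).1 • d1 ch.Φ (ch.Θ q0) := by
    have h := d1_comp (f := ch.Φ) dΦ dΘ
    rw [t1, zero_smul, add_zero] at h
    exact h
  have dL : DifferentiableAt ℝ ch.Lam q0 := DifferentiableAt.comp q0 (g := ch.Φ) dΦ dΘ
  have hdL : d1 (fun q => nsq (ch.Lam q)) q0
      = 2 * (d1 ch.Θ q0).1 * ((ch.Lam q0).1 * (d1 ch.Φ (ch.Θ q0)).1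
        + (ch.Lam q0).2 * (d1 ch.Φ (ch.Θ q0)).2) := by
    have h := ((dL.hasFDerivAt.fst.pow 2).fun_add (dL.hasFDerivAt.snd.pow 2)).fderiv
    show fderiv ℝ (fun q => (ch.Lam q).1 ^ 2 + (ch.Lam q).2 ^ 2) q0 (1, 0) = _
    rw [h]
    have e1 : fderiv ℝ ch.Lam q0 (1, 0) = (d1 ch.Θ q0).1 • d1 ch.Φ (ch.Θ q0) := eL
    simp [e1]
    ring
  have cu : ContDiffAt ℝ 2 (ch.u s G e) (ch.Θ q0) :=
    (hu.contDiffAt (o3.mem_nhds hX)).of_le (by norm_num)
  have dY : DifferentiableAt ℝ (fun q => d2 (ch.u s G e) (ch.Θ q)) q0 :=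
    DifferentiableAt.comp q0 (g := d2 (ch.u s G e)) (ChartId.differentiableAt_dir cu (0, 1)) dΘ
  have dX : DifferentiableAt ℝ (fun q => d1 (ch.u s G e) (ch.Θ q)) q0 :=
    DifferentiableAt.comp q0 (g := d1 (ch.u s G e)) (ChartId.differentiableAt_dir cu (1, 0)) dΘ
  have hdg : d1 (ch.gg s G e) q0 = 2 * d2 (ch.u s G e) (ch.Θ q0)
      * d1 (fun q => d2 (ch.u s G e) (ch.Θ q)) q0 := by
    rw [show ch.gg s G e = fun q => d1 (ch.u s G e) (ch.Θ q) * d1 (ch.u s G e) (ch.Θ q)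
      + d2 (ch.u s G e) (ch.Θ q) * d2 (ch.u s G e) (ch.Θ q) from rfl,
      d1_add (dX.fun_mul dX) (dY.fun_mul dY), d1_mul dX dX, d1_mul dY dY, hx1]
    ring
  have dg : DifferentiableAt ℝ (ch.gg s G e) q0 := (dX.fun_mul dX).fun_add (dY.fun_mul dY)
  have dw : DifferentiableAt ℝ (fun q => 1 + s ^ 2 * ch.gg s G e q) q0 := (dg.const_mul _).const_add _
  have dW : DifferentiableAt ℝ (ch.wW s G e) q0 := dw.fun_mul dw
  have hdW : d1 (ch.wW s G e) q0 = 2 * (1 + s ^ 2 * ch.gg s G e q0) * (s ^ 2 * d1 (ch.gg s G e) q0) := by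
    show d1 (fun q => (1 + s ^ 2 * ch.gg s G e q) * (1 + s ^ 2 * ch.gg s G e q)) q0 = _
    rw [d1_mul dw dw]
    simp [d1, fderiv_const_mul dg]
    ring
  have dn : DifferentiableAt ℝ nsq q0 := (differentiableAt_fst.pow 2).fun_add (differentiableAt_snd.pow 2)
  have dnL : DifferentiableAt ℝ (fun q => nsq (ch.Lam q)) q0 :=
    (dL.fst.pow 2).fun_add (dL.snd.pow 2)
  have dn1 : d1 nsq q0 = 0 := by
    have h := ((hasFDerivAt_fst (𝕜 := ℝ) (p := q0)).pow 2).fun_add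
      ((hasFDerivAt_snd (𝕜 := ℝ) (p := q0)).pow 2)
    show fderiv ℝ (fun y : Pl => y.1 ^ 2 + y.2 ^ 2) q0 (1, 0) = 0
    rw [h.fderiv]; simp [hq0]
  have hTd : d1 (ch.dev s G e) q0 = d1 (fun q => nsq (ch.Lam q)) q0 * ch.wW s G e q0
      + (nsq (ch.Lam q0) - 1) * d1 (ch.wW s G e) q0 := by
    show d1 (fun q => (nsq (ch.Lam q) - nsq q) * ch.wW s G e q + (nsq q - 1) * (ch.wW s G e q - 1)) q0 = _
    have a1 := dnL.fun_sub dn
    have a2 : DifferentiableAt ℝ (fun q => nsq q - 1) q0 := dn.sub_const 1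
    have a3 : DifferentiableAt ℝ (fun q => ch.wW s G e q - 1) q0 := dW.sub_const 1
    have a4 : ∀ (f : Pl → ℝ) (r : ℝ), d1 (fun q => f q - r) q0 = d1 f q0 := fun f r => by
      simp [d1, fderiv_sub_const]
    rw [d1_add (a1.fun_mul dW) (a2.fun_mul a3), d1_mul a1 dW, d1_mul a2 a3, d1_sub dnL dn,
      a4, a4, dn1]
    ring
  have hp : |(d1 ch.Θ q0).1| ≤ 2 * C ^ 2 := by
    have h := hU11 _ hX
    have h0 : 0 < d1 (d1 (ch.u s G e)) (ch.Θ q0) := lt_of_lt_of_le (by positivity) h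
    rw [show (d1 ch.Θ q0).1 = ch.α / d1 (d1 (ch.u s G e)) (ch.Θ q0) by
      rw [eq_div_iff h0.ne', t3], abs_of_pos (div_pos hα h0), div_le_iff₀ h0]
    rw [div_le_iff₀ (by positivity)] at h
    calc ch.α ≤ C * 1 := by rw [mul_one]; exact hα2
      _ ≤ C * (d1 (d1 (ch.u s G e)) (ch.Θ q0) * (2 * C)) := by gcongr
      _ = _ := by ring
  have hnl : |nsq (ch.Lam q0) - 1| ≤ 6 := by
    have : nsq (ch.Lam q0) < 441 / 100 := hn
    have h0 : 0 ≤ nsq (ch.Lam q0) := add_nonneg (sq_nonneg _) (sq_nonneg _)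
    rw [abs_le]; constructor <;> linarith
  have hw : |1 + s ^ 2 * ch.gg s G e q0| ≤ 1 + CG := by
    refine (abs_add_le _ _).trans (add_le_add (le_of_eq abs_one) ?_)
    rw [abs_mul, abs_sq]
    exact (mul_le_of_le_one_left (abs_nonneg _) (pow_le_one₀ hs.le hs1)).trans
      hCG
  have i1 : |d1 (fun q => nsq (ch.Lam q)) q0 * ch.wW s G e q0| ≤ 2 * (2 * C ^ 2) * (K2 * β) * CW := by
    rw [hdL, abs_mul, abs_mul, abs_mul, abs_two]
    gcongr
  have i2 : |(nsq (ch.Lam q0) - 1) * d1 (ch.wW s G e) q0| ≤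
      6 * (2 * (1 + CG) * (1 * (2 * (K2 * β) * CY))) := by
    rw [hdW, hdg, abs_mul, abs_mul, abs_mul, abs_mul, abs_mul, abs_mul, abs_two, abs_sq]
    gcongr
    exact pow_le_one₀ hs.le hs1
  rw [hTd]
  refine (abs_add_le _ _).trans ((add_le_add i1 i2).trans (le_of_eq ?_))
  ring

/-- The three estimates from the decomposition `β' (|q|² - 1) + β' T + F`. -/
theorem split_est {f T F : Pl → ℝ} {s β' C' CT CF γ L : ℝ} (hβ'0 : 0 < β') (hs : 0 ≤ s)
    (hCT : 0 ≤ CT) (hCF : 0 ≤ CF) (hL : 0 ≤ L)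
    (heq : EqOn f (fun q => β' * (nsq q - 1) + β' * T q + F q) (disc 2))
    (hTc : ContDiffOn ℝ 2 T (disc 2)) (hbT : BdOn (disc 2) 2 (CT * s) T)
    (hFc : ContDiffOn ℝ 3 F (disc 2)) (hbE : BdOn (disc 2) 3 (CF * γ) F)
    (hγ : CF * γ ≤ L * (s * β')) (hγ' : CF * γ ≤ L * (s * β') * Real.sqrt β')
    (hax : ∀ y : ℝ, ((0, y) : Pl) ∈ disc 2 → |d1 T (0, y)| ≤ L * (s * Real.sqrt β'))
    (hC' : CT + 2 * L ≤ C') {q : Pl} (hq : q ∈ disc 2) :
    |f q - β' * (nsq q - 1)| ≤ C' * s * β' ∧ |d2 f q - 2 * β' * q.2| ≤ C' * s * β' ∧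
      |d1 f q - 2 * β' * q.1| ≤ C' * s * β' * (|q.1| + Real.sqrt β') := by
  have o2 := isOpen_disc 2
  have hsb : 0 ≤ s * β' := mul_nonneg hs hβ'0.le
  have dT : ∀ x ∈ disc 2, DifferentiableAt ℝ (T) x := fun x hx =>
    diffAt_of_open o2 hTc (by norm_num) hx
  have dE : ∀ x ∈ disc 2, DifferentiableAt ℝ (F) x := fun x hx =>
    diffAt_of_open o2 hFc (by norm_num) hx
  have hder : ∀ (v : Pl) (x : Pl), x ∈ disc 2 → fderiv ℝ (f) x v
      = β' * (2 * x.1 * v.1 + 2 * x.2 * v.2) + β' * fderiv ℝ (T) x v + fderiv ℝ (F) x v :=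
    fun v x hx => by
    have he : f =ᶠ[𝓝 x] fun q => β' * (nsq q - 1) + β' * T q + F q :=
      eventually_of_mem (o2.mem_nhds hx) heq
    have hr : HasFDerivAt (fun q : Pl => nsq q - 1) ((2 * x.1) • ContinuousLinearMap.fst ℝ ℝ ℝ +
        (2 * x.2) • ContinuousLinearMap.snd ℝ ℝ ℝ) x := by
      have h := ((hasFDerivAt_fst (𝕜 := ℝ) (p := x)).pow 2).fun_add
        ((hasFDerivAt_snd (𝕜 := ℝ) (p := x)).pow 2)
      exact (h.sub_const 1).congr_fderiv (by ext <;> simp)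
    rw [he.fderiv_eq, (((hr.const_mul β').fun_add ((dT x hx).hasFDerivAt.const_mul β')).fun_add
      (dE x hx).hasFDerivAt).fderiv]
    simp
    ring
  refine ⟨?_, ?_, ?_⟩
  · rw [heq hq]
    calc |β' * (nsq q - 1) + β' * T q + F q - β' * (nsq q - 1)|
        = |β' * T q + F q| := by ring_nf
      _ ≤ β' * (CT * s) + L * (s * β') := (abs_add_le _ _).trans (add_le_add (by
          rw [abs_mul, abs_of_pos hβ'0]; gcongr; exact abs_le_of_bdOn hbT hq)
          ((abs_le_of_bdOn hbE hq).trans hγ))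
      _ ≤ C' * s * β' := by linarith [mul_le_mul_of_nonneg_right hC' hsb, mul_nonneg hL hsb]
  · show |fderiv ℝ f q (0, 1) - _| ≤ _
    rw [hder _ q hq]
    calc |β' * (2 * q.1 * 0 + 2 * q.2 * 1) + β' * d2 T q + d2 F q - 2 * β' * q.2|
        = |β' * d2 T q + d2 F q| := by ring_nf
      _ ≤ β' * (CT * s) + L * (s * β') := (abs_add_le _ _).trans (add_le_add (by
          rw [abs_mul, abs_of_pos hβ'0]; gcongr
          exact abs_le_of_bdOn (BdOn.d2 (k := 1) o2 hTc hbT) hq)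
          ((abs_le_of_bdOn (BdOn.d2 (k := 2) o2 hFc hbE) hq).trans hγ))
      _ ≤ C' * s * β' := by linarith [mul_le_mul_of_nonneg_right hC' hsb, mul_nonneg hL hsb]
  · set q0 : Pl := (0, q.2) with hq0
    have hq00 : q0 ∈ disc 2 := by
      simp only [disc, nsq, mem_ofPred_eq, hq0] at hq ⊢; nlinarith [sq_nonneg q.1]
    have hlip : |d1 T q - d1 T q0| ≤ CT * s * |q.1| := by
      have h := (BdOn.d1 (k := 1) o2 hTc hbT).lip o2 (convex_disc 2)
        (contDiffOn_d1 (k := 1) o2 hTc) le_rfl hq hq00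
      simpa [hq0, Prod.norm_def] using h
    have hT1 : |d1 T q| ≤ CT * s * |q.1| + L * (s * Real.sqrt β') := by
      linarith [abs_sub_abs_le_abs_sub (d1 T q) (d1 T q0), hax q.2 hq00]
    show |fderiv ℝ f q (1, 0) - _| ≤ _
    rw [hder _ q hq]
    calc |β' * (2 * q.1 * 1 + 2 * q.2 * 0) + β' * d1 T q + d1 F q - 2 * β' * q.1|
        = |β' * d1 T q + d1 F q| := by ring_nf
      _ ≤ β' * (CT * s * |q.1| + L * (s * Real.sqrt β')) + L * (s * β') * Real.sqrt β' := by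
          refine (abs_add_le _ _).trans (add_le_add (by rw [abs_mul, abs_of_pos hβ'0]; gcongr) ?_)
          exact (abs_le_of_bdOn (BdOn.d1 (k := 2) o2 hFc hbE) hq).trans hγ'
      _ ≤ C' * s * β' * (|q.1| + Real.sqrt β') := by
          have p1 : 0 ≤ s * β' * |q.1| := mul_nonneg hsb (abs_nonneg _)
          have p2 : 0 ≤ s * β' * Real.sqrt β' := mul_nonneg hsb (Real.sqrt_nonneg _)
          have l1 : CT ≤ C' := by linarith
          have l2 : 2 * L ≤ C' := by linarith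
          linarith [mul_le_mul_of_nonneg_right l1 p1, mul_le_mul_of_nonneg_right l2 p2]

theorem aHatSpec {k : ℕ} (hG : GaussSpec) (hk : 40 ≤ k) : AHatSpec k := by
  intro M a0 C _
  rcases lt_or_ge C 1 with hC1 | hC
  · exact ⟨1, 1, le_rfl, one_pos, fun s _ _ β _ _ π G e ch _ _ _ hch =>
      absurd (Chart.one_le_const hch) (not_le.2 hC1)⟩
  obtain ⟨B, hB0, hB⟩ := psi_bdOn 8
  set s0 := 1 / (100 * C ^ 2 * (2 * B + 1)) with hs0
  obtain ⟨hb, udet, ⟨K, hK, hm⟩, E, uE, hR⟩ :=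
    island_curv (k := k) (M := M) (a0 := a0) hC hB0 hB (le_refl s0)
  let D := AData k M a0 C s0
  have o2 := isOpen_disc 2
  have o3 := isOpen_disc 3
  have o29 := isOpen_disc (29 / 10)
  have s25 : disc 2 ⊆ disc (5 / 2) := disc_mono (by norm_num) (by norm_num)
  have hΘ : ∀ d : D, ContDiffOn ℝ 3 d.ch.Θ (disc 2) ∧ BdOn (disc 2) 3 C d.ch.Θ ∧
      MapsTo d.ch.Θ (disc 2) (disc 3) := fun d => by
    obtain ⟨-, -, -, -, -, -, -, -, -, -, -, -, -, -, -, hΘc, -, -, hΘb, -, -, -, -, hΨΘ, -⟩ := d.hch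
    exact ⟨(hΘc.mono s25).of_le (by norm_num), (hΘb.mono_set s25).mono_order (by norm_num),
      fun q hq => disc_mono (by norm_num) (by norm_num) (hΨΘ q (s25 hq)).1⟩
  have hnL : ∀ d : D, ContDiffOn ℝ 35 (fun q => nsq (d.ch.Lam q) - nsq q) (disc (5 / 2)) ∧
      BdOn (disc (5 / 2)) 2 (C * d.s) (fun q => nsq (d.ch.Lam q) - nsq q) ∧
      ∀ q ∈ disc 2, nsq (d.ch.Lam q) < 441 / 100 := fun d => by
    obtain ⟨-, -, -, -, -, -, -, -, -, -, -, -, -, hΦc, -, hΘc, -, -, -, -, -, -, -, hΨΘ, -, -, -,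
      hn, -⟩ := d.hch
    have hnc : ContDiff ℝ 35 nsq := (contDiff_fst.pow 2).add (contDiff_snd.pow 2)
    refine ⟨((hnc.comp_contDiffOn ((hΦc.of_le (by norm_num)).comp hΘc fun q hq =>
      disc_mono (by norm_num) (by norm_num) (hΨΘ q hq).1))).sub hnc.contDiffOn, hn, fun q hq => ?_⟩
    have h := (abs_le.1 (abs_le_of_bdOn hn (s25 hq))).2
    have : C * d.s ≤ 1 / 100 := by
      refine (hb d).2.1.trans (one_div_le_one_div_of_le (by norm_num) ?_); linarith
    simp only [disc, mem_ofPred_eq] at hq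
    linarith
  have hLam : ∀ d : D, ContDiffOn ℝ 3 d.ch.Lam (disc 2) ∧ BdOn (disc 2) 3 C d.ch.Lam ∧
      MapsTo d.ch.Lam (disc 2) (disc (29 / 10)) := fun d => by
    obtain ⟨-, -, -, -, -, -, -, -, -, -, -, -, -, hΦc, -, hΘc, -, -, -, -, hLb, -, -, hΨΘ, -⟩ := d.hch
    refine ⟨((hΦc.of_le (by norm_num)).comp ((hΘc.mono s25).of_le (by norm_num)) fun q hq =>
      disc_mono (by norm_num) (by norm_num) (hΨΘ q (s25 hq)).1),
      (hLb.mono_set s25).mono_order (by norm_num), fun q hq => ?_⟩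
    have := (hnL d).2.2 q hq
    show nsq _ < _
    linarith
  have uu : Unif (disc 3) 6 (fun _ : D => (1 : ℝ)) (fun d => d.ch.u d.s d.G d.e) :=
    Unif.of_bound C (by linarith) fun d => by
      obtain ⟨-, -, -, -, -, -, -, -, -, -, -, -, -, -, hu, -, -, hub, -⟩ := d.hch
      exact ⟨hu.of_le (by norm_num), fun j hj x hx => by simpa using hub j (by omega) x hx⟩
  have uX := ((uu.d1 o3).mono (m := 3) (by norm_num) Subset.rfl).comp o2 o3 hΘ
  have uY := ((uu.d2 o3).mono (m := 3) (by norm_num) Subset.rfl).comp o2 o3 hΘ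
  have uXX := (((uu.d1 o3).d1 o3).mono (m := 3) (by norm_num) Subset.rfl).comp o2 o3 hΘ
  set gd := fun (d : D) => d.ch.gg d.s d.G d.e with hgd
  have ug : Unif (disc 2) 3 (fun _ : D => (1 : ℝ)) gd :=
    (uX.mul_one o2 uX).add o2 (uY.mul_one o2 uY)
  set W := fun (d : D) => d.ch.wW d.s d.G d.e with hW
  have one : ∀ n, Unif (disc 2) n (fun _ : D => (1 : ℝ)) (fun _ _ => (1 : ℝ)) := fun n =>
    Unif.const zero_le_one fun _ => by simp
  have us : Unif (disc 2) 3 (fun d : D => d.s) (fun d _ => d.s ^ 2) :=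
    Unif.const zero_le_one fun d => by
      rw [abs_sq, one_mul, sq]; exact mul_le_of_le_one_left d.hs.le (hb d).1
  have us1 : Unif (disc 2) 3 (fun _ : D => (1 : ℝ)) (fun d _ => d.s ^ 2) :=
    us.weight zero_le_one fun d => by simpa using (hb d).1
  have usg := us.mul_one o2 ug
  have uW : Unif (disc 2) 3 (fun _ : D => (1 : ℝ)) W :=
    ((one 3).add o2 (us1.mul_one o2 ug)).mul_one o2 ((one 3).add o2 (us1.mul_one o2 ug))
  have uW1 : Unif (disc 2) 3 (fun d : D => d.s) (fun d q => W d q - 1) :=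
    ((usg.mul_one o2 ((one 3).add o2 (us1.mul_one o2 ug))).add o2 usg).congr o2 fun d q _ => by
      simp only [hW, hgd, Chart.wW]; ring
  have uα : Unif (disc 2) 3 (fun _ : D => (1 : ℝ)) (fun d _ => (d.ch.α ^ 2)⁻¹) :=
    Unif.const (K := C ^ 2) (by positivity) fun d => by
      obtain ⟨-, -, -, -, -, hα1, hα2, -⟩ := d.hch
      have : 0 < d.ch.α := lt_of_lt_of_le (by positivity) hα1
      rw [abs_of_pos (by positivity), mul_one, ← inv_inv (C ^ 2)]
      refine inv_anti₀ (by positivity) ?_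
      rw [← inv_pow, ← one_div]; gcongr
  have unsq : ∀ V : Set Pl, V ⊆ Metric.closedBall 0 3 →
      Unif V 3 (fun _ : D => (1 : ℝ)) (fun _ => nsq) := fun V hV => by
    have hn : ContDiffOn ℝ (3 : ℕ) nsq univ :=
      ((contDiff_fst.pow 2).add (contDiff_snd.pow 2)).contDiffOn
    obtain ⟨Cn, hn0, hnb⟩ := exists_bdOn_compact isOpen_univ hn
      (isCompact_closedBall (0 : Pl) 3) (subset_univ _)
    exact Unif.of_bound Cn hn0 fun d => ⟨hn.mono (subset_univ _),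
      fun j hj x hx => by rw [mul_one]; exact hnb j hj x (hV hx)⟩
  have hball : ∀ R, 0 ≤ R → R ≤ 3 → disc R ⊆ Metric.closedBall 0 3 := fun R h0 h3 x hx => by
    rw [Metric.mem_closedBall, dist_zero_right]; linarith [norm_lt_of_mem_disc h0 hx]
  have unL := (unsq _ (hball _ (by norm_num) (by norm_num))).comp o2 o29 hLam
  have un2 := unsq _ (hball 2 (by norm_num) (by norm_num))
  -- `T` and `E'`
  set T := fun (d : D) => d.ch.dev d.s d.G d.e with hT
  have uT : Unif (disc 2) 2 (fun d : D => d.s) T := by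
    have udf : Unif (disc 2) 2 (fun d : D => d.s) (fun d q => nsq (d.ch.Lam q) - nsq q) :=
      Unif.of_bound C (by linarith) fun d =>
        ⟨((hnL d).1.mono s25).of_le (by norm_num), (hnL d).2.1.mono_set s25⟩
    exact (udf.mul_one o2 (uW.mono (by norm_num) Subset.rfl)).add o2
      (((un2.sub o2 (one 3)).mono (by norm_num) Subset.rfl).one_mul o2
        (uW1.mono (by norm_num) Subset.rfl))
  set E' := fun (d : D) q => (d.ch.α ^ 2)⁻¹ * (E d (d.ch.Lam q) * W d q) with hE'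
  have uE' : Unif (disc 2) 3 (fun d : D => d.β ^ 2) E' :=
    uα.one_mul o2 (((uE.mono (m := 3) (by norm_num) Subset.rfl).comp o2 o29 hLam).mul_one o2 uW)
  have haEq : ∀ d : D, EqOn (d.ch.aHat d.s d.G d.e)
      (fun q => d.β / d.ch.α ^ 2 * (nsq q - 1) + d.β / d.ch.α ^ 2 * T d q + E' d q) (disc 2) :=
    fun d q hq => by
    obtain ⟨-, -, -, -, -, -, -, -, -, -, -, -, -, -, -, -, -, -, -, -, -, hΦP, -, hΨΘ, -⟩ := d.hch
    have hX := disc_mono (by norm_num) (by norm_num) (hΨΘ q (s25 hq)).1 (b := 3)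
    have hp : d.ch.proj d.G (d.ch.Lam q) = d.ch.Θ q := (hΦP _ hX).2
    have hx := (hLam d).2.2 hq
    have h := ChartId.det_hess hG (by omega) d.hs d.sol d.hch hx
      (fun y _ => show 0 < d.m.det y by linarith [(hb d).2.2.2 y])
    rw [hp] at h
    have hR' := hR d (d.ch.Lam q) (by linarith [(hnL d).2.2 q hq])
    have hne : d.m.det (d.ch.Lam q) ≠ 0 := by linarith [(hb d).2.2.2 (d.ch.Lam q)]
    have hD : d1 (d1 (d.ch.u d.s d.G d.e)) (d.ch.Θ q) * d2 (d2 (d.ch.u d.s d.G d.e)) (d.ch.Θ q)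
        - d1 (d2 (d.ch.u d.s d.G d.e)) (d.ch.Θ q) ^ 2
        = d.m.rcur (d.ch.Lam q) / (d.s ^ 2 * d.m.det (d.ch.Lam q)) * W d q := by
      have hs' := d.hs.ne'
      simp only [hW, hgd, Chart.wW, Chart.gg, AData.m] at h hne ⊢
      field_simp at h ⊢
      linear_combination h
    simp only [Chart.aHat, hD, hR', hT, hE', hW, Chart.dev]
    ring
  have uk : Unif (disc 2) 3 (fun _ : D => (1 : ℝ))
      (fun d => d.ch.kHat d.s d.m d.G d.e) := by
    have hW1 : ∀ (d : D), ∀ q ∈ disc 2, 1 / 2 ≤ W d q := fun d q _ => by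
      have : 0 ≤ d.s ^ 2 * gd d q :=
        mul_nonneg (sq_nonneg _) (add_nonneg (mul_self_nonneg _) (mul_self_nonneg _))
      simp only [hW, hgd, Chart.wW]; nlinarith
    exact ((((udet.mono (m := 3) (by norm_num) Subset.rfl).comp o2 o29 hLam).mul_one o2
      uXX).mul_one o2 (uW.inv o2 hW1)).congr o2 fun d q _ => by
        simp only [Chart.kHat, hW, hgd, Chart.wW, Chart.gg, div_eq_mul_inv]; ring
  have ua : Unif (disc 2) 3 (fun d : D => d.β) (fun d => d.ch.aHat d.s d.G d.e) := by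
    have hβc : Unif (disc 2) 3 (fun d : D => d.β) (fun d _ => d.β) :=
      Unif.const zero_le_one fun d => le_of_eq (by rw [abs_of_pos d.hβ, one_mul])
    have a := (hβc.mul_one o2 uα).mul_one o2 ((unL.sub o2 (one 3)).mul_one o2 uW)
    refine (a.add o2 (uE'.weight zero_le_one fun d => ?_)).congr o2 fun d q hq => ?_
    · nlinarith [d.hβ, (hb d).2.2.1]
    · rw [haEq d hq]; simp only [hT, hW, Chart.dev]; ring
  obtain ⟨Ca, ca0, hCa⟩ := ua
  obtain ⟨Ck, ck0, hCk⟩ := uk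
  obtain ⟨CT, cT0, hCT⟩ := uT
  obtain ⟨CE, cE0, hCE⟩ := uE'
  obtain ⟨CW, cW0, hCW⟩ := uW.exists_abs_le
  obtain ⟨CY, cY0, hCY⟩ := uY
  obtain ⟨CG, cG0, hCG⟩ := ug.exists_abs_le
  obtain ⟨K2, hK2, hax⟩ := axis_bounds C (K + Ca) hC (by linarith)
  set K3 := 2 * (2 * C ^ 2) * K2 * CW + 6 * (2 * (1 + CG) * (2 * K2 * CY)) with hK3
  set C' := 1 + Ca + Ck + 4 * C * (1 + CG) ^ 2 + CT + 2 * (CE * C ^ 3) + 2 * (K3 * C) with hC'
  have hC'1 : 1 ≤ C' := by
    have : 0 ≤ Ca + Ck + 4 * C * (1 + CG) ^ 2 + CT + 2 * (CE * C ^ 3) + 2 * (K3 * C) := by positivity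
    rw [hC']; linarith
  refine ⟨C', s0, hC'1, by positivity, ?_⟩
  intro s hs hss β hβ hβs π G e ch hok hbd hsol hch
  let d : D := ⟨s, β, π, G, e, ch, hs, hss, hβ, hβs, hok, hbd, hsol, hch⟩
  obtain ⟨hs1, hCs, hβ1, hdet⟩ := hb d
  obtain ⟨-, -, -, -, -, hα1, hα2, -, -, -, -, -, -, hΦc, hu, hΘc, -, -, -, -, -, -, -, hΨΘ, -, -,
    hu11, -, -⟩ := id hch
  have hα : 0 < ch.α := lt_of_lt_of_le (by positivity) hα1
  have hU11 : ∀ X ∈ disc 3, 1 / (2 * C) ≤ d1 (d1 (ch.u s G e)) X := fun X hX => by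
    have h := (abs_le.1 (hu11 X hX).1).1
    have : C * s ≤ 1 / (2 * C) :=
      hCs.trans (one_div_le_one_div_of_le (by positivity) (by nlinarith))
    have e2 : 1 / C = 2 * (1 / (2 * C)) := by field_simp
    linarith
  have hC3 : 0 ≤ CE * C ^ 3 := by positivity
  have hK30 : 0 ≤ K3 * C := by positivity
  have hCG2 : 0 ≤ 4 * C * (1 + CG) ^ 2 := by positivity
  refine ⟨(hCa d).2.mono_const (mul_le_mul_of_nonneg_right (by linarith) hβ.le),
    (hCk d).2.mono_const (by linarith), fun q hq => ?_⟩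
  have hq' := s25 hq
  have hX3 := (hΘ d).2.2 hq
  refine ⟨?_, ?_⟩
  · -- lower bound of `kHat`
    have hg0 : 0 ≤ gd d q := add_nonneg (mul_self_nonneg _) (mul_self_nonneg _)
    have hg1 : 1 + s ^ 2 * gd d q ≤ 1 + CG := by
      have := abs_le.1 ((hCG d q hq).trans (le_of_eq (mul_one _)))
      have h2 : s ^ 2 ≤ 1 := pow_le_one₀ hs.le hs1
      nlinarith
    have hg2 : 0 < 1 + s ^ 2 * gd d q := by positivity
    have ek : ch.kHat s (islandMet s β π) G e q = (islandMet s β π).det (ch.Lam q) *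
        d1 (d1 (ch.u s G e)) (ch.Θ q) / (1 + s ^ 2 * gd d q) ^ 2 := by
      simp only [Chart.kHat, hgd, Chart.gg, sq, d]
    rw [ek]
    have i1 : 1 / (4 * C * (1 + CG) ^ 2) ≤ (islandMet s β π).det (ch.Lam q) *
        d1 (d1 (ch.u s G e)) (ch.Θ q) / (1 + s ^ 2 * gd d q) ^ 2 := by
      calc 1 / (4 * C * (1 + CG) ^ 2) = (1 / 2) * (1 / (2 * C)) / (1 + CG) ^ 2 := by field_simp; ring
        _ ≤ _ := div_le_div₀ (mul_nonneg ((hdet _).trans' (by norm_num)) ((hU11 _ hX3).trans'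
              (by positivity)))
            (mul_le_mul (hdet _) (hU11 _ hX3) (by positivity) ((hdet _).trans' (by norm_num)))
            (by positivity) (pow_le_pow_left₀ hg2.le hg1 2)
    refine le_trans (one_div_le_one_div_of_le (by positivity) ?_) i1
    linarith
  -- the three estimates
  set β' := β / ch.α ^ 2 with hβ'
  have hβ'0 : 0 < β' := by positivity
  have eβ : β = ch.α ^ 2 * β' := by rw [hβ']; field_simp
  have hsq : Real.sqrt β ≤ s := by rw [← Real.sqrt_sq hs.le]; exact Real.sqrt_le_sqrt hβs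
  have hsqα : Real.sqrt β = ch.α * Real.sqrt β' := by
    rw [eβ, Real.sqrt_mul (sq_nonneg _), Real.sqrt_sq hα.le]
  have hβ2 : β ^ 2 ≤ C ^ 3 * (s * β') * Real.sqrt β' := by
    calc β ^ 2 = β * Real.sqrt β * Real.sqrt β := by
          rw [mul_assoc, Real.mul_self_sqrt hβ.le, sq]
      _ ≤ β * s * Real.sqrt β := by gcongr
      _ = ch.α ^ 3 * (s * β') * Real.sqrt β' := by rw [hsqα]; linear_combination s * ch.α * Real.sqrt β' * eβ
      _ ≤ _ := by gcongr
  have hβ2' : β ^ 2 ≤ C ^ 3 * (s * β') := by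
    calc β ^ 2 ≤ β * s := by rw [sq]; gcongr; exact hβs.trans (by rw [sq]; exact mul_le_of_le_one_left hs.le hs1)
      _ = ch.α ^ 2 * (s * β') := by linear_combination s * eβ
      _ ≤ C ^ 2 * (s * β') := by gcongr
      _ ≤ _ := mul_le_mul_of_nonneg_right (pow_le_pow_right₀ hC (by norm_num)) (by positivity)
  have hbT : BdOn (disc 2) 2 (CT * s) (T d) := (hCT d).2
  have hbE : BdOn (disc 2) 3 (CE * β ^ 2) (E' d) := (hCE d).2
  have hax1 : ∀ y : ℝ, ((0, y) : Pl) ∈ disc 2 → |d1 (T d) (0, y)| ≤ K3 * β := fun y hq00 => by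
    obtain ⟨hx1, hy1, hpr⟩ := hax hG (by omega : 3 ≤ k) hs hs1 hβ.le hβ1 hsol hch
      (fun y => show 0 < d.m.det y by linarith [hdet y]) hU11 (fun x hx => (hLam d).2.2 hx)
      (fun x hx => by
        obtain ⟨a, b, c, c1, c2, c3, c4, c5, c6⟩ := hm d x hx
        have hle : K * β ≤ (K + Ca) * β := mul_le_mul_of_nonneg_right (by linarith) hβ.le
        exact ⟨a.trans hle, b.trans hle, c.trans hle, c1.trans hle, c2.trans hle, c3.trans hle,
          c4.trans hle, c5.trans hle, c6.trans hle⟩)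
      (fun x hx => by
        have hle : Ca * β ≤ (K + Ca) * β := mul_le_mul_of_nonneg_right (by linarith) hβ.le
        exact ⟨(abs_le_of_bdOn (hCa d).2 hx).trans hle,
          (abs_le_of_bdOn (BdOn.d1 (k := 2) o2 (hCa d).1 (hCa d).2) hx).trans hle⟩) y hq00
    exact dev_axis hC hs hs1 hβ.le hK2 cG0 hch hU11 hq00 ((hnL d).2.2 _ hq00) hx1 hy1 hpr
      ((hCW d _ hq00).trans (le_of_eq (mul_one _))) ((hCG d _ hq00).trans (le_of_eq (mul_one _)))
      ((abs_le_of_bdOn (BdOn.d1 (k := 2) o2 (hCY d).1 (hCY d).2) hq00).trans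
        (le_of_eq (mul_one _)))
  refine split_est (L := CE * C ^ 3 + K3 * C) hβ'0 hs.le cT0 cE0 (by linarith) (haEq d) (hCT d).1
    hbT (hCE d).1 hbE ?_ ?_ (fun y hy => ?_) (by linarith) hq
  · calc CE * β ^ 2 ≤ CE * (C ^ 3 * (s * β')) := by gcongr
      _ ≤ (CE * C ^ 3 + K3 * C) * (s * β') := by
        rw [← mul_assoc]; exact mul_le_mul_of_nonneg_right (by linarith) (by positivity)
  · calc CE * β ^ 2 ≤ CE * (C ^ 3 * (s * β') * Real.sqrt β') := by gcongr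
      _ ≤ (CE * C ^ 3 + K3 * C) * (s * β') * Real.sqrt β' := by
        rw [← mul_assoc, ← mul_assoc]
        exact mul_le_mul_of_nonneg_right (mul_le_mul_of_nonneg_right (by linarith) (by positivity))
          (Real.sqrt_nonneg _)
  · refine (hax1 y hy).trans ?_
    calc K3 * β = K3 * (Real.sqrt β * Real.sqrt β) := by rw [Real.mul_self_sqrt hβ.le]
      _ ≤ K3 * (s * (C * Real.sqrt β')) := by
        refine mul_le_mul_of_nonneg_left ?_ (by positivity)
        refine mul_le_mul hsq ?_ (Real.sqrt_nonneg _) hs.le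
        rw [hsqα]; gcongr
      _ = (K3 * C) * (s * Real.sqrt β') := by ring
      _ ≤ _ := mul_le_mul_of_nonneg_right (by linarith) (by positivity)

end Vale.Agent.P229
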