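import Vale.Agent.P229.Core.AHatGraph
import Vale.Agent.P229.Bd

/-!
# P229, Core: the curve `p = 0` is the axis up to `O (β)`

`axis_bounds`: on `p = 0` one has `u_Y = O (β)` and `Φ · Φ_X = O (β)`. Along the curve `u_X = 0`,
so `(u_Y)' = det D²u / u_XX`, the slope `b = -u_XY / u_XX` satisfies
`u_XX² b' = -(det_X - u_XXX det / u_XX)`, and the first projection has Hessian `Γ D p`.
-/

open scoped ContDiff RealInnerProductSpace Topology
open Set Filter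

namespace Vale.Agent.P229

theorem axis_le {f : Pl → ℝ} {L : ℝ} (hf : ∀ q ∈ disc 2, DifferentiableAt ℝ f q) (h0 : f 0 = 0)
    (hd : ∀ t : ℝ, ((0, t) : Pl) ∈ disc 2 → |d2 f (0, t)| ≤ L) {y : ℝ}
    (hy : ((0, y) : Pl) ∈ disc 2) : |f (0, y)| ≤ 2 * L := by
  have hmem : ∀ t : ℝ, |t| < 2 → ((0, t) : Pl) ∈ disc 2 := fun t ht => by
    simp only [disc, nsq, mem_ofPred_eq]
    nlinarith [abs_nonneg t, sq_abs t]
  have hy2 : |y| < 2 := by
    simp only [disc, nsq, mem_ofPred_eq] at hy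
    nlinarith [abs_nonneg y, sq_abs y]
  have h := (convex_Ioo (-2 : ℝ) 2).norm_image_sub_le_of_norm_hasDerivWithin_le (C := L)
    (f := fun t => f (0, t)) (f' := fun t => d2 f (0, t))
    (fun t ht => ((hf _ (hmem t (abs_lt.2 ht))).hasFDerivAt.comp_hasDerivAt t
      ((hasDerivAt_const t (0 : ℝ)).prodMk (hasDerivAt_id t))).hasDerivWithinAt)
    (fun t ht => hd t (hmem t (abs_lt.2 ht))) (show (0 : ℝ) ∈ Ioo (-2) 2 by norm_num)
    (abs_lt.1 hy2 : y ∈ Ioo (-2) 2)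
  simp only [Prod.mk_zero_zero, h0, sub_zero, Real.norm_eq_abs] at h
  have hL : 0 ≤ L := (abs_nonneg _).trans (hd y hy)
  nlinarith

theorem abs_le_of_bdOn {U : Set Pl} {k : ℕ} {C : ℝ} {f : Pl → ℝ} (h : BdOn U k C f) {x : Pl}
    (hx : x ∈ U) : |f x| ≤ C := by
  simpa using h.norm_le hx

theorem comp_fst {F : Pl → Pl} {q : Pl} (h : DifferentiableAt ℝ F q) :
    (d1 (fun y => (F y).1) q = (d1 F q).1 ∧ d2 (fun y => (F y).1) q = (d2 F q).1) ∧
    (d1 (fun y => (F y).2) q = (d1 F q).2 ∧ d2 (fun y => (F y).2) q = (d2 F q).2) := by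
  refine ⟨⟨?_, ?_⟩, ⟨?_, ?_⟩⟩ <;>
    simp [d1, d2, h.hasFDerivAt.fst.fderiv, h.hasFDerivAt.snd.fderiv]

/-- The differential of `Θ`. -/
theorem theta_diff {s C : ℝ} {G : Pl → R3} {e : R3} {ch : Chart} (hC : 1 ≤ C)
    (hOK : ch.OK s C G e) {q : Pl} (hq : q ∈ disc (5 / 2)) :
    d1 (ch.u s G e) (ch.Θ q) = ch.α * q.1 ∧ (ch.Θ q).2 = q.2 ∧
      (d1 ch.Θ q).2 = 0 ∧ (d2 ch.Θ q).2 = 1 ∧
      (d1 ch.Θ q).1 * d1 (d1 (ch.u s G e)) (ch.Θ q) = ch.α ∧
      (d2 ch.Θ q).1 * d1 (d1 (ch.u s G e)) (ch.Θ q) = -d1 (d2 (ch.u s G e)) (ch.Θ q) := by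
  obtain ⟨-, -, -, -, -, hα1, hα2, -, hΦ0, hΘ0, -, hu20, hu120, hΦc, hu, hΘ, hΦb, hub, -, -,
    hLb, hΦP, hPΦ, hΨΘ, -, -, -, -, -⟩ := id hOK
  set u := ch.u s G e with hu_def
  have hα : 0 < ch.α := lt_of_lt_of_le (by positivity) hα1
  have o2 := isOpen_disc (5 / 2)
  have o3 := isOpen_disc 3
  have s25 : disc 2 ⊆ disc (5 / 2) := disc_mono (by norm_num) (by norm_num)
  have hΘ3 : ∀ q ∈ disc (5 / 2), ch.Θ q ∈ disc 3 := fun q hq =>
    disc_mono (by norm_num) (by norm_num) (hΨΘ q hq).1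
  have hΘd : ∀ q ∈ disc (5 / 2), DifferentiableAt ℝ ch.Θ q := fun q hq =>
    (hΘ.contDiffAt (o2.mem_nhds hq)).differentiableAt (by simp)
  have huc : ∀ X ∈ disc 3, ContDiffAt ℝ 5 u X := fun X hX =>
    (hu.contDiffAt (o3.mem_nhds hX)).of_le (by norm_num)
  have huX : ∀ X ∈ disc 3, ContDiffAt ℝ 4 (d1 u) X ∧ ContDiffAt ℝ 4 (d2 u) X := fun X hX =>
    ⟨ChartId.contDiffAt_dir (m := 5) (huc X hX) le_rfl (1, 0),
      ChartId.contDiffAt_dir (m := 5) (huc X hX) le_rfl (0, 1)⟩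
  have hu1 : ∀ q ∈ disc (5 / 2), d1 u (ch.Θ q) = ch.α * q.1 ∧ (ch.Θ q).2 = q.2 := fun q hq => by
    have h := (hΨΘ q hq).2
    simp only [Chart.Psi, Prod.ext_iff, ← hu_def] at h
    refine ⟨?_, h.2⟩
    rw [← h.1]; field_simp
  refine ⟨(hu1 q hq).1, (hu1 q hq).2, ?_⟩
  have hev : EqOn (fun y => (ch.Θ y).2) (fun y : Pl => y.2) (disc (5 / 2)) := fun y hy => (hu1 y hy).2
  obtain ⟨-, e1, e2⟩ := comp_fst (hΘd q hq)
  have t1 : (d1 ch.Θ q).2 = 0 := by rw [← e1, d1_congr o2 hev hq]; simp [d1, fderiv_snd]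
  have t2 : (d2 ch.Θ q).2 = 1 := by rw [← e2, d2_congr o2 hev hq]; simp [d2, fderiv_snd]
  have hd := ((huX _ (hΘ3 q hq)).1.differentiableAt (by norm_num))
  have hev2 : EqOn (fun y => d1 u (ch.Θ y)) (fun y : Pl => ch.α * y.1) (disc (5 / 2)) :=
    fun y hy => (hu1 y hy).1
  have k1 := d1_comp (f := d1 u) hd (hΘd q hq)
  have k2 := d2_comp (f := d1 u) hd (hΘd q hq)
  rw [d1_congr o2 hev2 hq, t1] at k1
  rw [d2_congr o2 hev2 hq, t2, ChartId.dir_symm ((huc _ (hΘ3 q hq)).of_le (by norm_num))] at k2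
  simp [d1, d2, fderiv_const_mul (differentiableAt_fst (𝕜 := ℝ) (E := ℝ) (F := ℝ) (p := q)),
    show fderiv ℝ (Prod.fst : Pl → ℝ) q = ContinuousLinearMap.fst ℝ ℝ ℝ from fderiv_fst] at k1 k2
  simp only [d1, d2] at k1 k2 ⊢
  exact ⟨t1, t2, k1.symm, by linarith⟩

/-- `u_Y` and the slope of the curve `p = 0`. -/
theorem curve_bounds {s β C K : ℝ} {G : Pl → R3} {e : R3} {ch : Chart} (hC : 1 ≤ C) (hK : 0 ≤ K)
    (hβ : 0 ≤ β) (hOK : ch.OK s C G e)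
    (hU11 : ∀ X ∈ disc 3, 1 / (2 * C) ≤ d1 (d1 (ch.u s G e)) X)
    (ha : ∀ q ∈ disc 2, |ch.aHat s G e q| ≤ K * β ∧ |d1 (ch.aHat s G e) q| ≤ K * β)
    {y : ℝ} (hy : ((0, y) : Pl) ∈ disc 2) :
    |d2 (ch.u s G e) (ch.Θ (0, y))| ≤ 4 * C ^ 3 * K * β ∧
      |(ch.Θ (0, y)).1| ≤ 2 * (8 * C ^ 2 * (C ^ 2 + 2 * C ^ 4) * K) * β := by
  obtain ⟨-, -, -, -, -, hα1, hα2, -, hΦ0, hΘ0, -, hu20, hu120, hΦc, hu, hΘ, hΦb, hub, -, -,
    hLb, hΦP, hPΦ, hΨΘ, -, -, -, -, -⟩ := id hOK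
  set u := ch.u s G e with hu_def
  have hα : 0 < ch.α := lt_of_lt_of_le (by positivity) hα1
  have o2 := isOpen_disc (5 / 2)
  have o3 := isOpen_disc 3
  have s25 : disc 2 ⊆ disc (5 / 2) := disc_mono (by norm_num) (by norm_num)
  have hΘ3 : ∀ q ∈ disc (5 / 2), ch.Θ q ∈ disc 3 := fun q hq =>
    disc_mono (by norm_num) (by norm_num) (hΨΘ q hq).1
  have hΘd : ∀ q ∈ disc (5 / 2), DifferentiableAt ℝ ch.Θ q := fun q hq =>
    (hΘ.contDiffAt (o2.mem_nhds hq)).differentiableAt (by simp)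
  have huc : ∀ X ∈ disc 3, ContDiffAt ℝ 5 u X := fun X hX =>
    (hu.contDiffAt (o3.mem_nhds hX)).of_le (by norm_num)
  have huX : ∀ X ∈ disc 3, ContDiffAt ℝ 4 (d1 u) X ∧ ContDiffAt ℝ 4 (d2 u) X := fun X hX =>
    ⟨ChartId.contDiffAt_dir (m := 5) (huc X hX) le_rfl (1, 0),
      ChartId.contDiffAt_dir (m := 5) (huc X hX) le_rfl (0, 1)⟩
  set A := 4 * C ^ 3 * K with hA
  set Bb := 8 * C ^ 2 * (C ^ 2 + 2 * C ^ 4) * K with hBb
  have huXX : ∀ X ∈ disc 3, DifferentiableAt ℝ (d1 (d1 u)) X ∧ DifferentiableAt ℝ (d1 (d2 u)) X ∧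
      DifferentiableAt ℝ (d2 (d2 u)) X := fun X hX =>
    ⟨ChartId.differentiableAt_dir ((huX X hX).1.of_le (by norm_num)) (1, 0),
      ChartId.differentiableAt_dir ((huX X hX).2.of_le (by norm_num)) (1, 0),
      ChartId.differentiableAt_dir ((huX X hX).2.of_le (by norm_num)) (0, 1)⟩
  have hΘd : ∀ q ∈ disc (5 / 2), DifferentiableAt ℝ ch.Θ q := fun q hq =>
    (hΘ.contDiffAt (o2.mem_nhds hq)).differentiableAt (by simp)
  have hTh := fun q hq => (theta_diff hC hOK (q := q) hq).2.2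
  set b : Pl → ℝ := fun q => (d2 ch.Θ q).1 with hb
  set Dt : Pl → ℝ := fun X => d1 (d1 u) X * d2 (d2 u) X - d1 (d2 u) X * d1 (d2 u) X with hDt
  have hU11' : ∀ X ∈ disc 3, 0 < d1 (d1 u) X := fun X hX =>
    lt_of_lt_of_le (by positivity) (hU11 X hX)
  have hbd2 : ∀ X ∈ disc 3, |d1 (d1 u) X| ≤ C ∧ |d1 (d1 (d1 u)) X| ≤ C := fun X hX => by
    have h3 : BdOn (disc 3) 34 C (d1 (d1 u)) :=
      BdOn.d1 o3 (contDiffOn_d1 o3 (hu.of_le (by norm_num)))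
        (BdOn.d1 o3 (hu.of_le (by norm_num)) hub)
    exact ⟨abs_le_of_bdOn h3 hX, abs_le_of_bdOn (BdOn.d1 (k := 33) o3
      (contDiffOn_d1 o3 (contDiffOn_d1 (k := 35) o3 (hu.of_le (by norm_num)))) h3) hX⟩
  have hD : ∀ q ∈ disc (5 / 2), ch.aHat s G e q = (ch.α ^ 2)⁻¹ * Dt (ch.Θ q) := fun q _ => by
    simp only [Chart.aHat, hDt, ← hu_def]; ring
  have hDd : ∀ q ∈ disc (5 / 2), DifferentiableAt ℝ Dt (ch.Θ q) := fun q hq => by
    obtain ⟨a11, a12, a22⟩ := huXX _ (hΘ3 q hq)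
    exact (a11.fun_mul a22).fun_sub (a12.fun_mul a12)
  have hDle : ∀ q ∈ disc 2, |Dt (ch.Θ q)| ≤ C ^ 2 * K * β ∧ |d1 Dt (ch.Θ q)| ≤ C ^ 2 * K * β :=
    fun q hq => by
    have hq' := s25 hq
    obtain ⟨t1, -, t3, -⟩ := hTh q hq'
    obtain ⟨a0, a1⟩ := ha q hq
    have hdd : DifferentiableAt ℝ (fun y => Dt (ch.Θ y)) q :=
      DifferentiableAt.comp q (g := Dt) (hDd q hq') (hΘd q hq')
    have e1 : d1 (ch.aHat s G e) q = (ch.α ^ 2)⁻¹ * ((d1 ch.Θ q).1 * d1 Dt (ch.Θ q)) := by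
      rw [d1_congr o2 hD hq']
      simp only [← smul_eq_mul (α := ℝ) (a := (ch.α ^ 2)⁻¹)]
      rw [d1_const_smul _ hdd, d1_comp (hDd q hq') (hΘd q hq'), t1]
      simp
    have hu' := hU11' _ (hΘ3 q hq')
    have i1 : Dt (ch.Θ q) = ch.α ^ 2 * ch.aHat s G e q := by
      rw [hD q hq']; field_simp
    have i2 : d1 Dt (ch.Θ q) = d1 (ch.aHat s G e) q * d1 (d1 u) (ch.Θ q) * ch.α := by
      rw [e1]; field_simp; linear_combination (-(d1 Dt (ch.Θ q))) * t3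
    constructor
    · rw [i1, abs_mul, abs_sq, mul_assoc]; gcongr
    · rw [i2, abs_mul, abs_mul, abs_of_pos hα]
      calc |d1 (ch.aHat s G e) q| * |d1 (d1 u) (ch.Θ q)| * ch.α ≤ (K * β) * C * C := by
            gcongr; exact (hbd2 _ (hΘ3 q hq')).1
        _ = _ := by ring
  -- `u_Y`
  have hinv : ∀ q ∈ disc 2, ∀ r : ℝ, |r / d1 (d1 u) (ch.Θ q)| ≤ 2 * C * |r| := fun q hq r => by
    have h := hU11 _ (hΘ3 q (s25 hq))
    rw [abs_div, abs_of_pos (hU11' _ (hΘ3 q (s25 hq))), div_le_iff₀ (hU11' _ (hΘ3 q (s25 hq)))]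
    rw [div_le_iff₀ (by positivity)] at h
    nlinarith [abs_nonneg r]
  have hA' : ∀ y : ℝ, ((0, y) : Pl) ∈ disc 2 → |d2 u (ch.Θ (0, y))| ≤ A * β := fun y hy => by
    refine (axis_le (f := fun q => d2 u (ch.Θ q)) (L := 2 * C * (C ^ 2 * K * β))
      (fun q hq => DifferentiableAt.comp q (g := d2 u)
        ((huX _ (hΘ3 q (s25 hq))).2.differentiableAt (by norm_num)) (hΘd q (s25 hq)))
      (by rw [hΘ0]; exact hu20) (fun t ht => ?_) hy).trans (le_of_eq (by rw [hA]; ring))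
    have hq' := s25 ht
    obtain ⟨-, t2, -, t4⟩ := hTh _ hq'
    rw [d2_comp ((huX _ (hΘ3 _ hq')).2.differentiableAt (by norm_num)) (hΘd _ hq'), t2,
      smul_eq_mul, one_smul]
    have e : (d2 ch.Θ (0, t)).1 * d1 (d2 u) (ch.Θ (0, t)) + d2 (d2 u) (ch.Θ (0, t))
        = Dt (ch.Θ (0, t)) / d1 (d1 u) (ch.Θ (0, t)) := by
      rw [eq_div_iff (hU11' _ (hΘ3 _ hq')).ne', hDt]
      linear_combination d1 (d2 u) (ch.Θ (0, t)) * t4
    rw [e]
    exact (hinv _ ht _).trans (by gcongr; exact (hDle _ ht).1)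
  -- the slope
  have hbd : ∀ q ∈ disc (5 / 2), DifferentiableAt ℝ b q := fun q hq =>
    (diffAt_of_open o2 (contDiffOn_d2 (k := 1) o2 (hΘ.of_le (by norm_num))) le_rfl hq).fst
  have hBb' : ∀ y : ℝ, ((0, y) : Pl) ∈ disc 2 → |b (0, y)| ≤ Bb * β := fun y hy => by
    refine (axis_le (f := b) (L := 2 * C * (2 * C * ((C ^ 2 + 2 * C ^ 4) * K * β)))
      (fun q hq => hbd q (s25 hq)) ?_ (fun t ht => ?_) hy).trans (le_of_eq (by rw [hBb]; ring))
    · have h := (hTh 0 (s25 (zero_mem_disc two_pos))).2.2.2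
      rw [hΘ0, hu120] at h
      have := hU11' 0 (zero_mem_disc (by norm_num))
      have h' : b 0 * d1 (d1 u) 0 = 0 := by rw [hb]; linarith
      exact (mul_eq_zero.1 h').resolve_right this.ne'
    · set q : Pl := (0, t)
      have hq' := s25 ht
      obtain ⟨-, t2, -, t4⟩ := hTh q hq'
      obtain ⟨a11, a12, a22⟩ := huXX _ (hΘ3 q hq')
      set X := ch.Θ q with hX
      have hev : EqOn (fun y => b y * d1 (d1 u) (ch.Θ y)) (fun y => -d1 (d2 u) (ch.Θ y))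
          (disc (5 / 2)) := fun y hy => (hTh y hy).2.2.2
      have h := d2_congr o2 hev hq'
      have c11 : DifferentiableAt ℝ (fun y => d1 (d1 u) (ch.Θ y)) q :=
        DifferentiableAt.comp q (g := d1 (d1 u)) a11 (hΘd q hq')
      have eneg : d2 (fun y => -d1 (d2 u) (ch.Θ y)) q = -d2 (fun y => d1 (d2 u) (ch.Θ y)) q := by
        simp [d2]
      rw [d2_mul (hbd q hq') c11, eneg, d2_comp a11 (hΘd q hq'), d2_comp a12 (hΘd q hq'), t2,
        ← hX] at h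
      have hX3 := hΘ3 q hq'
      obtain ⟨c1, c2⟩ := huX X hX3
      have hs1' : d2 (d1 (d1 u)) X = d1 (d1 (d2 u)) X := by
        rw [ChartId.dir_symm (f := d1 u) (c1.of_le (by norm_num))]
        exact d1_congr o3 (fun Y hY => ChartId.dir_symm ((huc Y hY).of_le (by norm_num))) hX3
      have hs2' : d2 (d1 (d2 u)) X = d1 (d2 (d2 u)) X :=
        ChartId.dir_symm (f := d2 u) (c2.of_le (by norm_num))
      rw [hs1', hs2'] at h
      simp only [smul_eq_mul, one_mul, hb] at h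
      have hu' := hU11' X hX3
      have hdD : d1 Dt X = d1 (d1 (d1 u)) X * d2 (d2 u) X + d1 (d1 u) X * d1 (d2 (d2 u)) X
          - 2 * d1 (d2 u) X * d1 (d1 (d2 u)) X := by
        rw [hDt, d1_sub (a11.fun_mul a22) (a12.fun_mul a12), d1_mul a11 a22, d1_mul a12 a12]
        ring
      have key : d2 b q = -((d1 Dt X - d1 (d1 (d1 u)) X * (Dt X / d1 (d1 u) X))
          / d1 (d1 u) X) / d1 (d1 u) X := by
        rw [hdD, hDt]
        simp only
        field_simp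
        linear_combination (d1 (d1 u) X) ^ 2 * h - (d1 (d1 u) X * d1 (d1 (d2 u)) X) * t4
          - (b q * d1 (d1 (d1 u)) X * d1 (d1 u) X + d1 (d1 u) X * d1 (d1 (d2 u)) X
            - d1 (d1 (d1 u)) X * d1 (d2 u) X) * t4
      rw [key]
      refine (hinv q ht _).trans ?_
      rw [abs_neg]
      gcongr
      refine (hinv q ht _).trans ?_
      gcongr
      refine (abs_sub _ _).trans ?_
      obtain ⟨g0, g1⟩ := hDle q ht
      have g2 : |d1 (d1 (d1 u)) X * (Dt X / d1 (d1 u) X)| ≤ C * (2 * C * (C ^ 2 * K * β)) := by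
        rw [abs_mul]
        gcongr
        · exact (hbd2 X hX3).2
        · exact (hinv q ht _).trans (by gcongr)
      linarith
  refine ⟨hA' y hy, ?_⟩
  refine (axis_le (f := fun q => (ch.Θ q).1) (fun q hq => (hΘd q (s25 hq)).fst)
    (by simp [hΘ0]) (fun t ht => ?_) hy).trans (le_of_eq (mul_assoc _ _ _).symm)
  rw [(comp_fst (hΘd _ (s25 ht))).1.2]
  exact hBb' t ht

/-- The differential of a projection is bounded. -/
theorem proj_diff_le {k : ℕ} {s β M a0 C K : ℝ} {π : Pert} {G : Pl → R3} {e : R3} {ch : Chart}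
    (hG : GaussSpec) (hk : 3 ≤ k) (hs : 0 < s) (hK : 0 ≤ K) (hβ1 : β ≤ 1)
    (hsol : IslandSol k s β M a0 π G e) (hOK : ch.OK s C G e)
    (hdet : ∀ y, 0 < (islandMet s β π).det y) {x : Pl} (hx : x ∈ disc (29 / 10))
    (he : |(islandMet s β π).e x - 1| ≤ K * β) (hg : |(islandMet s β π).g x - 1| ≤ K * β) :
    |d1 (zOf 1 G ch.e1) x| ≤ 2 + K ∧ |d2 (zOf 1 G ch.e1) x| ≤ 2 + K ∧
      |d1 (zOf 1 G ch.e2) x| ≤ 2 + K ∧ |d2 (zOf 1 G ch.e2) x| ≤ 2 + K := by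
  set P := 2 + K with hP
  set p1 := zOf 1 G ch.e1 with hp1
  set p2 := zOf 1 G ch.e2 with hp2
  obtain ⟨-, ⟨me, -, mg⟩, -⟩ := graph_facts hG hk hs hsol hOK hdet hx
  rw [abs_le] at he hg
  have hKβ : K * β ≤ K := mul_le_of_le_one_right hK hβ1
  have aux : ∀ a, a ^ 2 ≤ 1 + K → |a| ≤ P := fun a ha => by
    rw [hP]; nlinarith [abs_nonneg a, sq_abs a]
  simp only [← hp1, ← hp2] at me mg
  have n1 := mul_nonneg (sq_nonneg s) (mul_self_nonneg (d1 (zOf s G e) x))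
  have n2 := mul_nonneg (sq_nonneg s) (mul_self_nonneg (d2 (zOf s G e) x))
  refine ⟨aux _ ?_, aux _ ?_, aux _ ?_, aux _ ?_⟩ <;>
    nlinarith [mul_self_nonneg (d1 p1 x), mul_self_nonneg (d1 p2 x), mul_self_nonneg (d2 p1 x),
      mul_self_nonneg (d2 p2 x)]

theorem abs_coord_le {x : Pl} (hx : x ∈ disc (29 / 10)) : |x.1| ≤ 3 ∧ |x.2| ≤ 3 := by
  simp only [disc, nsq, mem_ofPred_eq] at hx
  constructor <;> rw [abs_le] <;> constructor <;> nlinarith [sq_nonneg x.1, sq_nonneg x.2]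

/-- `x · ∇p - p` along the curve `p = 0`. -/
theorem curve_proj {k : ℕ} {s β M a0 C K : ℝ} {π : Pert} {G : Pl → R3} {e : R3} {ch : Chart}
    (hG : GaussSpec) (hk : 3 ≤ k) (hC : 1 ≤ C) (hK : 0 ≤ K) (hs : 0 < s) (hβ : 0 ≤ β) (hβ1 : β ≤ 1)
    (hsol : IslandSol k s β M a0 π G e) (hOK : ch.OK s C G e)
    (hdet : ∀ y, 0 < (islandMet s β π).det y) (hLam : ∀ q ∈ disc 2, ch.Lam q ∈ disc (29 / 10))
    (hm : ∀ x ∈ disc (29 / 10), |(islandMet s β π).e x - 1| ≤ K * β ∧ |(islandMet s β π).f x| ≤ K * β ∧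
        |(islandMet s β π).g x - 1| ≤ K * β ∧
        |(islandMet s β π).c111 x| ≤ K * β ∧ |(islandMet s β π).c211 x| ≤ K * β ∧
        |(islandMet s β π).c112 x| ≤ K * β ∧ |(islandMet s β π).c212 x| ≤ K * β ∧
        |(islandMet s β π).c122 x| ≤ K * β ∧ |(islandMet s β π).c222 x| ≤ K * β)
    {y : ℝ} (hy : ((0, y) : Pl) ∈ disc 2) :
    |(ch.Lam (0, y)).1 * d1 (zOf 1 G ch.e1) (ch.Lam (0, y))
        + (ch.Lam (0, y)).2 * d2 (zOf 1 G ch.e1) (ch.Lam (0, y))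
        - zOf 1 G ch.e1 (ch.Lam (0, y))| ≤ 48 * C * K * (2 + K) * β := by
  obtain ⟨-, -, -, -, -, hα1, hα2, -, hΦ0, hΘ0, -, hu20, hu120, hΦc, hu, hΘ, hΦb, hub, -, -,
    hLb, hΦP, hPΦ, hΨΘ, -, -, -, -, -⟩ := id hOK
  set u := ch.u s G e with hu_def
  have hα : 0 < ch.α := lt_of_lt_of_le (by positivity) hα1
  have o2 := isOpen_disc (5 / 2)
  have o3 := isOpen_disc 3
  have s25 : disc 2 ⊆ disc (5 / 2) := disc_mono (by norm_num) (by norm_num)
  have hΘ3 : ∀ q ∈ disc (5 / 2), ch.Θ q ∈ disc 3 := fun q hq =>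
    disc_mono (by norm_num) (by norm_num) (hΨΘ q hq).1
  have hΘd : ∀ q ∈ disc (5 / 2), DifferentiableAt ℝ ch.Θ q := fun q hq =>
    (hΘ.contDiffAt (o2.mem_nhds hq)).differentiableAt (by simp)
  have huc : ∀ X ∈ disc 3, ContDiffAt ℝ 5 u X := fun X hX =>
    (hu.contDiffAt (o3.mem_nhds hX)).of_le (by norm_num)
  have huX : ∀ X ∈ disc 3, ContDiffAt ℝ 4 (d1 u) X ∧ ContDiffAt ℝ 4 (d2 u) X := fun X hX =>
    ⟨ChartId.contDiffAt_dir (m := 5) (huc X hX) le_rfl (1, 0),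
      ChartId.contDiffAt_dir (m := 5) (huc X hX) le_rfl (0, 1)⟩
  have hu1 := fun q hq => theta_diff hC hOK (q := q) hq
  set P := 2 + K with hP
  set p1 := zOf 1 G ch.e1 with hp1
  have hGc : ∀ x ∈ disc (29 / 10), ContDiffAt ℝ 3 G x := fun x hx =>
    (hsol.1.contDiffAt ((isOpen_disc 4).mem_nhds (disc_mono (by norm_num) (by norm_num) hx))).of_le
      (by exact_mod_cast hk)
  have hpc : ∀ (v : R3), ∀ x ∈ disc (29 / 10), ContDiffAt ℝ 3 (zOf 1 G v) x := fun v x hx =>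
    ((hGc x hx).inner ℝ contDiffAt_const).div_const 1
  have hgr : ∀ t : ℝ, ((0, t) : Pl) ∈ disc 2 → let x := ch.Lam (0, t)
      x ∈ disc (29 / 10) ∧ ch.proj G x = ch.Θ (0, t) := fun t ht =>
    ⟨hLam _ ht, (hΦP _ (hΘ3 _ (s25 ht))).2⟩
  set Lf : Pl → ℝ := fun x => x.1 * d1 p1 x + x.2 * d2 p1 x - p1 x with hLf
  have hLd : ∀ x ∈ disc (29 / 10), DifferentiableAt ℝ Lf x := fun x hx =>
    ((differentiableAt_fst.fun_mul (ChartId.differentiableAt_dir ((hpc _ x hx).of_le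
      (by norm_num)) (1, 0))).fun_add (differentiableAt_snd.fun_mul (ChartId.differentiableAt_dir
      ((hpc _ x hx).of_le (by norm_num)) (0, 1)))).fun_sub ((hpc _ x hx).differentiableAt (by norm_num))
  have hΦd : ∀ X ∈ disc 3, DifferentiableAt ℝ ch.Φ X := fun X hX =>
    (hΦc.contDiffAt (o3.mem_nhds hX)).differentiableAt (by simp)
  have hLamd : ∀ q ∈ disc (5 / 2), DifferentiableAt ℝ ch.Lam q := fun q hq =>
    DifferentiableAt.comp q (g := ch.Φ) (hΦd _ (hΘ3 q hq)) (hΘd q hq)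
  show |Lf (ch.Lam (0, y))| ≤ _
  refine (axis_le (f := fun q => Lf (ch.Lam q)) (L := 24 * C * K * P * β)
    (fun q hq => DifferentiableAt.comp q (g := Lf) (hLd _ (hLam q hq)) (hLamd q (s25 hq)))
    ?_ (fun t ht => ?_) hy).trans (le_of_eq (by ring))
  · rw [show ch.Lam 0 = 0 by simp [Chart.Lam, hΘ0, hΦ0]]
    simp [hLf, hp1, zOf, hsol.2.2.1]
  · obtain ⟨hxU, hxP⟩ := hgr t ht
    set x := ch.Lam (0, t)
    obtain ⟨-, -, hess⟩ := graph_facts hG hk hs hsol hOK hdet hxU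
    rw [hxP] at hess
    obtain ⟨h11, h12, h22⟩ := hess (by rw [← hu_def, (hu1 _ (s25 ht)).1]; simp)
    obtain ⟨-, -, -, k1, k2, k3, k4, k5, k6⟩ := hm x hxU
    obtain ⟨he, -, hg, -⟩ := hm x hxU
    obtain ⟨q1, q2, -, -⟩ := proj_diff_le hG hk hs hK hβ1 hsol hOK hdet hxU he hg
    simp only [Met.h11, Met.h12, Met.h22, ← hp1] at h11 h12 h22
    have pr : ∀ c d, |c| ≤ K * β → |d| ≤ K * β →
        |c * d1 p1 x + d * d2 p1 x| ≤ 2 * (K * β * P) := fun c d hc hd => by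
      refine (abs_add_le _ _).trans ?_
      rw [abs_mul, abs_mul]
      linarith [mul_le_mul hc q1 (abs_nonneg _) (by positivity),
        mul_le_mul hd q2 (abs_nonneg _) (by positivity)]
    have w11 : |d1 (d1 p1) x| ≤ 2 * (K * β * P) := by
      rw [show d1 (d1 p1) x = (islandMet s β π).c111 x * d1 p1 x
        + (islandMet s β π).c211 x * d2 p1 x by linarith]
      exact pr _ _ k1 k2
    have w12 : |d1 (d2 p1) x| ≤ 2 * (K * β * P) := by
      rw [show d1 (d2 p1) x = (islandMet s β π).c112 x * d1 p1 x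
        + (islandMet s β π).c212 x * d2 p1 x by linarith]
      exact pr _ _ k3 k4
    have w22 : |d2 (d2 p1) x| ≤ 2 * (K * β * P) := by
      rw [show d2 (d2 p1) x = (islandMet s β π).c122 x * d1 p1 x
        + (islandMet s β π).c222 x * d2 p1 x by linarith]
      exact pr _ _ k5 k6
    have hp2' := (hpc ch.e1 x hxU).of_le (m := 2) (by norm_num)
    rw [← hp1] at hp2'
    have b1 : DifferentiableAt ℝ (d1 p1) x := ChartId.differentiableAt_dir hp2' (1, 0)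
    have b2 : DifferentiableAt ℝ (d2 p1) x := ChartId.differentiableAt_dir hp2' (0, 1)
    have b0 : DifferentiableAt ℝ p1 x := hp2'.differentiableAt (by norm_num)
    have A1 := differentiableAt_fst.fun_mul b1
    have A2 := differentiableAt_snd.fun_mul b2
    have f11 : d1 Prod.fst x = (1 : ℝ) ∧ d2 Prod.fst x = (0 : ℝ) ∧ d1 Prod.snd x = (0 : ℝ) ∧
        d2 Prod.snd x = (1 : ℝ) := by simp [d1, d2, fderiv_fst, fderiv_snd]
    obtain ⟨g1, g2, g3, g4⟩ := f11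
    have sL : d2 (d1 p1) x = d1 (d2 p1) x := ChartId.dir_symm hp2'
    have e1 : d1 Lf x = x.1 * d1 (d1 p1) x + x.2 * d1 (d2 p1) x := by
      rw [hLf, d1_sub (A1.fun_add A2) b0, d1_add A1 A2, d1_mul differentiableAt_fst b1,
        d1_mul differentiableAt_snd b2, g1, g3]
      ring
    have e2 : d2 Lf x = x.1 * d1 (d2 p1) x + x.2 * d2 (d2 p1) x := by
      rw [hLf, d2_sub (A1.fun_add A2) b0, d2_add A1 A2, d2_mul differentiableAt_fst b1,
        d2_mul differentiableAt_snd b2, g2, g4, sL]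
      ring
    obtain ⟨x1, x2⟩ := abs_coord_le hxU
    have comb : ∀ u v, |u| ≤ 2 * (K * β * P) → |v| ≤ 2 * (K * β * P) →
        |x.1 * u + x.2 * v| ≤ 12 * (K * β * P) := fun u v hu hv => by
      refine (abs_add_le _ _).trans ?_
      rw [abs_mul, abs_mul]
      linarith [mul_le_mul x1 hu (abs_nonneg _) (by norm_num),
        mul_le_mul x2 hv (abs_nonneg _) (by norm_num)]
    have hn := BdOn.d2 (k := 34) o2
      (show ContDiffOn ℝ (34 + 1 : ℕ) ch.Lam (disc (5 / 2)) from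
        (hΦc.of_le (by norm_num)).comp hΘ fun q hq => hΘ3 q hq) hLb
    have hn' := hn.norm_le (s25 ht)
    rw [d2_comp (f := Lf) (P := ch.Lam) (hLd x hxU) (hLamd _ (s25 ht)), smul_eq_mul, smul_eq_mul, e1, e2]
    refine (abs_add_le _ _).trans ?_
    rw [abs_mul, abs_mul]
    have n1 : |(d2 ch.Lam (0, t)).1| ≤ C := (norm_fst_le _).trans hn'
    have n2 : |(d2 ch.Lam (0, t)).2| ≤ C := (norm_snd_le _).trans hn'
    linarith [mul_le_mul n1 (comb _ _ w11 w12) (abs_nonneg _) (by positivity),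
      mul_le_mul n2 (comb _ _ w12 w22) (abs_nonneg _) (by positivity)]

theorem axis_bounds (C K : ℝ) (hC : 1 ≤ C) (hK : 0 ≤ K) : ∃ K2, 0 ≤ K2 ∧
    ∀ {k : ℕ} {s β M a0 : ℝ} {π : Pert} {G : Pl → R3} {e : R3} {ch : Chart},
      GaussSpec → 3 ≤ k → 0 < s → s ≤ 1 → 0 ≤ β → β ≤ 1 →
      IslandSol k s β M a0 π G e → ch.OK s C G e → (∀ y, 0 < (islandMet s β π).det y) →
      (∀ X ∈ disc 3, 1 / (2 * C) ≤ d1 (d1 (ch.u s G e)) X) →
      (∀ q ∈ disc 2, ch.Lam q ∈ disc (29 / 10)) →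
      (∀ x ∈ disc (29 / 10), |(islandMet s β π).e x - 1| ≤ K * β ∧ |(islandMet s β π).f x| ≤ K * β ∧
        |(islandMet s β π).g x - 1| ≤ K * β ∧
        |(islandMet s β π).c111 x| ≤ K * β ∧ |(islandMet s β π).c211 x| ≤ K * β ∧
        |(islandMet s β π).c112 x| ≤ K * β ∧ |(islandMet s β π).c212 x| ≤ K * β ∧
        |(islandMet s β π).c122 x| ≤ K * β ∧ |(islandMet s β π).c222 x| ≤ K * β) →
      (∀ q ∈ disc 2, |ch.aHat s G e q| ≤ K * β ∧ |d1 (ch.aHat s G e) q| ≤ K * β) →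
      ∀ y : ℝ, ((0, y) : Pl) ∈ disc 2 →
        d1 (ch.u s G e) (ch.Θ (0, y)) = 0 ∧ |d2 (ch.u s G e) (ch.Θ (0, y))| ≤ K2 * β ∧
        |(ch.Lam (0, y)).1 * (d1 ch.Φ (ch.Θ (0, y))).1
          + (ch.Lam (0, y)).2 * (d1 ch.Φ (ch.Θ (0, y))).2| ≤ K2 * β := by
  set A := 4 * C ^ 3 * K with hA
  set Bb := 8 * C ^ 2 * (C ^ 2 + 2 * C ^ 4) * K with hBb
  set P := 2 + K with hP
  refine ⟨A + (48 * C * K * P + 2 * Bb + 12 * C * (K + A ^ 2 * P ^ 2)), by positivity, ?_⟩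
  intro k s β M a0 π G e ch hG hk hs hs1 hβ hβ1 hsol hOK hdet hU11 hLam hm ha
  obtain ⟨-, -, -, -, -, hα1, hα2, -, hΦ0, hΘ0, -, hu20, hu120, hΦc, hu, hΘ, hΦb, hub, -, -,
    hLb, hΦP, hPΦ, hΨΘ, -, -, -, -, -⟩ := id hOK
  set u := ch.u s G e with hu_def
  have hα : 0 < ch.α := lt_of_lt_of_le (by positivity) hα1
  have o2 := isOpen_disc (5 / 2)
  have o3 := isOpen_disc 3
  have s25 : disc 2 ⊆ disc (5 / 2) := disc_mono (by norm_num) (by norm_num)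
  have hΘ3 : ∀ q ∈ disc (5 / 2), ch.Θ q ∈ disc 3 := fun q hq =>
    disc_mono (by norm_num) (by norm_num) (hΨΘ q hq).1
  have hΘd : ∀ q ∈ disc (5 / 2), DifferentiableAt ℝ ch.Θ q := fun q hq =>
    (hΘ.contDiffAt (o2.mem_nhds hq)).differentiableAt (by simp)
  have huc : ∀ X ∈ disc 3, ContDiffAt ℝ 5 u X := fun X hX =>
    (hu.contDiffAt (o3.mem_nhds hX)).of_le (by norm_num)
  have huX : ∀ X ∈ disc 3, ContDiffAt ℝ 4 (d1 u) X ∧ ContDiffAt ℝ 4 (d2 u) X := fun X hX =>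
    ⟨ChartId.contDiffAt_dir (m := 5) (huc X hX) le_rfl (1, 0),
      ChartId.contDiffAt_dir (m := 5) (huc X hX) le_rfl (0, 1)⟩
  have hu1 := fun q hq => theta_diff hC hOK (q := q) hq
  intro y hy
  have hy' := s25 hy
  set q : Pl := (0, y) with hq
  have hA' := fun y hy => (curve_bounds hC hK hβ hOK hU11 ha (y := y) hy).1
  refine ⟨by rw [(hu1 q hy').1]; simp [hq], (hA' y hy).trans (by
    gcongr; linarith [show (0 : ℝ) ≤ 48 * C * K * P + 2 * Bb + 12 * C * (K + A ^ 2 * P ^ 2) by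
      positivity]), ?_⟩
  set p1 := zOf 1 G ch.e1 with hp1
  set p2 := zOf 1 G ch.e2 with hp2
  have hGc : ∀ x ∈ disc (29 / 10), ContDiffAt ℝ 3 G x := fun x hx =>
    (hsol.1.contDiffAt ((isOpen_disc 4).mem_nhds (disc_mono (by norm_num) (by norm_num) hx))).of_le
      (by exact_mod_cast hk)
  have hpc : ∀ (v : R3), ∀ x ∈ disc (29 / 10), ContDiffAt ℝ 3 (zOf 1 G v) x := fun v x hx =>
    ((hGc x hx).inner ℝ contDiffAt_const).div_const 1
  have hΦd : ∀ X ∈ disc 3, DifferentiableAt ℝ ch.Φ X := fun X hX =>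
    (hΦc.contDiffAt (o3.mem_nhds hX)).differentiableAt (by simp)
  have hl := curve_proj hG hk hC hK hs hβ hβ1 hsol hOK hdet hLam hm hy
  set Lf : Pl → ℝ := fun x => x.1 * d1 p1 x + x.2 * d2 p1 x - p1 x with hLf
  change |Lf (ch.Lam q)| ≤ _ at hl
  have hxU := hLam q hy
  have hxP : ch.proj G (ch.Lam q) = ch.Θ q := (hΦP _ (hΘ3 q hy')).2
  -- comparison of `Φ_X` with the gradient of the projection
  set x := ch.Lam q with hx
  set X := ch.Θ q with hX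
  have hX3 : X ∈ disc 3 := hΘ3 q hy'
  obtain ⟨⟨z1, z2⟩, ⟨me, mf, mg⟩, -⟩ := graph_facts hG hk hs hsol hOK hdet hxU
  rw [hxP] at z1 z2
  simp only [← hp1, ← hp2, ← hu_def, (hu1 q hy').1] at z1 z2 me mf mg
  obtain ⟨he, hf, hg, -⟩ := hm x hxU
  obtain ⟨-, -, r1, r2⟩ := proj_diff_le hG hk hs hK hβ1 hsol hOK hdet hxU he hg
  set v := d1 ch.Φ X with hv
  have hv1 : ∀ (p : Pl → ℝ) (g : Pl → ℝ), DifferentiableAt ℝ p x → EqOn (fun Y => p (ch.Φ Y)) g (disc 3) →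
      v.1 * d1 p x + v.2 * d2 p x = d1 g X := fun p g hp hpg => by
    have h := d1_comp (f := p) (P := ch.Φ) (x := X) hp (hΦd X hX3)
    rw [smul_eq_mul, smul_eq_mul] at h
    exact h.symm.trans (d1_congr o3 hpg hX3)
  have ep1 : v.1 * d1 p1 x + v.2 * d2 p1 x = 1 := by
    rw [hv1 p1 (fun Y => Y.1) ((hpc _ x hxU).differentiableAt (by norm_num)) fun Y hY => by
      have := congrArg Prod.fst (hΦP Y hY).2
      simpa [hp1, zOf, Chart.proj] using this]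
    simp [d1, fderiv_fst]
  have ep2 : v.1 * d1 p2 x + v.2 * d2 p2 x = 0 := by
    rw [hv1 p2 (fun Y => Y.2) ((hpc _ x hxU).differentiableAt (by norm_num)) fun Y hY => by
      have := congrArg Prod.snd (hΦP Y hY).2
      simpa [hp2, zOf, Chart.proj] using this]
    simp [d1, fderiv_snd]
  have hvn : ‖v‖ ≤ C := (BdOn.d1 (k := 35) o3 hΦc hΦb).norm_le hX3
  have v1 : |v.1| ≤ C := (norm_fst_le v).trans hvn
  have v2 : |v.2| ≤ C := (norm_snd_le v).trans hvn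
  obtain ⟨x1, x2⟩ := abs_coord_le hxU
  have hz : ∀ z d, z = d1 u X * d1 p1 x + d2 u X * d → d1 u X = 0 → |d| ≤ P → |z| ≤ A * P * β :=
    fun z d hz h0 hd => by
      rw [hz, h0, zero_mul, zero_add, abs_mul]
      calc |d2 u X| * |d| ≤ (A * β) * P := mul_le_mul (hA' y hy) hd (abs_nonneg _) (by positivity)
        _ = _ := by ring
  have q10 : d1 u X = 0 := by rw [(hu1 q hy').1]; simp [hq]
  rw [q10, zero_mul, zero_add] at z1 z2
  have hz1 : |d1 (zOf s G e) x| ≤ A * P * β := by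
    rw [z1, abs_mul]
    calc _ ≤ (A * β) * P := mul_le_mul (hA' y hy) r1 (abs_nonneg _) (by positivity)
      _ = _ := by ring
  have hz2 : |d2 (zOf s G e) x| ≤ A * P * β := by
    rw [z2, abs_mul]
    calc _ ≤ (A * β) * P := mul_le_mul (hA' y hy) r2 (abs_nonneg _) (by positivity)
      _ = _ := by ring
  have zz : ∀ a b, |a| ≤ A * P * β → |b| ≤ A * P * β → |s ^ 2 * (a * b)| ≤ A ^ 2 * P ^ 2 * β :=
    fun a b ha hb => by
      rw [abs_mul, abs_sq, abs_mul]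
      calc s ^ 2 * (|a| * |b|) ≤ 1 * ((A * P * β) * (A * P * β)) := by
            gcongr; exact pow_le_one₀ hs.le hs1
        _ = A ^ 2 * P ^ 2 * β * β := by ring
        _ ≤ _ := mul_le_of_le_one_right (by positivity) hβ1
  set E11 := (islandMet s β π).e x - 1 - s ^ 2 * (d1 (zOf s G e) x * d1 (zOf s G e) x)
  set E12 := (islandMet s β π).f x - s ^ 2 * (d1 (zOf s G e) x * d2 (zOf s G e) x)
  set E22 := (islandMet s β π).g x - 1 - s ^ 2 * (d2 (zOf s G e) x * d2 (zOf s G e) x)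
  have bE : ∀ a b, |a| ≤ K * β → |b| ≤ A ^ 2 * P ^ 2 * β → |a - b| ≤ (K + A ^ 2 * P ^ 2) * β :=
    fun a b ha hb => (abs_sub _ _).trans (by linarith)
  have key : x.1 * v.1 + x.2 * v.2 = Lf x + X.1
      - (x.1 * (E11 * v.1 + E12 * v.2) + x.2 * (E12 * v.1 + E22 * v.2)) := by
    have ex : p1 x = X.1 := by
      rw [← hxP]; simp [hp1, zOf, Chart.proj]
    simp only [hLf, ex]
    linear_combination (x.1 * d1 p1 x + x.2 * d2 p1 x) * ep1 + (x.1 * d1 p2 x + x.2 * d2 p2 x) * ep2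
      + x.1 * v.1 * me + (x.1 * v.2 + x.2 * v.1) * mf + x.2 * v.2 * mg
  rw [key]
  obtain ⟨-, hX1⟩ := curve_bounds hC hK hβ hOK hU11 ha hy
  have row : ∀ a b, |a| ≤ (K + A ^ 2 * P ^ 2) * β → |b| ≤ (K + A ^ 2 * P ^ 2) * β →
      ∀ c, |c| ≤ 3 → |c * (a * v.1 + b * v.2)| ≤ 6 * C * (K + A ^ 2 * P ^ 2) * β :=
    fun a b ha hb c hc => by
      rw [abs_mul]
      refine (mul_le_mul hc ((abs_add_le _ _).trans (add_le_add (le_of_eq (abs_mul _ _))
        (le_of_eq (abs_mul _ _)))) (abs_nonneg _) (by norm_num)).trans ?_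
      linarith [mul_le_mul ha v1 (abs_nonneg _) (by positivity),
        mul_le_mul hb v2 (abs_nonneg _) (by positivity)]
  have f11 := bE _ _ he (zz _ _ hz1 hz1)
  have f12 := bE _ _ hf (zz _ _ hz1 hz2)
  have f22 := bE _ _ hg (zz _ _ hz2 hz2)
  refine ((abs_sub _ _).trans (add_le_add (abs_add_le _ _) (abs_add_le _ _))).trans ?_
  have hA0 : 0 ≤ A * β := by positivity
  linarith [row _ _ f11 f12 _ x1, row _ _ f12 f22 _ x2]

end Vale.Agent.P229
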