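import Vale.Agent.P229.Core.ChartId

/-!
# P229, Core: the graph of an island solution over its chart

`graph_facts`: at a point of the island the metric is the pull back of the graph metric, and the covariant Hessian of the first projection
vanishes where `u_X = 0`.
-/

open scoped ContDiff RealInnerProductSpace Topology
open Set Filter

namespace Vale.Agent.P229

open ChartId in
theorem graph_facts (hG : GaussSpec) {k : ℕ} (hk : 3 ≤ k) {s β M a0 C : ℝ} {π : Pert}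
    {G : Pl → R3} {e : R3} {ch : Chart} (hs : 0 < s) (hsol : IslandSol k s β M a0 π G e)
    (hOK : ch.OK s C G e) (hdet : ∀ y, 0 < (islandMet s β π).det y) {x : Pl}
    (hx : x ∈ disc (29 / 10)) :
    let m := islandMet s β π
    let u := ch.u s G e
    let X := ch.proj G x
    let p1 := zOf 1 G ch.e1
    let p2 := zOf 1 G ch.e2
    let z := zOf s G e
    (d1 z x = d1 u X * d1 p1 x + d2 u X * d1 p2 x ∧
        d2 z x = d1 u X * d2 p1 x + d2 u X * d2 p2 x) ∧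
      (m.e x = d1 p1 x * d1 p1 x + d1 p2 x * d1 p2 x + s ^ 2 * (d1 z x * d1 z x) ∧
        m.f x = d1 p1 x * d2 p1 x + d1 p2 x * d2 p2 x + s ^ 2 * (d1 z x * d2 z x) ∧
        m.g x = d2 p1 x * d2 p1 x + d2 p2 x * d2 p2 x + s ^ 2 * (d2 z x * d2 z x)) ∧
      (d1 u X = 0 → m.h11 p1 x = 0 ∧ m.h12 p1 x = 0 ∧ m.h22 p1 x = 0) := by
  intro m u X p1 p2 z
  obtain ⟨hGs, hiso, -, -, he, -, -, -⟩ := hsol
  obtain ⟨he1, he2, he12, he1e, he2e, -, -, -, -, -, -, -, -, -, hu, -, -, -, -, -, -, -, hPΦ,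
    -, -, -, -, -⟩ := hOK
  set U := disc (29 / 10) with hU
  have hUo : IsOpen U := disc_isOpen _
  have hU4 : U ⊆ disc 4 := disc_sub (by norm_num)
  have hG3 : ContDiffOn ℝ 3 G U := (hGs.mono hU4).of_le (by exact_mod_cast hk)
  have hGx : ContDiffAt ℝ 3 G x := hG3.contDiffAt (hUo.mem_nhds hx)
  have hpc : ∀ (t : ℝ) (v : R3), ContDiffAt ℝ 3 (zOf t G v) x := fun t v =>
    (hGx.inner ℝ contDiffAt_const).div_const t
  have hP : (p1 x, p2 x) = X := by
    show (⟪G x, ch.e1⟫ / 1, ⟪G x, ch.e2⟫ / 1) = ch.proj G x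
    simp [Chart.proj]
  have hzu : z =ᶠ[𝓝 x] fun y => u (p1 y, p2 y) := by
    filter_upwards [hUo.mem_nhds hx] with y hy
    have e1 : (p1 y, p2 y) = ch.proj G y := by
      show (⟪G y, ch.e1⟫ / 1, ⟪G y, ch.e2⟫ / 1) = _
      simp [Chart.proj]
    rw [e1]
    exact (congrArg z (hPΦ y hy).2).symm
  have huX : ContDiffAt ℝ 3 u X :=
    (hu.contDiffAt ((disc_isOpen 3).mem_nhds (hPΦ x hx).1)).of_le (by norm_num)
  have hu2 : ContDiffAt ℝ 2 u X := huX.of_le (by norm_num)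
  have q1 := (hpc 1 ch.e1).of_le (m := 2) (by norm_num)
  have q2 := (hpc 1 ch.e2).of_le (m := 2) (by norm_num)
  -- first derivatives
  have hz1 : ∀ v, fderiv ℝ z x v = d1 u X * fderiv ℝ p1 x v + d2 u X * fderiv ℝ p2 x v := fun v => by
    rw [hzu.fderiv_eq]
    have h := dir_comp (W := u) ((hP.symm ▸ hu2 : ContDiffAt ℝ 2 u _).differentiableAt (by simp))
      (q1.differentiableAt (by simp)) (q2.differentiableAt (by simp)) v
    rw [hP] at h
    exact h
  have hGd := hGx.differentiableAt (by simp)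
  have hin : ∀ (t : ℝ) (v : R3) (a : Pl),
      fderiv ℝ (zOf t G v) x a = ⟪fderiv ℝ G x a, v⟫ / t := fun t v a => by
    show fderiv ℝ (fun y => ⟪G y, v⟫ / t) x a = _
    simp only [div_eq_mul_inv]
    rw [fderiv_mul_const (hGd.inner ℝ (differentiableAt_const v)), smul_apply, dir_inner hGd,
      smul_eq_mul, mul_comm]
  have hG1 : ∀ a, ⟪fderiv ℝ G x a, ch.e1⟫ = fderiv ℝ p1 x a ∧
      ⟪fderiv ℝ G x a, ch.e2⟫ = fderiv ℝ p2 x a ∧
      ⟪fderiv ℝ G x a, e⟫ = s * fderiv ℝ z x a := fun a => by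
    refine ⟨?_, ?_, ?_⟩
    · rw [show p1 = zOf 1 G ch.e1 from rfl, hin, div_one]
    · rw [show p2 = zOf 1 G ch.e2 from rfl, hin, div_one]
    · rw [show z = zOf s G e from rfl, hin, mul_div_cancel₀ _ hs.ne']
  obtain ⟨he', hf', hg'⟩ := hiso x (hU4 hx)
  obtain ⟨a1, b1, c1⟩ := hG1 (1, 0)
  obtain ⟨a2, b2, c2⟩ := hG1 (0, 1)
  have me : m.e x = d1 p1 x * d1 p1 x + d1 p2 x * d1 p2 x + s ^ 2 * (d1 z x * d1 z x) := by
    rw [← he', inner_split he1 he2 he he12 he1e he2e, a1, b1, c1]; simp only [d1]; ring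
  have mf : m.f x = d1 p1 x * d2 p1 x + d1 p2 x * d2 p2 x + s ^ 2 * (d1 z x * d2 z x) := by
    rw [← hf', inner_split he1 he2 he he12 he1e he2e, a1, b1, c1, a2, b2, c2]
    simp only [d1, d2]; ring
  have mg : m.g x = d2 p1 x * d2 p1 x + d2 p2 x * d2 p2 x + s ^ 2 * (d2 z x * d2 z x) := by
    rw [← hg', inner_split he1 he2 he he12 he1e he2e, a2, b2, c2]; simp only [d2]; ring
  -- Gauss
  obtain ⟨n, a, b, c, -, hgauss⟩ := hG m U G hUo hG3 (fun y hy => hiso y (hU4 hy)) fun y _ => hdet y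
  obtain ⟨hn, hn1, hn2, hR, hh⟩ := hgauss x hx
  obtain ⟨gz11, gz12, gz22, -⟩ := hh s e hs.ne'
  obtain ⟨ga11, ga12, ga22, -⟩ := hh 1 ch.e1 one_ne_zero
  obtain ⟨gb11, gb12, gb22, -⟩ := hh 1 ch.e2 one_ne_zero
  set n1 := ⟪n x, ch.e1⟫ with hn1'
  set n2 := ⟪n x, ch.e2⟫ with hn2'
  set n3 := ⟪n x, e⟫ with hn3'
  set z1 := d1 z x with hz1def
  set z2 := d2 z x with hz2def
  have ez1 : z1 = d1 u X * d1 p1 x + d2 u X * d1 p2 x := hz1 _
  have ez2 : z2 = d1 u X * d2 p1 x + d2 u X * d2 p2 x := hz1 _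
  have ht1 : d1 p1 x * n1 + d1 p2 x * n2 + s * z1 * n3 = 0 := by
    have h := inner_split he1 he2 he he12 he1e he2e (fderiv ℝ G x (1, 0)) (n x)
    rw [a1, b1, c1] at h
    rw [hz1def]
    simp only [d1] at hn1 h ⊢
    linarith
  have ht2 : d2 p1 x * n1 + d2 p2 x * n2 + s * z2 * n3 = 0 := by
    have h := inner_split he1 he2 he he12 he1e he2e (fderiv ℝ G x (0, 1)) (n x)
    rw [a2, b2, c2] at h
    rw [hz2def]
    simp only [d2] at hn2 h ⊢
    linarith
  have hnn : n1 * n1 + n2 * n2 + n3 * n3 = 1 := by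
    rw [hn1', hn2', hn3', ← inner_split he1 he2 he he12 he1e he2e, real_inner_self_eq_norm_sq, hn,
      one_pow]
  set D := d1 p1 x * d2 p2 x - d2 p1 x * d1 p2 x with hDdef
  set S := 1 + s ^ 2 * (d1 u X ^ 2 + d2 u X ^ 2) with hSdef
  have hdetD : m.det x = D ^ 2 * S := by
    rw [Met.det, me, mf, mg, ez1, ez2, hDdef, hSdef]; ring
  have hD : D ≠ 0 := fun h => by
    have := hdet x; rw [show (islandMet s β π).det x = m.det x from rfl, hdetD, h] at this; simp at this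
  have N1 : n1 = -(s * d1 u X * n3) := by
    have : (n1 + s * d1 u X * n3) * D = 0 := by
      rw [ez1] at ht1; rw [ez2] at ht2
      rw [hDdef]; linear_combination d2 p2 x * ht1 - d1 p2 x * ht2
    linarith [(mul_eq_zero.1 this).resolve_right hD]
  have N2 : n2 = -(s * d2 u X * n3) := by
    have : (n2 + s * d2 u X * n3) * D = 0 := by
      rw [ez1] at ht1; rw [ez2] at ht2
      rw [hDdef]; linear_combination d1 p1 x * ht2 - d2 p1 x * ht1
    linarith [(mul_eq_zero.1 this).resolve_right hD]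
  refine ⟨⟨ez1, ez2⟩, ⟨me, mf, mg⟩, fun h0 => ?_⟩
  have hn0 : n1 = 0 := by rw [N1, h0]; ring
  rw [show p1 = zOf 1 G ch.e1 from rfl, ga11, ga12, ga22, hn0]
  simp

end Vale.Agent.P229
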