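import Vale.Agent.P229.Core.Spec

/-!
# P229, Core: the equation of a pair in the chart of the representative, and localisation
-/

open scoped ContDiff RealInnerProductSpace
open Set

namespace Vale.Agent.P229

/-- Cofactor of the mean Hessian of a pair: first entry. -/
noncomputable def pairA1 (m m' : Met) (z z' : Pl → ℝ) (x : Pl) : ℝ := (m.h22 z x + m'.h22 z' x) / 2
/-- Cofactor of the mean Hessian of a pair: second entry. -/
noncomputable def pairA2 (m m' : Met) (z z' : Pl → ℝ) (x : Pl) : ℝ :=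
  -(m.h12 z x + m'.h12 z' x) / 2
/-- Cofactor of the mean Hessian of a pair: third entry. -/
noncomputable def pairA3 (m m' : Met) (z z' : Pl → ℝ) (x : Pl) : ℝ := (m.h11 z x + m'.h11 z' x) / 2

/-- The difference of two heights solves the linear equation of the pair, whose coefficients are
`γ`-close to the linearisation at the representative. -/
def PairSpec (k : ℕ) : Prop :=
  ∀ M a0 : ℝ, 0 < a0 → ∃ C s0 : ℝ, 1 ≤ C ∧ 0 < s0 ∧ ∀ s, 0 < s → s ≤ s0 → ∀ β, 0 < β → β ≤ s ^ 2 →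
    ∀ γ, 0 < γ → γ ≤ β ^ 2 → ∀ π π' πr G G' Gr e e' er, PertOK π → PertOK π' → PertOK πr →
      (∀ i, BdOn univ 8 γ (π i)) → (∀ i, BdOn univ 8 γ (π' i)) → (∀ i, BdOn univ 8 γ (πr i)) →
      IslandSol k s β M a0 π G e → IslandSol k s β M a0 π' G' e' →
      IslandSol k s β M a0 πr Gr er →
      BdOn (disc 2) 8 γ (fun x => zOf s G e x - zOf s Gr er x) →
      BdOn (disc 2) 8 γ (fun x => zOf s G' e' x - zOf s Gr er x) →
      ∀ (m m' mr : Met) (z z' zr : Pl → ℝ), m = islandMet s β π → m' = islandMet s β π' →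
        mr = islandMet s β πr → z = zOf s G e → z' = zOf s G' e' → zr = zOf s Gr er →
        ContDiffOn ℝ 4 (pairA1 m m' z z') (disc 3) ∧ ContDiffOn ℝ 4 (pairA2 m m' z z') (disc 3) ∧
        ContDiffOn ℝ 4 (pairA3 m m' z z') (disc 3) ∧
        BdOn (disc 2) 4 C (pairA1 m m' z z') ∧ BdOn (disc 2) 4 C (pairA2 m m' z z') ∧
        BdOn (disc 2) 4 C (pairA3 m m' z z') ∧
        BdOn (disc 2) 4 (C * γ) (fun x => pairA1 m m' z z' x - mr.h22 zr x) ∧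
        BdOn (disc 2) 4 (C * γ) (fun x => pairA2 m m' z z' x + mr.h12 zr x) ∧
        BdOn (disc 2) 4 (C * γ) (fun x => pairA3 m m' z z' x - mr.h11 zr x) ∧
        BdOn (disc 2) 4 (C * γ) (fun x => z x + z' x - 2 * zr x) ∧
        ∀ x ∈ disc 3,
          lop m' (pairA1 m m' z z') (pairA2 m m' z z') (pairA3 m m' z z') (fun y => z y + z' y)
              (fun y => z y - z' y) x
            = srcTerm s m m' (pairA1 m m' z z') (pairA2 m m' z z') (pairA3 m m' z z') z x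

/-- An operator `γ`-close to the linearisation, written in the chart. -/
def TransSpec (k : ℕ) : Prop :=
  ∀ M a0 C B : ℝ, 0 < a0 → ∃ C' s0 : ℝ, 1 ≤ C' ∧ 0 < s0 ∧
    ∀ s, 0 < s → s ≤ s0 → ∀ β, 0 < β → β ≤ s ^ 2 → ∀ γ, 0 < γ → γ ≤ β ^ 2 → C' * γ ≤ 1 →
    ∀ π' πr Gr er (ch : Chart) (A1 A2 A3 Z : Pl → ℝ), PertOK π' → PertOK πr →
      (∀ i, BdOn univ 8 γ (π' i)) → (∀ i, BdOn univ 8 γ (πr i)) →
      IslandSol k s β M a0 πr Gr er → ch.OK s C Gr er →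
      ∀ (mr : Met) (zr : Pl → ℝ), mr = islandMet s β πr → zr = zOf s Gr er →
      ContDiffOn ℝ 4 A1 (disc 3) → ContDiffOn ℝ 4 A2 (disc 3) → ContDiffOn ℝ 4 A3 (disc 3) →
      ContDiffOn ℝ 5 Z (disc 3) →
      BdOn (disc 2) 4 (B * γ) (fun x => A1 x - mr.h22 zr x) →
      BdOn (disc 2) 4 (B * γ) (fun x => A2 x + mr.h12 zr x) →
      BdOn (disc 2) 4 (B * γ) (fun x => A3 x - mr.h11 zr x) →
      BdOn (disc 2) 4 (B * γ) (fun x => Z x - 2 * zr x) →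
      ∃ (κ : Pl → ℝ) (c : Coef),
        ContDiffOn ℝ 3 κ (disc (9 / 5)) ∧ ContDiffOn ℝ 3 c.d (disc (9 / 5)) ∧
        ContDiffOn ℝ 3 c.a (disc (9 / 5)) ∧ ContDiffOn ℝ 3 c.b (disc (9 / 5)) ∧
        ContDiffOn ℝ 3 c.e (disc (9 / 5)) ∧
        BdOn (disc (9 / 5)) 3 C' κ ∧ (∀ q ∈ disc (9 / 5), 1 / C' ≤ κ q) ∧
        BdOn (disc (9 / 5)) 3 (C' * γ) c.d ∧
        BdOn (disc (9 / 5)) 3 (C' * γ) (fun q => c.a q - ch.aHat s Gr er q) ∧
        BdOn (disc (9 / 5)) 2 (C' * γ) (fun q => c.b q - d1 (ch.aHat s Gr er) q) ∧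
        BdOn (disc (9 / 5)) 3 (C' * γ) c.e ∧
        ∀ q ∈ disc (9 / 5), ∀ V : Pl → ℝ, ContDiffAt ℝ 2 V q →
          lop (islandMet s β π') A1 A2 A3 Z (fun x => V (ch.Xi s Gr er x)) (ch.Lam q)
            = κ q * c.op V q

/-- Cutting off a local solution. -/
def LocalizeSpec : Prop :=
  ∀ B : ℝ, ∃ C : ℝ, 1 ≤ C ∧ ∀ (ε : ℝ) (c : Coef) (W S R : Pl → ℝ), 0 ≤ ε →
    ContDiffOn ℝ 3 c.d (disc (8 / 5)) → ContDiffOn ℝ 3 c.a (disc (8 / 5)) →
    ContDiffOn ℝ 3 c.b (disc (8 / 5)) → ContDiffOn ℝ 3 c.e (disc (8 / 5)) →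
    BdOn (disc (8 / 5)) 2 B c.d → BdOn (disc (8 / 5)) 2 B c.a →
    BdOn (disc (8 / 5)) 2 B c.b → BdOn (disc (8 / 5)) 2 B c.e →
    ContDiffOn ℝ 5 W (disc (8 / 5)) → ContDiffOn ℝ 2 R (disc (8 / 5)) →
    (∀ q, 1 / 2 ^ 2 ≤ nsq q → S q = 0) →
    (∀ q ∈ disc (8 / 5), c.op W q = S q + R q) →
    BdOn (ring' (61 / 50) (287 / 200)) 5 ε W → BdOn (disc (8 / 5)) 2 ε R →
    ∃ v E : Pl → ℝ, ContDiff ℝ 4 v ∧ tsupport v ⊆ disc (29 / 20) ∧ ContDiff ℝ 2 E ∧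
      BdOn (disc (3 / 2)) 2 (C * ε) E ∧ ∀ q ∈ disc (3 / 2), c.op v q = S q + E q

/-- Functions on a larger disc extend from the disc of radius `3/2`. -/
def ExtendSpec : Prop :=
  ∀ (n : ℕ) (f : Pl → ℝ), ContDiffOn ℝ n f (disc (8 / 5)) →
    ∃ g : Pl → ℝ, ContDiff ℝ n g ∧ EqOn g f (disc (3 / 2))

end Vale.Agent.P229
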