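import Vale.Agent.P229.Bd
import Vale.Agent.P229.Core.Spec2

/-!
# P229, Core: small facts used by the assembly
-/

open scoped ContDiff RealInnerProductSpace
open Set Filter Topology

namespace Vale.Agent.P229.Asm

/-- Open annulus. -/
def oring (a b : ℝ) : Set Pl := {x | a ^ 2 < nsq x ∧ nsq x < b ^ 2}

theorem continuous_nsq : Continuous nsq := by unfold nsq; fun_prop

theorem isOpen_oring (a b : ℝ) : IsOpen (oring a b) :=
  (isOpen_lt continuous_const continuous_nsq).inter (isOpen_lt continuous_nsq continuous_const)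

theorem oring_subset_disc {a b : ℝ} : oring a b ⊆ disc b := fun _ h => h.2

theorem bd_mono {U V : Set Pl} {k l : ℕ} {C D : ℝ} {E : Type*} [NormedAddCommGroup E]
    [NormedSpace ℝ E] {f : Pl → E} (h : BdOn U k C f) (hV : V ⊆ U) (hl : l ≤ k) (hC : C ≤ D) :
    BdOn V l D f := fun j hj x hx => (h j (hj.trans hl) x (hV hx)).trans hC

theorem bd_abs {U : Set Pl} {k : ℕ} {C : ℝ} {f : Pl → ℝ} (h : BdOn U k C f) {x : Pl}
    (hx : x ∈ U) : |f x| ≤ C := by simpa [Real.norm_eq_abs] using h.norm_le hx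

theorem d1_eventually {f g : Pl → ℝ} {x : Pl} (h : f =ᶠ[𝓝 x] g) : P229.d1 f =ᶠ[𝓝 x] P229.d1 g :=
  (h.fderiv (𝕜 := ℝ)).mono fun y hy => by simp [P229.d1, hy]

theorem d2_eventually {f g : Pl → ℝ} {x : Pl} (h : f =ᶠ[𝓝 x] g) : P229.d2 f =ᶠ[𝓝 x] P229.d2 g :=
  (h.fderiv (𝕜 := ℝ)).mono fun y hy => by simp [P229.d2, hy]

/-- The operator at a point depends only on the germ. -/
theorem lop_congr (m : Met) (A1 A2 A3 Z : Pl → ℝ) {f g : Pl → ℝ} {x : Pl} (h : f =ᶠ[𝓝 x] g) :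
    lop m A1 A2 A3 Z f x = lop m A1 A2 A3 Z g x := by
  simp only [lop, Met.h11, Met.h12, Met.h22, Met.gradIP, (d1_eventually h).eq_of_nhds,
    (d2_eventually h).eq_of_nhds, (d1_eventually (d1_eventually h)).eq_of_nhds,
    (d1_eventually (d2_eventually h)).eq_of_nhds, (d2_eventually (d2_eventually h)).eq_of_nhds]

theorem op_congr {c c' : Coef} {x : Pl} (h1 : c.d x = c'.d x) (h2 : c.a x = c'.a x)
    (h3 : c.b x = c'.b x) (h4 : c.e x = c'.e x) (v : Pl → ℝ) : c.op v x = c'.op v x := by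
  simp only [Coef.op, h1, h2, h3, h4]

theorem waveOK_mono {N : ℕ} {C D : ℝ} {G : ℝ → ℝ} (h : WaveOK N C G) (hC : 0 < C) (hCD : C ≤ D)
    (hN : 0 < N) : WaveOK N D G := by
  obtain ⟨h1, h2, h3, h4, h5, h6, h7⟩ := h
  have hI : 0 ≤ ∫ y, deriv^[2] G y ^ 2 := MeasureTheory.integral_nonneg fun y => sq_nonneg _
  have hN' : (0 : ℝ) < N := by exact_mod_cast hN
  refine ⟨h1, h2, h3.trans ?_, h4.trans ?_, h5.trans ?_, h6.trans ?_, le_trans ?_ h7⟩
  · gcongr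
  · gcongr
  · gcongr
  · gcongr
  · gcongr

theorem eta0_eq_zero {x : ℝ} (h : 1 ≤ |x|) : eta0 x = 0 :=
  ContDiffBump.zero_of_le_dist _ (by simpa [Real.dist_eq] using h)

theorem deriv_eta0_eq_zero {x : ℝ} (h : 1 < |x|) : deriv eta0 x = 0 := by
  have he : eta0 =ᶠ[𝓝 x] fun _ => (0 : ℝ) := by
    filter_upwards [(isOpen_lt continuous_const continuous_abs).mem_nhds h] with y hy
    exact eta0_eq_zero (le_of_lt hy)
  rw [he.deriv_eq]; simp

theorem deriv_iter_eq_zero {G : ℝ → ℝ} {a : ℝ} (h : ∀ y, a ≤ |y| → G y = 0) (n : ℕ) {y : ℝ}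
    (hy : a < |y|) : deriv^[n] G y = 0 := by
  have key : ∀ n : ℕ, ∀ y, a < |y| → deriv^[n] G y = 0 := by
    intro n
    induction n with
    | zero => exact fun y hy => h y hy.le
    | succ n ih =>
      intro y hy
      rw [Function.iterate_succ_apply']
      have he : deriv^[n] G =ᶠ[𝓝 y] fun _ => (0 : ℝ) := by
        filter_upwards [(isOpen_lt continuous_const continuous_abs).mem_nhds hy] with w hw
        exact ih w hw
      rw [he.deriv_eq]; simp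
  exact key n y hy

/-- The source is supported in a small disc. -/
theorem source_eq_zero {N : ℕ} (hN : 4 ≤ N) {C : ℝ} {G : ℝ → ℝ} (hG : WaveOK N C G) (t : ℝ)
    (c0 c1 c2 c3 : Pl → ℝ) {q : Pl} (hq : 1 / 2 ^ 2 ≤ nsq q) :
    source N t c0 c1 c2 c3 G q = 0 := by
  obtain ⟨-, hz, -⟩ := hG
  rcases lt_or_ge (27 / 100 : ℝ) |q.2| with h | h
  · have h0 := deriv_iter_eq_zero hz 0 h
    have h1 := deriv_iter_eq_zero hz 1 h
    have h2 := deriv_iter_eq_zero hz 2 h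
    simp only [Function.iterate_zero, id_eq] at h0
    simp only [Function.iterate_one] at h1
    simp [source, h0, h1, h2]
  · have hp : 1 / 5 ≤ |q.1| := by
      by_contra hc
      rw [not_le] at hc
      unfold nsq at hq
      nlinarith [sq_abs q.1, sq_abs q.2, abs_nonneg q.1, abs_nonneg q.2]
    have h4 : (4 : ℝ) ^ 4 ≤ (N : ℝ) ^ 4 := by
      gcongr
      exact_mod_cast hN
    have hbig : 1 < |(N : ℝ) ^ 4 * q.1| := by
      rw [abs_mul, abs_of_nonneg (pow_nonneg (Nat.cast_nonneg N) 4)]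
      nlinarith [abs_nonneg q.1]
    simp [source, eta0_eq_zero hbig.le, deriv_eta0_eq_zero hbig]

theorem contDiff_lin2 {π : Pert} (h : ∀ i, ContDiff ℝ 4 (π i)) :
    ContDiff ℝ 2 (lin2 π) := by
  have e1 : ∀ {n : ℕ} {f : Pl → ℝ}, ContDiff ℝ (n + 1 : ℕ) f → ContDiff ℝ n (P229.d1 f) :=
    fun hf => contDiffOn_univ.1 (contDiffOn_d1 isOpen_univ hf.contDiffOn)
  have e2 : ∀ {n : ℕ} {f : Pl → ℝ}, ContDiff ℝ (n + 1 : ℕ) f → ContDiff ℝ n (P229.d2 f) :=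
    fun hf => contDiffOn_univ.1 (contDiffOn_d2 isOpen_univ hf.contDiffOn)
  exact contDiff_const.mul ((((e2 (e2 (n := 3) (h 0)) : ContDiff ℝ (2 : ℕ) _)).sub
    (contDiff_const.mul (e1 (e2 (n := 3) (h 1))))).add (e1 (e1 (n := 3) (h 2))))

theorem lin2_add {π ρ : Pert} (h : ∀ i, ContDiff ℝ 2 (π i)) (h' : ∀ i, ContDiff ℝ 2 (ρ i))
    (x : Pl) : lin2 (fun i y => π i y + ρ i y) x = lin2 π x + lin2 ρ x := by
  have d : ∀ {f : Pl → ℝ}, ContDiff ℝ 2 f → Differentiable ℝ f :=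
    fun hf => hf.differentiable (by norm_num)
  have e1 : ∀ {f : Pl → ℝ}, ContDiff ℝ 2 f → Differentiable ℝ (P229.d1 f) := fun hf =>
    (contDiffOn_univ.1 (contDiffOn_d1 (k := 1) isOpen_univ hf.contDiffOn)).differentiable
      (by norm_num)
  have e2 : ∀ {f : Pl → ℝ}, ContDiff ℝ 2 f → Differentiable ℝ (P229.d2 f) := fun hf =>
    (contDiffOn_univ.1 (contDiffOn_d2 (k := 1) isOpen_univ hf.contDiffOn)).differentiable
      (by norm_num)
  have a1 : ∀ i, P229.d1 (fun y => π i y + ρ i y) = fun y => P229.d1 (π i) y + P229.d1 (ρ i) y :=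
    fun i => funext fun y => d1_add (d (h i) y) (d (h' i) y)
  have a2 : ∀ i, P229.d2 (fun y => π i y + ρ i y) = fun y => P229.d2 (π i) y + P229.d2 (ρ i) y :=
    fun i => funext fun y => d2_add (d (h i) y) (d (h' i) y)
  simp only [lin2, a1, a2, d2_add (e2 (h 0) x) (e2 (h' 0) x), d1_add (e2 (h 1) x) (e2 (h' 1) x),
    d1_add (e1 (h 2) x) (e1 (h' 2) x)]
  ring

theorem jet1_add (P Q R : Fin 3 → Pl → ℝ) {π ρ : Pert} (h : ∀ i, ContDiff ℝ 1 (π i))
    (h' : ∀ i, ContDiff ℝ 1 (ρ i)) (x : Pl) :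
    jet1 P Q R (fun i y => π i y + ρ i y) x = jet1 P Q R π x + jet1 P Q R ρ x := by
  simp only [jet1, ← Finset.sum_add_distrib]
  refine Finset.sum_congr rfl fun i _ => ?_
  rw [d1_add ((h i).differentiable one_ne_zero x) ((h' i).differentiable one_ne_zero x),
    d2_add ((h i).differentiable one_ne_zero x) ((h' i).differentiable one_ne_zero x)]
  ring

end Vale.Agent.P229.Asm

namespace Vale.Agent.P229.Asm

/-- Bound for the linearised curvature and the one-jet form of a small increment. -/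
theorem bd_srcForm {U : Set Pl} (hU : IsOpen U) {C ε : ℝ} {cL : Pl → ℝ}
    {P Q R : Fin 3 → Pl → ℝ} {π : Pert} (hπ : ∀ i, ContDiff ℝ 4 (π i))
    (hb : ∀ i, BdOn univ 4 ε (π i)) (hc : ContDiffOn ℝ 2 cL U) (hcb : BdOn U 2 C cL)
    (hP : ∀ i, ContDiffOn ℝ 2 (P i) U ∧ ContDiffOn ℝ 2 (Q i) U ∧ ContDiffOn ℝ 2 (R i) U ∧
      BdOn U 2 C (P i) ∧ BdOn U 2 C (Q i) ∧ BdOn U 2 C (R i)) :
    ContDiffOn ℝ 2 (fun x => cL x * lin2 π x + jet1 P Q R π x) U ∧
      BdOn U 2 (44 * C * ε) (fun x => cL x * lin2 π x + jet1 P Q R π x) := by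
  have hb' : ∀ i, BdOn U 4 ε (π i) := fun i => (hb i).mono_set (subset_univ _)
  have hπ4 : ∀ i, ContDiffOn ℝ (4 : ℕ) (π i) U := fun i => (hπ i).contDiffOn
  have hπ3 : ∀ i, ContDiffOn ℝ (3 : ℕ) (π i) U := fun i => (hπ4 i).of_le (by norm_num)
  have hπ2 : ∀ i, ContDiffOn ℝ (2 : ℕ) (π i) U := fun i => (hπ4 i).of_le (by norm_num)
  have p1 : ∀ i, ContDiffOn ℝ (2 : ℕ) (P229.d1 (π i)) U := fun i => contDiffOn_d1 hU (hπ3 i)
  have p2 : ∀ i, ContDiffOn ℝ (2 : ℕ) (P229.d2 (π i)) U := fun i => contDiffOn_d2 hU (hπ3 i)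
  have p3 : ∀ i, ContDiffOn ℝ (3 : ℕ) (P229.d2 (π i)) U := fun i => contDiffOn_d2 hU (hπ4 i)
  have p4 : ∀ i, ContDiffOn ℝ (3 : ℕ) (P229.d1 (π i)) U := fun i => contDiffOn_d1 hU (hπ4 i)
  have q1 : ∀ i, BdOn U 2 ε (P229.d1 (π i)) := fun i =>
    ((hb' i).mono_order (by norm_num : 3 ≤ 4)).d1 hU (hπ3 i)
  have q2 : ∀ i, BdOn U 2 ε (P229.d2 (π i)) := fun i =>
    ((hb' i).mono_order (by norm_num : 3 ≤ 4)).d2 hU (hπ3 i)
  have q0 : ∀ i, BdOn U 2 ε (π i) := fun i => (hb' i).mono_order (by norm_num)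
  have l0 : BdOn U 2 ε (P229.d2 (P229.d2 (π 0))) := ((hb' 0).d2 hU (hπ4 0)).d2 hU (p3 0)
  have l1 : BdOn U 2 ε (P229.d1 (P229.d2 (π 1))) := ((hb' 1).d2 hU (hπ4 1)).d1 hU (p3 1)
  have l2 : BdOn U 2 ε (P229.d1 (P229.d1 (π 2))) := ((hb' 2).d1 hU (hπ4 2)).d1 hU (p4 2)
  have c0 : ContDiffOn ℝ (2 : ℕ) (P229.d2 (P229.d2 (π 0))) U := contDiffOn_d2 hU (p3 0)
  have c1 : ContDiffOn ℝ (2 : ℕ) (P229.d1 (P229.d2 (π 1))) U := contDiffOn_d1 hU (p3 1)
  have c2 : ContDiffOn ℝ (2 : ℕ) (P229.d1 (P229.d1 (π 2))) U := contDiffOn_d1 hU (p4 2)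
  have c1' : ContDiffOn ℝ (2 : ℕ) (fun x => 2 * P229.d1 (P229.d2 (π 1)) x) U :=
    contDiffOn_const.mul c1
  have hl : ContDiffOn ℝ (2 : ℕ) (lin2 π) U :=
    contDiffOn_const.mul ((c0.sub c1').add c2)
  have bl : BdOn U 2 (2 * ε) (lin2 π) := by
    have h := ((l0.sub hU c0 c1' (l1.const_mul hU 2 c1)).add hU (c0.sub c1') c2 l2).const_mul hU
      (-(1 / 2)) ((c0.sub c1').add c2)
    refine BdOn.mono_const (f := lin2 π) h ?_
    norm_num
    linarith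
  have hcl : ContDiffOn ℝ (2 : ℕ) (fun x => cL x * lin2 π x) U := hc.mul hl
  have bcl : BdOn U 2 (8 * C * ε) (fun x => cL x * lin2 π x) :=
    (hcb.mul hU hc hl bl).mono_const (le_of_eq (by ring))
  have ht : ∀ i, ContDiffOn ℝ (2 : ℕ)
      (fun x => P i x * π i x + Q i x * P229.d1 (π i) x + R i x * P229.d2 (π i) x) U ∧
      BdOn U 2 (12 * C * ε)
      (fun x => P i x * π i x + Q i x * P229.d1 (π i) x + R i x * P229.d2 (π i) x) := fun i => by
    obtain ⟨hp, hq, hr, bp, bq, br⟩ := hP i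
    have s1 : ContDiffOn ℝ (2 : ℕ) (fun x => P i x * π i x) U := hp.mul (hπ2 i)
    have s2 : ContDiffOn ℝ (2 : ℕ) (fun x => Q i x * P229.d1 (π i) x) U := hq.mul (p1 i)
    have s3 : ContDiffOn ℝ (2 : ℕ) (fun x => R i x * P229.d2 (π i) x) U := hr.mul (p2 i)
    have t1 := bp.mul hU hp (hπ2 i) (q0 i)
    have t2 := bq.mul hU hq (p1 i) (q1 i)
    have t3 := br.mul hU hr (p2 i) (q2 i)
    exact ⟨(s1.add s2).add s3, ((t1.add hU s1 s2 t2).add hU (s1.add s2) s3 t3).mono_const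
      (le_of_eq (by ring))⟩
  have hj : ContDiffOn ℝ (2 : ℕ) (jet1 P Q R π) U := ContDiffOn.sum fun i _ => (ht i).1
  have bj : BdOn U 2 (36 * C * ε) (jet1 P Q R π) := by
    refine BdOn.mono_const (f := jet1 P Q R π)
      (BdOn.sum hU Finset.univ _ (fun _ => 12 * C * ε) (fun i _ => (ht i).1) fun i _ => (ht i).2) ?_
    simp
    linarith
  exact ⟨hcl.add hj, (bcl.add hU hcl hj bj).mono_const (le_of_eq (by ring))⟩

end Vale.Agent.P229.Asm
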