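import Vale.Agent.P229.Core.AsmBasic

/-!
# P229, Core: assembly of `CoreSpec` from its parts

The difference `w` of two heights solves the pair equation; in the chart of the representative it
becomes an instance of section 7, after cutting off on the annulus where `w` is tiny.
-/

open scoped ContDiff RealInnerProductSpace Nat
open Set Filter Topology

namespace Vale.Agent.P229.Asm

variable {s C : ℝ} {G : Pl → R3} {e : R3} {ch : Chart}

/-- The facts about a chart used by the assembly. -/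
structure ChartFacts (ch : Chart) (s C : ℝ) (G : Pl → R3) (e : R3) : Prop where
  one_le : 1 ≤ C
  alpha_pos : 0 < ch.α
  alpha_le : ch.α ≤ C
  alpha_ge : 1 / C ≤ ch.α
  smooth : ContDiffOn ℝ 35 ch.Lam (disc (5 / 2))
  bd : BdOn (disc (5 / 2)) 35 C ch.Lam
  near : ∀ q ∈ disc (5 / 2), |nsq (ch.Lam q) - nsq q| ≤ C * s
  inv_left : ∀ x ∈ disc 2, ch.Lam (ch.Xi s G e x) = x
  inv_right : ∀ q ∈ disc (5 / 2), ch.Xi s G e (ch.Lam q) = q

theorem chartFacts (hC : 1 ≤ C) (h : ch.OK s C G e) : ChartFacts ch s C G e := by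
  obtain ⟨-, -, -, -, -, ha, hb, -, -, -, -, -, -, hΦ, -, hΘ, -, -, -, -, hLb, hΦm, hpm, hΘm, hΨm,
    hp2, -, hn, -⟩ := h
  have hC0 : 0 < C := zero_lt_one.trans_le hC
  have hmaps : MapsTo ch.Θ (disc (5 / 2)) (disc 3) := fun q hq =>
    disc_mono (by norm_num) (by norm_num) (hΘm q hq).1
  have hsm : ContDiffOn ℝ 35 ch.Lam (disc (5 / 2)) :=
    (hΦ.of_le (by norm_num)).comp hΘ hmaps
  refine ⟨hC, lt_of_lt_of_le (by positivity) ha, hb, ha, hsm, hLb, fun q hq => bd_abs hn hq,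
    fun x hx => ?_, fun q hq => ?_⟩
  · have hx29 : x ∈ disc (29 / 10) := disc_mono (by norm_num) (by norm_num) hx
    have hX : ch.proj G x ∈ disc (12 / 5) := disc_mono (by norm_num) (by norm_num) (hp2 x hx)
    show ch.Φ (ch.Θ (ch.Psi s G e (ch.proj G x))) = x
    rw [(hΨm _ hX).2]
    exact (hpm x hx29).2
  · obtain ⟨hθ, hΨ⟩ := hΘm q hq
    show ch.Psi s G e (ch.proj G (ch.Φ (ch.Θ q))) = q
    rw [(hΦm _ (hmaps hq)).2]
    exact hΨ

variable (hF : ChartFacts ch s C G e) (hs : C * s ≤ 1 / 25)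
include hF hs

theorem ChartFacts.maps2 : MapsTo ch.Lam (disc (9 / 5)) (disc 2) := fun q hq => by
  have h := hF.near q (disc_mono (by norm_num) (by norm_num) hq)
  show nsq _ < (2 : ℝ) ^ 2
  have : nsq q < (9 / 5) ^ 2 := hq
  norm_num at this ⊢
  linarith [abs_le.1 h]

theorem ChartFacts.mapsRing {q : Pl} (hq : q ∈ oring (609 / 500) (718 / 500)) :
    ch.Lam q ∈ ring' (6 / 5) (29 / 20) := by
  have h := hF.near q (disc_mono (by norm_num) (by norm_num) hq.2)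
  obtain ⟨h1, h2⟩ := hq
  norm_num at h1 h2
  constructor <;> · norm_num; linarith [abs_le.1 h]

end Vale.Agent.P229.Asm

namespace Vale.Agent.P229.Asm

/-- The bound of the right side in the chart. -/
theorem bd_rhs {U V : Set Pl} (hU : IsOpen U) (hV : IsOpen V) {L : Pl → Pl} {F κ : Pl → ℝ}
    {A D K B : ℝ} (hL : ContDiffOn ℝ 2 L U) (hLb : BdOn U 2 D L) (hm : MapsTo L U V)
    (hF : ContDiffOn ℝ 2 F V) (hFb : BdOn V 2 A F) (hκ : ContDiffOn ℝ 2 κ U)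
    (hκb : BdOn U 2 K κ) (hB : 0 < B) (hlow : ∀ q ∈ U, B ≤ κ q) :
    ContDiffOn ℝ 2 (fun q => F (L q) / κ q) U ∧
      BdOn U 2 (2 ^ 2 * (2 ! * A * max 1 D ^ 2) * invC 2 B K) (fun q => F (L q) / κ q) :=
  have h1 : ContDiffOn ℝ (2 : ℕ) (fun q => F (L q)) U := hF.comp hL hm
  ⟨h1.div hκ fun q hq => (hB.trans_le (hlow q hq)).ne',
    (hFb.comp hU hV hm hF hL hLb).div hU hB h1 hκ hκb fun q hq =>
      (hlow q hq).trans (le_abs_self _)⟩

theorem ring_subset_oring : ring' (61 / 50) (287 / 200) ⊆ oring (609 / 500) (718 / 500) := by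
  rintro q ⟨h1, h2⟩
  norm_num at h1 h2
  constructor <;> · norm_num; linarith

end Vale.Agent.P229.Asm

namespace Vale.Agent.P229

open Asm

/-- Smoothness of `aHat`. -/
theorem Asm.contDiffOn_aHat {ch : Chart} {s C : ℝ} {G : Pl → R3} {e : R3} (h : ch.OK s C G e) :
    ContDiffOn ℝ 3 (ch.aHat s G e) (disc (5 / 2)) := by
  obtain ⟨-, -, -, -, -, -, -, -, -, -, -, -, -, -, hu, hΘ, -, -, -, -, -, -, -, hΘm, -⟩ := h
  have o := isOpen_disc 3
  have hu5 : ContDiffOn ℝ (5 : ℕ) (ch.u s G e) (disc 3) := hu.of_le (by norm_num)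
  have hΘ3 : ContDiffOn ℝ (3 : ℕ) ch.Θ (disc (5 / 2)) := hΘ.of_le (by norm_num)
  have hmaps : MapsTo ch.Θ (disc (5 / 2)) (disc 3) := fun q hq =>
    disc_mono (by norm_num) (by norm_num) (hΘm q hq).1
  have h1 := contDiffOn_d1 (k := 4) o hu5
  have h2 := contDiffOn_d2 (k := 4) o hu5
  exact ((((contDiffOn_d1 (k := 3) o h1).comp hΘ3 hmaps).mul
    ((contDiffOn_d2 (k := 3) o h2).comp hΘ3 hmaps)).sub
    (((contDiffOn_d1 (k := 3) o h2).comp hΘ3 hmaps).pow 2)).div_const _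

/-- Monotonicity of `Chart.OK` in the constant. -/
theorem Chart.OK.mono {ch : Chart} {s C D : ℝ} {G : Pl → R3} {e : R3} (h : ch.OK s C G e)
    (hC : 0 < C) (hs : 0 ≤ s) (hCD : C ≤ D) : ch.OK s D G e := by
  obtain ⟨h1, h2, h3, h4, h5, ha, hb, h8, h9, h10, h11, h12, h13, h14, h15, h16, h17, h18, h19,
    h20, h21, h22, h23, h24, h25, h26, h27, h28, h29⟩ := h
  have hs' : C * s ≤ D * s := mul_le_mul_of_nonneg_right hCD hs
  exact ⟨h1, h2, h3, h4, h5, (one_div_le_one_div_of_le hC hCD).trans ha, hb.trans hCD, h8, h9,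
    h10, h11, h12, h13, h14, h15, h16, h17.mono_const hCD, h18.mono_const hCD, h19.mono_const hCD,
    h20.mono_const hCD, h21.mono_const hCD, h22, h23, h24, h25, h26,
    fun X hX => ⟨(h27 X hX).1.trans hs', (h27 X hX).2.trans hs'⟩, h28.mono_const hs', h29⟩

/-- A tiny quantity is small against `β' √β'`. -/
theorem Asm.small_gamma {d0 β β' C x : ℝ} (hd0 : 0 < d0) (hβ : 0 < β) (hC : 0 < C)
    (hβm : β / C ^ 2 ≤ β') (hx : x * (C ^ 2 / β + 1) ^ 2 ≤ d0 / 4) :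
    x ≤ d0 / 4 * (β' * Real.sqrt β') ∧ x ≤ d0 / 4 * β' := by
  obtain ⟨u, hu⟩ : ∃ u, u = C ^ 2 / β := ⟨_, rfl⟩
  rw [← hu] at hx
  have hu0 : 0 < u := hu ▸ (by positivity)
  have hub : 1 / u ≤ β' := by rw [hu, one_div_div]; exact hβm
  have h1 : 1 / (u + 1) ≤ β' := le_trans (one_div_le_one_div_of_le hu0 (by linarith)) hub
  have h1' : 1 / (u + 1) ≤ 1 := by rw [div_le_one (by positivity)]; linarith
  have h2 : 1 / (u + 1) ≤ Real.sqrt β' :=
    Real.le_sqrt_of_sq_le ((pow_le_of_le_one (by positivity) h1' two_ne_zero).trans h1)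
  have h3 : x ≤ d0 / 4 * (1 / (u + 1) * (1 / (u + 1))) := by
    rw [show d0 / 4 * (1 / (u + 1) * (1 / (u + 1))) = d0 / 4 / (u + 1) ^ 2 by field_simp,
      le_div_iff₀ (by positivity)]
    exact hx
  have h0 : 0 ≤ 1 / (u + 1) := by positivity
  exact ⟨h3.trans (mul_le_mul_of_nonneg_left (mul_le_mul h1 h2 h0 (h0.trans h1)) (by positivity)),
    h3.trans (mul_le_mul_of_nonneg_left ((mul_le_of_le_one_left h0 h1').trans h1) (by positivity))⟩

set_option maxHeartbeats 1600000 in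
/-- `CoreSpec` from its parts. -/
theorem coreSpec_of {k : ℕ} (hk : 40 ≤ k) (hE : EstSpec) (hCh : ChartSpec k) (hA : AHatSpec k)
    (hS : SrcSpec k) (hW : WaveSpec) (hT : TgtSpec) (hWS : WaveSrcSpec) (hP : PairSpec k)
    (hTr : TransSpec k) (hL : LocalizeSpec) (hX : ExtendSpec) : CoreSpec k := by
  obtain ⟨A, hT⟩ := hT
  obtain ⟨Cw, Nw, hCw, hW⟩ := hW
  obtain ⟨d0, hd0, hE⟩ := hE
  refine ⟨A, fun M a0 ha0 => ?_⟩
  obtain ⟨C1, s1, hC1, hs1, hCh⟩ := hCh M a0 ha0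
  obtain ⟨C2, s2, hC2, hs2, hA⟩ := hA M a0 C1 ha0
  obtain ⟨C3, s3, hC3, hs3, hP⟩ := hP M a0 ha0
  obtain ⟨C4, s4, hC4, hs4, hS⟩ := hS M a0 C3 ha0
  obtain ⟨C5, s5, hC5, hs5, hTr⟩ := hTr M a0 C1 C3 ha0
  obtain ⟨C6, s6, hC6, hs6, hWS⟩ := hWS (max C1 (max C4 C5))
  obtain ⟨s7, hs7, Nt, hT⟩ := hT C1
  obtain ⟨C8, hC8, hLoc⟩ := hL (C2 + 2 * C5 + 2)
  -- the constant of the error term
  obtain ⟨BR, hBR⟩ : ∃ B : ℝ, B = 2 ^ 2 * (2 ! * (44 * C4 * 1) * max 1 C1 ^ 2) * invC 2 (1 / C5) C5 :=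
    ⟨_, rfl⟩
  obtain ⟨BW, hBW⟩ : ∃ B : ℝ, B = 5 ! * 1 * max 1 C1 ^ 5 := ⟨_, rfl⟩
  have hBW1 : 1 ≤ BW := by
    rw [hBW]
    have : (1 : ℝ) ≤ max 1 C1 ^ 5 := one_le_pow₀ (le_max_left _ _)
    norm_num [Nat.factorial]
    linarith
  obtain ⟨Bε, hBε⟩ : ∃ B : ℝ, B = max BW BR := ⟨_, rfl⟩
  have hBε0 : 0 ≤ Bε := by rw [hBε]; linarith [le_max_left BW BR]
  obtain ⟨CE, hCE⟩ : ∃ B : ℝ,
      B = max (max ((C2 + C5) * C1 ^ 2 + (C2 + 2 * C5) * C1 ^ 2) (max C6 (Cw : ℝ)))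
        (max C5 (C8 * Bε)) := ⟨_, rfl⟩
  have hCEa : (C2 + C5) * C1 ^ 2 + (C2 + 2 * C5) * C1 ^ 2 ≤ CE :=
    hCE ▸ (le_max_left _ _).trans (le_max_left _ _)
  have hCE6 : C6 ≤ CE := hCE ▸ ((le_max_left _ _).trans (le_max_right _ _)).trans (le_max_left _ _)
  have hCEw : (Cw : ℝ) ≤ CE :=
    hCE ▸ ((le_max_right _ _).trans (le_max_right _ _)).trans (le_max_left _ _)
  have hCE5 : C5 ≤ CE := hCE ▸ (le_max_left _ _).trans (le_max_right _ _)
  have hCEε : C8 * Bε ≤ CE := hCE ▸ (le_max_right _ _).trans (le_max_right _ _)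
  obtain ⟨β0, hβ0, hE⟩ := hE CE (hC6.trans hCE6)
  obtain ⟨sb, hsb⟩ : ∃ x : ℝ, x = min (min (min s1 s2) (min s3 s4))
      (min (min (min s5 s6) (min s7 1)) (min (1 / (25 * C1)) (d0 / (2 * C2)))) := ⟨_, rfl⟩
  have hC1' : 0 < C1 := zero_lt_one.trans_le hC1
  have hC2' : 0 < C2 := zero_lt_one.trans_le hC2
  have hC5' : 0 < C5 := zero_lt_one.trans_le hC5
  refine ⟨sb, hsb ▸ by simp only [lt_min_iff]; refine ⟨⟨⟨hs1, hs2⟩, hs3, hs4⟩, ⟨⟨hs5, hs6⟩, hs7,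
    one_pos⟩, ?_, ?_⟩ <;> positivity, fun s hs hsle => ?_⟩
  simp only [hsb, le_min_iff] at hsle
  obtain ⟨⟨⟨l1, l2⟩, l3, l4⟩, ⟨⟨l5, l6⟩, l7, hs_one⟩, lC1, lC2⟩ := hsle
  have hs25 : C1 * s ≤ 1 / 25 := by
    calc C1 * s ≤ C1 * (1 / (25 * C1)) := by gcongr
      _ = 1 / 25 := by field_simp
  have hsd : C2 * s ≤ d0 / 2 := by
    calc C2 * s ≤ C2 * (d0 / (2 * C2)) := by gcongr
      _ = d0 / 2 := by field_simp
  refine ⟨min (s ^ 2) (β0 / C1 ^ 2), by positivity, fun β hβ hβle => ?_⟩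
  obtain ⟨hβs, hβE⟩ := le_min_iff.1 hβle
  obtain ⟨Ne, hE⟩ := hE (β / C1 ^ 2) (by positivity)
  -- thresholds on `N`
  obtain ⟨M0, hM0⟩ : ∃ x : ℝ, x = 1 / β ^ 2 + C5 + 4 * C5 / d0 * (C1 ^ 2 / β + 1) ^ 2 := ⟨_, rfl⟩
  obtain ⟨Nb, hNb⟩ := exists_nat_gt M0
  refine ⟨max (max Nb (max Ne Nt)) (max Nw 11), fun N hN πr Gr er hπr hπrb hr => ?_⟩
  simp only [max_le_iff] at hN
  obtain ⟨⟨hNNb, hNe, hNt⟩, hNw, hN11⟩ := hN
  have hNr : (1 : ℝ) ≤ N := by exact_mod_cast (by omega : 1 ≤ N)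
  have hN0 : (0 : ℝ) < N := by linarith
  obtain ⟨γ, hγ⟩ : ∃ x : ℝ, x = 1 / (N : ℝ) ^ 32 := ⟨_, rfl⟩
  have hγ0 : 0 < γ := by rw [hγ]; positivity
  have hNM : M0 < (N : ℝ) ^ 32 := calc
    M0 < (Nb : ℝ) := hNb
    _ ≤ N := by exact_mod_cast hNNb
    _ ≤ (N : ℝ) ^ 32 := le_self_pow₀ hNr (by norm_num)
  have hγM : γ * M0 ≤ 1 := by
    rw [hγ, one_div, inv_mul_le_iff₀ (by positivity), mul_one]; exact hNM.le
  have hpos1 : 0 ≤ 1 / β ^ 2 := by positivity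
  have hpos3 : 0 ≤ 4 * C5 / d0 * (C1 ^ 2 / β + 1) ^ 2 := by positivity
  have hγβ : γ ≤ β ^ 2 := by
    have h : γ * (1 / β ^ 2) ≤ 1 :=
      (mul_le_mul_of_nonneg_left (by rw [hM0]; linarith) hγ0.le).trans hγM
    rwa [mul_one_div, div_le_one (by positivity)] at h
  have hCγ : C5 * γ ≤ 1 := by
    rw [mul_comm]
    exact (mul_le_mul_of_nonneg_left (by rw [hM0]; linarith) hγ0.le).trans hγM
  have hγd : C5 * γ * (C1 ^ 2 / β + 1) ^ 2 ≤ d0 / 4 := by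
    have h : γ * (4 * C5 / d0 * (C1 ^ 2 / β + 1) ^ 2) ≤ 1 :=
      (mul_le_mul_of_nonneg_left (by rw [hM0]; linarith) hγ0.le).trans hγM
    have e : C5 * γ * (C1 ^ 2 / β + 1) ^ 2
        = d0 / 4 * (γ * (4 * C5 / d0 * (C1 ^ 2 / β + 1) ^ 2)) := by field_simp
    rw [e]
    exact mul_le_of_le_one_right (by positivity) h
  have h40 : ∀ π : Pert, (∀ i, BdOn univ 8 (1 / (N : ℝ) ^ 40) (π i)) →
      ∀ i, BdOn univ 8 γ (π i) := fun π h i => (h i).mono_const (by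
    rw [hγ]; gcongr; norm_num)
  have h8 : ∀ π : Pert, (∀ i, BdOn univ 8 γ (π i)) → ∀ i, BdOn univ 8 (β ^ 2) (π i) :=
    fun π h i => (h i).mono_const hγβ
  obtain ⟨ch, hch⟩ := hCh s hs l1 β hβ hβs πr Gr er hπr (h8 _ (h40 _ hπrb)) hr
  have hcf := chartFacts hC1 hch
  refine ⟨fun j i => ch.tgt s Gr er N j i, fun j i => hT s hs l7 N hNt Gr er ch hch j i, ?_⟩
  intro t δ ht ht1 hδ hδ1 π π' G G' e e' hπ hπ' hπb hπb' hsol hsol' herr hzr hz'r hann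
  -- effective beta
  have hα := hcf.alpha_pos
  obtain ⟨β', hβ'⟩ : ∃ x : ℝ, x = β / ch.α ^ 2 := ⟨_, rfl⟩
  have hαsq : ch.α ^ 2 ≤ C1 ^ 2 := pow_le_pow_left₀ hα.le hcf.alpha_le 2
  have hαsq' : 1 / C1 ^ 2 ≤ ch.α ^ 2 := by
    rw [← one_div_pow]; exact pow_le_pow_left₀ (by positivity) hcf.alpha_ge 2
  have hβm : β / C1 ^ 2 ≤ β' := hβ' ▸ div_le_div_of_nonneg_left hβ.le (by positivity) hαsq
  have hβ'0 : 0 < β' := lt_of_lt_of_le (by positivity) hβm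
  have hβle' : β ≤ C1 ^ 2 * β' := by
    rw [div_le_iff₀ (by positivity)] at hβm; linarith
  have hβ'E : β' ≤ β0 := by
    calc β' ≤ β / (1 / C1 ^ 2) := hβ' ▸ div_le_div_of_nonneg_left hβ.le (by positivity) hαsq'
      _ = β * C1 ^ 2 := by field_simp
      _ ≤ β0 := (le_div_iff₀ (by positivity)).1 hβE
  -- small terms against beta'
  obtain ⟨hsd1, hsd2⟩ := small_gamma hd0 hβ hC1' hβm hγd
  -- the pair
  obtain ⟨cA1, cA2, cA3, bA1, bA2, bA3, dA1, dA2, dA3, dZ, heq⟩ :=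
    hP s hs l3 β hβ hβs γ hγ0 hγβ π π' πr G G' Gr e e' er hπ hπ' hπr (h40 _ hπb) (h40 _ hπb')
      (h40 _ hπrb) hsol hsol' hr (hγ ▸ hzr) (hγ ▸ hz'r) _ _ _ _ _ _ rfl rfl rfl rfl rfl rfl
  set A1 := pairA1 (islandMet s β π) (islandMet s β π') (zOf s G e) (zOf s G' e') with hA1
  set A2 := pairA2 (islandMet s β π) (islandMet s β π') (zOf s G e) (zOf s G' e') with hA2
  set A3 := pairA3 (islandMet s β π) (islandMet s β π') (zOf s G e) (zOf s G' e') with hA3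
  have hz : ∀ {π : Pert} {G : Pl → R3} {e : R3}, IslandSol k s β M a0 π G e →
      ContDiffOn ℝ k (zOf s G e) (disc 4) := fun h =>
    ((h.1.inner ℝ contDiffOn_const).div_const s).congr fun _ _ => rfl
  have h34 : disc 3 ⊆ disc 4 := disc_mono (by norm_num) (by norm_num)
  have h23 : disc 2 ⊆ disc 3 := disc_mono (by norm_num) (by norm_num)
  set w : Pl → ℝ := fun x => zOf s G e x - zOf s G' e' x with hw
  have hwc : ContDiffOn ℝ k w (disc 3) := ((hz hsol).sub (hz hsol')).mono h34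
  have hk5 : ((5 : ℕ) : ℕ∞ω) ≤ k := by exact_mod_cast (by omega : 5 ≤ k)
  have hZc : ContDiffOn ℝ 5 (fun y => zOf s G e y + zOf s G' e' y) (disc 3) :=
    (((hz hsol).add (hz hsol')).mono h34).of_le hk5
  obtain ⟨κ, c, kc, cd, ca, cb, ce, bκ, κlow, bd', ba', bb', be', hop⟩ :=
    hTr s hs l5 β hβ hβs γ hγ0 hγβ hCγ π' πr Gr er ch A1 A2 A3 _ hπ' hπr (h40 _ hπb') (h40 _ hπrb)
      hr hch _ _ rfl rfl cA1 cA2 cA3 hZc dA1 dA2 dA3 dZ
  obtain ⟨bAh, -, hAh⟩ := hA s hs l2 β hβ hβs πr Gr er ch hπr (h8 _ (h40 _ hπrb)) hr hch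
  obtain ⟨cL, P, Q, R, cLc, cLb, hPQR, hsrc⟩ :=
    hS s hs l4 β hβ hβs π π' G e A1 A2 A3 hπ hπ' (h8 _ (h40 _ hπb)) (h8 _ (h40 _ hπb')) hsol
      (cA1.of_le (by norm_num)) (cA2.of_le (by norm_num)) (cA3.of_le (by norm_num))
      (bA1.mono_order (by norm_num)) (bA2.mono_order (by norm_num)) (bA3.mono_order (by norm_num))
  have hC45 : C4 ≤ max C1 (max C4 C5) := (le_max_left _ _).trans (le_max_right _ _)
  have hC54 : C5 ≤ max C1 (max C4 C5) := (le_max_right _ _).trans (le_max_right _ _)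
  obtain ⟨c0, c1, c2, c3, cc0, cc1, cc2, cc3, bc0, bc1, bc2, bc3, c0low, hwave⟩ :=
    hWS s hs l6 Gr er ch κ cL P Q R
      (hch.mono hC1' hs.le (le_max_left _ _)) kc (bκ.mono_const hC54)
      (fun q hq => le_trans (one_div_le_one_div_of_le hC5' hC54) (κlow q hq))
      cLc (cLb.mono_const hC45) (fun x hx => (hsrc x hx).1)
      (fun i => ⟨(hPQR i).1, (hPQR i).2.1, (hPQR i).2.2.1, (hPQR i).2.2.2.1.mono_const hC45,
        (hPQR i).2.2.2.2.1.mono_const hC45, (hPQR i).2.2.2.2.2.mono_const hC45⟩)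
  -- the error of the perturbation
  obtain ⟨ε, hε⟩ : ∃ x : ℝ, x = t / (N : ℝ) ^ 31 := ⟨_, rfl⟩
  have hε0 : 0 ≤ ε := hε ▸ (by positivity)
  obtain ⟨τ, hτ⟩ : ∃ τ : Pert, τ = fun i x => t * ∑ j, (δ j : ℝ) * ch.tgt s Gr er N j i x := ⟨_, rfl⟩
  have hτc : ∀ i, ContDiff ℝ 31 (τ i) := fun i => by
    rw [hτ]
    exact contDiff_const.mul (ContDiff.sum fun j _ =>
      contDiff_const.mul (hT s hs l7 N hNt Gr er ch hch j i).1)
  obtain ⟨η, hη⟩ : ∃ η : Pert, η = fun i x => π i x - π' i x - τ i x := ⟨_, rfl⟩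
  have hηc : ∀ i, ContDiff ℝ 4 (η i) := fun i => by
    rw [hη]
    exact (((hπ i).1.of_le (WithTop.coe_le_coe.2 le_top)).sub ((hπ' i).1.of_le (WithTop.coe_le_coe.2 le_top))).sub
      ((hτc i).of_le (by norm_num))
  have hηb : ∀ i, BdOn univ 4 ε (η i) := fun i => by
    rw [hη, hτ, hε]; exact herr i
  have hsplit : (fun i x => π i x - π' i x) = fun i x => τ i x + η i x := by
    funext i x; rw [hη]; ring
  obtain ⟨F, hF⟩ : ∃ F : Pl → ℝ, F = fun x => cL x * lin2 η x + jet1 P Q R η x := ⟨_, rfl⟩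
  obtain ⟨hFc, hFb⟩ : ContDiffOn ℝ 2 F (disc 2) ∧ BdOn (disc 2) 2 (44 * C4 * ε) F := by
    rw [hF]
    exact bd_srcForm (isOpen_disc 2) hηc hηb ((cLc.of_le (by norm_num)).mono h23)
      (cLb.mono_order (by norm_num)) fun i => ⟨((hPQR i).1.of_le (by norm_num)).mono h23,
        ((hPQR i).2.1.of_le (by norm_num)).mono h23, ((hPQR i).2.2.1.of_le (by norm_num)).mono h23,
        (hPQR i).2.2.2.1.mono_order (by norm_num), (hPQR i).2.2.2.2.1.mono_order (by norm_num),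
        (hPQR i).2.2.2.2.2.mono_order (by norm_num)⟩
  -- discs
  have d95 : disc (9 / 5) ⊆ disc (5 / 2) := disc_mono (by norm_num) (by norm_num)
  have d85 : disc (8 / 5) ⊆ disc (9 / 5) := disc_mono (by norm_num) (by norm_num)
  have d32 : disc (3 / 2) ⊆ disc (8 / 5) := disc_mono (by norm_num) (by norm_num)
  have d20 : disc (8 / 5) ⊆ disc 2 := disc_mono (by norm_num) (by norm_num)
  have hm2 := hcf.maps2 hs25
  -- the function in the chart
  obtain ⟨W, hWdef⟩ : ∃ W : Pl → ℝ, W = fun q => w (ch.Lam q) := ⟨_, rfl⟩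
  have hLam5 : ContDiffOn ℝ 5 ch.Lam (disc (5 / 2)) := hcf.smooth.of_le (by norm_num)
  have hwc5 : ContDiffOn ℝ 5 w (disc 3) := hwc.of_le hk5
  have hWc : ContDiffOn ℝ 5 W (disc (9 / 5)) :=
    hWdef ▸ hwc5.comp (hLam5.mono d95) (hm2.mono_right h23)
  have hWb : BdOn (ring' (61 / 50) (287 / 200)) 5 (Bε * ε) W := by
    have hsub : oring (609 / 500) (718 / 500) ⊆ disc (9 / 5) :=
      oring_subset_disc.trans (disc_mono (by norm_num) (by norm_num))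
    have hsub2 : oring (609 / 500) (718 / 500) ⊆ disc (5 / 2) := hsub.trans d95
    have hb : ∀ x ∈ oring (609 / 500) (718 / 500), ∀ i ≤ 5,
        ‖iteratedFDeriv ℝ i w (ch.Lam x)‖ ≤ ε := fun x hx i hi =>
      hε ▸ hann i (hi.trans (by norm_num)) _ (hcf.mapsRing hs25 hx)
    have hU := isOpen_oring (609 / 500) (718 / 500)
    intro j hj q hq
    have hqU := ring_subset_oring hq
    have h1 : ‖iteratedFDeriv ℝ j W q‖ ≤ (j ! : ℝ) * ε * max 1 C1 ^ j := by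
      rw [hWdef, show (fun y => w (ch.Lam y)) = w ∘ ch.Lam from rfl,
        ← iteratedFDerivWithin_of_isOpen j hU hqU]
      refine norm_iteratedFDerivWithin_comp_le hwc5 (hLam5.mono hsub2) (mod_cast hj)
        (isOpen_disc 3).uniqueDiffOn hU.uniqueDiffOn
        ((hm2.mono_left hsub).mono_right h23) hqU ?_ ?_
      · intro i hi
        rw [iteratedFDerivWithin_of_isOpen i (isOpen_disc 3) (h23 (hm2 (hsub hqU)))]
        exact hb q hqU i (hi.trans hj)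
      · intro i h1 hi
        rw [iteratedFDerivWithin_of_isOpen i hU hqU]
        exact ((hcf.bd i (by omega) q (hsub2 hqU)).trans (le_max_right 1 C1)).trans
          (le_self_pow₀ (le_max_left _ _) (by omega))
    refine h1.trans ?_
    have h2 : (j ! : ℝ) ≤ (5 ! : ℝ) := by exact_mod_cast Nat.factorial_le hj
    have h3 : max 1 C1 ^ j ≤ max 1 C1 ^ 5 := pow_le_pow_right₀ (le_max_left _ _) hj
    calc (j ! : ℝ) * ε * max 1 C1 ^ j ≤ (5 ! : ℝ) * ε * max 1 C1 ^ 5 := by gcongr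
      _ = BW * ε := by rw [hBW]; ring
      _ ≤ Bε * ε := mul_le_mul_of_nonneg_right (hBε ▸ le_max_left _ _) hε0
  -- the right side in the chart
  obtain ⟨R0, hR0⟩ : ∃ R : Pl → ℝ, R = fun q => F (ch.Lam q) / κ q := ⟨_, rfl⟩
  obtain ⟨hR0c, hR0b⟩ := bd_rhs (isOpen_disc (8 / 5)) (isOpen_disc 2) (B := 1 / C5)
    ((hcf.smooth.of_le (by norm_num)).mono (d85.trans d95))
    ((hcf.bd.mono_order (by norm_num)).mono_set (d85.trans d95)) (hm2.mono_left d85) hFc hFb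
    ((kc.of_le (by norm_num)).mono d85) ((bκ.mono_order (by norm_num)).mono_set d85)
    (by positivity) fun q hq => κlow q (d85 hq)
  rw [← hR0] at hR0c hR0b
  have hR0b' : BdOn (disc (8 / 5)) 2 (Bε * ε) R0 := hR0b.mono_const (by
    rw [show 2 ^ 2 * (2 ! * (44 * C4 * ε) * max 1 C1 ^ 2) * invC 2 (1 / C5) C5 = BR * ε by
      rw [hBR]; ring]
    exact mul_le_mul_of_nonneg_right (hBε ▸ le_max_right _ _) hε0)
  obtain ⟨S, hSdef⟩ : ∃ S : Pl → ℝ, S = source N t c0 c1 c2 c3 (wave N δ) := ⟨_, rfl⟩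
  have hWok : WaveOK N Cw (wave N δ) := hW N hNw δ hδ hδ1
  have hopW : ∀ q ∈ disc (8 / 5), c.op W q = S q + R0 q := fun q hq => by
    have hq95 := d85 hq
    have hV := hop q hq95 W
      ((hWc.contDiffAt ((isOpen_disc _).mem_nhds hq95)).of_le (by norm_num))
    have hnear : (fun x => W (ch.Xi s Gr er x)) =ᶠ[𝓝 (ch.Lam q)] w :=
      eventually_of_mem ((isOpen_disc 2).mem_nhds (hm2 hq95)) fun x hx => by
        simp only [hWdef, hcf.inv_left x hx]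
    have hx := hm2 hq95
    rw [lop_congr _ _ _ _ _ hnear, heq _ (h23 hx), (hsrc _ hx).2, hsplit,
      lin2_add (fun i => (hτc i).of_le (by norm_num)) (fun i => (hηc i).of_le (by norm_num)),
      jet1_add _ _ _ (fun i => (hτc i).of_le (by norm_num))
        (fun i => (hηc i).of_le (by norm_num))] at hV
    have hκ : κ q ≠ 0 := (lt_of_lt_of_le (by positivity) (κlow q hq95)).ne'
    rw [hSdef, ← hwave N t δ hN11 q hq, hR0, hF, hτ.symm]
    field_simp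
    linarith
  have hSzero : ∀ q, 1 / 2 ^ 2 ≤ nsq q → S q = 0 := fun q hq =>
    hSdef ▸ source_eq_zero (by omega) hWok t c0 c1 c2 c3 hq
  -- coefficient bounds
  have h92 : disc (9 / 5) ⊆ disc 2 := disc_mono (by norm_num) (by norm_num)
  have bAh' : BdOn (disc (9 / 5)) 3 (C2 * β) (ch.aHat s Gr er) := bAh.mono_set h92
  have cAh : ContDiffOn ℝ 3 (ch.aHat s Gr er) (disc (9 / 5)) :=
    (contDiffOn_aHat hch).mono d95
  have bca : BdOn (disc (9 / 5)) 3 (C2 * β + C5 * γ) c.a :=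
    (bAh'.add (isOpen_disc _) cAh (ca.sub cAh) ba').congr (isOpen_disc _) fun q _ => by ring
  have cb1 : ContDiffOn ℝ (2 : ℕ) (d1 (ch.aHat s Gr er)) (disc (9 / 5)) :=
    contDiffOn_d1 (isOpen_disc _) cAh
  have bcb : BdOn (disc (9 / 5)) 2 (C2 * β + C5 * γ) c.b :=
    ((bAh'.d1 (isOpen_disc _) cAh).add (isOpen_disc _) cb1
      ((cb.of_le (by norm_num)).sub cb1) bb').congr (isOpen_disc _) fun q _ => by ring
  have hβ1 : β ≤ 1 := hβs.trans (pow_le_one₀ hs.le hs_one)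
  have hC2β : C2 * β ≤ C2 := mul_le_of_le_one_right hC2'.le hβ1
  obtain ⟨v, E, hvc, hvs, hEc, hEb, hv⟩ := hLoc (Bε * ε) c W S R0 (by positivity)
    (cd.mono d85) (ca.mono d85) (cb.mono d85) (ce.mono d85)
    (bd_mono bd' d85 (by norm_num) (by linarith)) (bd_mono bca d85 (by norm_num) (by linarith))
    (bd_mono bcb d85 le_rfl (by linarith)) (bd_mono be' d85 (by norm_num) (by linarith))
    (hWc.mono d85) hR0c hSzero hopW hWb hR0b'
  -- globalisation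
  obtain ⟨gd, hgd, egd⟩ := hX 3 c.d (cd.mono d85)
  obtain ⟨ga, hga, ega⟩ := hX 3 c.a (ca.mono d85)
  obtain ⟨gb, hgb, egb⟩ := hX 3 c.b (cb.mono d85)
  obtain ⟨ge, hge, ege⟩ := hX 3 c.e (ce.mono d85)
  obtain ⟨g0, hg0, eg0⟩ := hX 2 c0 cc0
  obtain ⟨g1, hg1, eg1⟩ := hX 2 c1 cc1
  obtain ⟨g2, hg2, eg2⟩ := hX 2 c2 cc2
  obtain ⟨g3, hg3, eg3⟩ := hX 2 c3 cc3
  have o := isOpen_disc (3 / 2)
  have d39 : disc (3 / 2) ⊆ disc (9 / 5) := d32.trans d85
  have hCEpos : 0 ≤ CE := by linarith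
  have hγβ' : γ ≤ C1 ^ 2 * β' := (hγβ.trans (pow_le_of_le_one hβ.le hβ1 two_ne_zero)).trans hβle'
  have hup : C2 * β + C5 * γ ≤ CE * β' := by
    have e1 : C2 * β ≤ C2 * (C1 ^ 2 * β') := mul_le_mul_of_nonneg_left hβle' hC2'.le
    have e2 : C5 * γ ≤ C5 * (C1 ^ 2 * β') := mul_le_mul_of_nonneg_left hγβ' hC5'.le
    have e3 : ((C2 + C5) * C1 ^ 2 + (C2 + 2 * C5) * C1 ^ 2) * β' ≤ CE * β' :=
      mul_le_mul_of_nonneg_right hCEa hβ'0.le
    have e4 : 0 ≤ (C2 + 2 * C5) * C1 ^ 2 * β' := by positivity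
    linarith
  have hok : Coef.OK ⟨gd, ga, gb, ge⟩ β' d0 (CE / (N : ℝ) ^ 32) CE := by
    refine ⟨hgd, hga, hgb, hge, ?_, ?_, ?_, ?_, fun q hq => ?_⟩
    · refine (bd_mono bd' d39 le_rfl ?_).congr o egd.symm
      rw [hγ, mul_one_div]; gcongr
    · exact (bd_mono bca d39 le_rfl hup).congr o ega.symm
    · exact (bd_mono bcb d39 le_rfl hup).congr o egb.symm
    · refine (bd_mono be' d39 (by norm_num) (le_trans ?_ hup)).congr o ege.symm
      nlinarith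
    · obtain ⟨-, h1, h2, h3⟩ := hAh q (h92 (d39 hq))
      rw [← hβ'] at h1 h2 h3
      have cda : ContDiffOn ℝ (3 : ℕ) (fun q => c.a q - ch.aHat s Gr er q) (disc (9 / 5)) :=
        ca.sub cAh
      have a1 := bd_abs ba' (d39 hq)
      have a2 := bd_abs (ba'.d1 (isOpen_disc _) cda) (d39 hq)
      have a3 := bd_abs (ba'.d2 (isOpen_disc _) cda) (d39 hq)
      have hA1 : DifferentiableAt ℝ (ch.aHat s Gr er) q :=
        diffAt_of_open (isOpen_disc _) cAh (by norm_num) (d39 hq)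
      have hA2 : DifferentiableAt ℝ c.a q :=
        diffAt_of_open (isOpen_disc _) ca (by norm_num) (d39 hq)
      rw [d1_sub hA2 hA1] at a2
      rw [d2_sub hA2 hA1] at a3
      have a4 := bd_abs bb' (d39 hq)
      have a5 := bd_abs be' (d39 hq)
      show |ga q - _| ≤ _ ∧ |d2 ga q - _| ≤ _ ∧ |d1 ga q - _| ≤ _ ∧ |gb q - d1 ga q| ≤ _ ∧ |ge q| ≤ _
      rw [d1_congr o ega hq, d2_congr o ega hq, ega hq, egb hq, ege hq]
      have hsd' : C2 * s * β' ≤ d0 / 2 * β' := mul_le_mul_of_nonneg_right hsd hβ'0.le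
      have hw0 : 0 ≤ |q.1| + Real.sqrt β' := by positivity
      have hsd'' : C2 * s * β' * (|q.1| + Real.sqrt β') ≤ d0 / 2 * β' * (|q.1| + Real.sqrt β') :=
        mul_le_mul_of_nonneg_right hsd' hw0
      have hsq : d0 * (β' * Real.sqrt β') ≤ d0 * β' * (|q.1| + Real.sqrt β') := by
        have : 0 ≤ d0 * β' * |q.1| := by positivity
        linarith
      have hp : 0 ≤ d0 * β' := by positivity
      have hp2 : 0 ≤ d0 * β' * (|q.1| + Real.sqrt β') := by positivity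
      have hCg : 0 ≤ C5 * γ := by positivity
      rw [abs_le] at h1 h2 h3 a1 a2 a3 a4 a5
      refine ⟨?_, ?_, ?_, ?_, ?_⟩ <;> rw [abs_le] <;> constructor <;> linarith
  refine hE N hNe β' hβm hβ'E ⟨gd, ga, gb, ge⟩ v E g0 g1 g2 g3 (wave N δ) t ht hok
    (waveOK_mono hWok ?_ hCEw (by omega)) hvc hvs hEc ?_ hg0 hg1 hg2 hg3
    ((bd_mono bc0 d32 le_rfl hCE6).congr o eg0.symm) ((bd_mono bc1 d32 le_rfl hCE6).congr o eg1.symm)
    ((bd_mono bc2 d32 le_rfl hCE6).congr o eg2.symm) ((bd_mono bc3 d32 le_rfl hCE6).congr o eg3.symm)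
    (fun q hq => ?_) (fun q hq => ?_)
  · exact_mod_cast hCw
  · refine hEb.mono_const ?_
    have e : C8 * (Bε * ε) ≤ CE * ε := by
      rw [← mul_assoc]; exact mul_le_mul_of_nonneg_right hCEε hε0
    refine e.trans ?_
    rw [hε, ← mul_div_assoc]
    gcongr <;> norm_num
  · rw [eg0 hq]
    exact le_trans (one_div_le_one_div_of_le (by linarith) hCE6) (c0low q (d32 hq))
  · rw [op_congr (c' := c) (egd hq) (ega hq) (egb hq) (ege hq) v, hv q hq, hSdef]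
    simp only [source, eg0 hq, eg1 hq, eg2 hq, eg3 hq]

end Vale.Agent.P229
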