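import Vale.Agent.P229.Core.ChartAux

/-!
# P229, Core: a good chart of a representative (`ChartSpec`)

`Φ` inverts the projection on the orthonormal frame `dG₀ v1, dG₀ v2`, chosen so that the Hessian of
the graph function `u = z ∘ Φ` is diagonal at `0`; `u` is its two-jet up to `O(s)`, and `Θ` inverts
the Legendre map `(u_X / α, Y)`, which is therefore `O(s)` close to the identity.
-/

open scoped ContDiff RealInnerProductSpace Nat
open Set Filter Topology

namespace Vale.Agent.P229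

/-- The inverse `Φ` of the projection is within `O(s)` of the linear map `frameP v1 v2`. -/
theorem exists_Phi {k : ℕ} (hk : 40 ≤ k) {M : ℝ} (hM : 0 ≤ M) :
    ∃ C s0 : ℝ, 1 ≤ C ∧ 0 < s0 ∧ ∀ (s β a0 : ℝ) (π : Pert) (G : Pl → R3) (e : R3) (v1 v2 : Pl),
      0 < s → s ≤ s0 → IslandSol k s β M a0 π G e → Frame s a0 G e (zOf s G e) v1 v2 →
      ∃ Φ : Pl → Pl, ContDiffOn ℝ (36 : ℕ) Φ (disc 3) ∧ BdOn (disc 3) 36 C Φ ∧
        BdOn (disc 3) 36 (C * s) (fun X => Φ X - frameP v1 v2 X) ∧ Φ 0 = 0 ∧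
        HasFDerivAt Φ (frameP v1 v2) 0 ∧
        (∀ X ∈ disc 3, Φ X ∈ disc (7 / 2) ∧ frameA G v1 v2 (G (Φ X)) = X) ∧
        (∀ x ∈ disc (29 / 10),
          frameA G v1 v2 (G x) ∈ disc 3 ∧ Φ (frameA G v1 v2 (G x)) = x) ∧
        (∀ x ∈ disc 2, frameA G v1 v2 (G x) ∈ disc (11 / 5)) ∧
        ContDiffOn ℝ (36 : ℕ) (fun x => frameA G v1 v2 (G x)) (disc 4) ∧
        BdOn (disc 4) 36 C (fun x => frameA G v1 v2 (G x)) := by
  obtain ⟨Ci, εi, hCi, hεi, hinv⟩ := exists_inverse_small 36 4 (39 / 10) (32 * M) (by norm_num)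
    (by norm_num) (by norm_num) (by positivity)
  refine ⟨max (max 1 (16 * M + 8)) (((36 : ℕ) ! : ℝ) * Ci * max 1 6 ^ 36),
    min (min εi (1 / 100)) (1 / (100 * (32 * M + 1))), le_max_of_le_left (le_max_left _ _),
    lt_min (lt_min hεi (by norm_num)) (by positivity), ?_⟩
  intro s β a0 π G e v1 v2 hs hs0 hsol hfr
  obtain ⟨hG, -, hG0, hd, -, -, -, -⟩ := hsol
  have hsi : s ≤ εi := hs0.trans ((min_le_left _ _).trans (min_le_left _ _))
  have hs1 : s ≤ 1 / 100 := hs0.trans ((min_le_left _ _).trans (min_le_right _ _))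
  have hsK : 32 * M * s ≤ 1 / 100 := by
    have h := (le_div_iff₀ (by positivity)).1 (hs0.trans (min_le_right _ _))
    nlinarith
  set P := frameP v1 v2 with hP
  set A := frameA G v1 v2 with hA
  set T : Pl →L[ℝ] Pl := A.comp (fderiv ℝ G 0) with hT
  have hPT : ∀ w, P (T w) = w := hfr.left_inv
  have hTP : ∀ v, T (P v) = v := hfr.right_inv
  have hU := isOpen_disc 4
  have h04 := zero_mem_disc (by norm_num : (0 : ℝ) < 4)
  have h03 := zero_mem_disc (by norm_num : (0 : ℝ) < 3)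
  have hG36 : ContDiffOn ℝ (36 : ℕ) G (disc 4) :=
    hG.of_le (by exact_mod_cast (by omega : 36 ≤ k))
  have hAG : ContDiffOn ℝ (36 : ℕ) (fun x => A (G x)) (disc 4) := A.contDiff.comp_contDiffOn hG36
  -- the projection minus its linear part
  set h : Pl → Pl := fun x => A (G x) - T x with hh
  have hh36 : ContDiffOn ℝ (36 : ℕ) h (disc 4) := hAG.sub T.contDiff.contDiffOn
  have hh' : HasFDerivAt h (0 : Pl →L[ℝ] Pl) 0 := by
    have h1 := (diffAt_of_open hU hG36 (by norm_num) h04).hasFDerivAt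
    have h2 := (A.hasFDerivAt.comp 0 h1).sub (T.hasFDerivAt (x := 0))
    rw [hT, sub_self] at h2
    exact h2
  have hhb : BdOn (disc 4) 36 (16 * (M * s)) h := by
    have := bdOn_of_jet (ε := M * s) (by norm_num : (1 : ℝ) ≤ 4) (by norm_num) hh36
      (by simp [hh, hG0]) hh'.fderiv (fun j hj hj' x hx => by
        rw [hh, fun_iteratedFDeriv_sub_apply (contDiffAt_of_open hU hAG hx (mod_cast hj'))
          T.contDiff.contDiffAt, iteratedFDeriv_clm_two T hj, sub_zero]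
        refine (A.norm_iteratedFDeriv_comp_left (f := G)
          (contDiffAt_of_open hU hG36 hx le_rfl) (mod_cast hj')).trans ?_
        refine (mul_le_of_le_one_left (norm_nonneg _) hfr.norm_A).trans ?_
        refine (hd j hj (by omega) x hx).trans (mul_le_mul_of_nonneg_left ?_ hM)
        calc s ^ (j - 1) ≤ s ^ 1 := pow_le_pow_of_le_one hs.le (by linarith) (by omega)
          _ = s := pow_one s)
    norm_num at this ⊢
    exact this
  set g : Pl → Pl := fun x => P (h x) with hg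
  have hg36 : ContDiffOn ℝ (36 : ℕ) g (disc 4) := P.contDiff.comp_contDiffOn hh36
  have hgb : BdOn (disc 4) 36 (32 * M * s) g :=
    (hhb.comp_clm hU P hh36).mono_const (by
      calc ‖P‖ * (16 * (M * s)) ≤ 2 * (16 * (M * s)) :=
            mul_le_mul_of_nonneg_right hfr.norm_P (by positivity)
        _ = _ := by ring)
  have hg' : HasFDerivAt g (0 : Pl →L[ℝ] Pl) 0 := by
    have := P.hasFDerivAt.comp 0 hh'
    rw [ContinuousLinearMap.comp_zero] at this
    exact this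
  have hPA : ∀ x, P (A (G x)) = x + g x := fun x => by
    simp only [hg, hh, map_sub, hPT, add_sub_cancel]
  obtain ⟨Q, hQs, hQb, hQd, hQ0, hQm, hQi⟩ :=
    hinv g s hs.le hsi hg36 (by simp [hg, hh, hG0]) hgb
  have hlow : ∀ v r, P v ∈ disc r → (1 + 2 * s) * r ^ 2 ≥ nsq v := fun v r hv =>
    (hfr.low v).trans (mul_le_mul_of_nonneg_left (le_of_lt hv) (by linarith))
  have hPd : ∀ X ∈ disc 3, P X ∈ disc (33 / 10) := fun X hX => by
    have h1 := hfr.high X
    have h2 : nsq X < 3 ^ 2 := hX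
    have h3 : 0 ≤ nsq (P X) := add_nonneg (sq_nonneg _) (sq_nonneg _)
    show nsq (P X) < (33 / 10) ^ 2
    nlinarith
  have hPd' : MapsTo P (disc 3) (disc (39 / 10)) := fun X hX =>
    disc_mono (by norm_num) (by norm_num) (hPd X hX)
  have hU3 := isOpen_disc 3
  have hU39 := isOpen_disc (39 / 10)
  have hPb : BdOn (disc 3) 36 6 P := (bdOn_clm_disc (by norm_num) 36 P).mono_const (by
    calc ‖P‖ * max (3 : ℝ) 1 ≤ 2 * max (3 : ℝ) 1 :=
          mul_le_mul_of_nonneg_right hfr.norm_P (by norm_num)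
      _ = 6 := by norm_num)
  set Φ : Pl → Pl := fun X => Q (P X) with hΦ
  have hΦs : ContDiffOn ℝ (36 : ℕ) Φ (disc 3) := hQs.comp P.contDiff.contDiffOn hPd'
  have hΦeq : ∀ X ∈ disc 3, Φ X ∈ disc 4 ∧ Φ X + g (Φ X) = P X := fun X hX =>
    hQm _ (hPd' hX)
  have hΦ0 : Φ 0 = 0 := by simp [hΦ, hQ0]
  have hcomb : 1 ≤ max (max 1 (16 * M + 8)) (((36 : ℕ) ! : ℝ) * Ci * max 1 6 ^ 36) :=
    le_max_of_le_left (le_max_left _ _)
  refine ⟨Φ, hΦs, (hQb.comp hU3 hU39 hPd' hQs P.contDiff.contDiffOn hPb).mono_const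
    (le_max_right _ _), ?_, hΦ0, ?_, ?_, ?_, ?_, hAG, ?_⟩
  · refine (hQd.comp hU3 hU39 hPd' (hQs.sub contDiffOn_id) P.contDiff.contDiffOn hPb).mono_const ?_
    calc ((36 : ℕ) ! : ℝ) * (Ci * s) * max 1 6 ^ 36
        = ((36 : ℕ) ! : ℝ) * Ci * max 1 6 ^ 36 * s := by ring
      _ ≤ _ := mul_le_mul_of_nonneg_right (le_max_right _ _) hs.le
  · have h1 : HasFDerivAt (fun X => g (Φ X)) (0 : Pl →L[ℝ] Pl) 0 := by
      have hd0 := (diffAt_of_open hU3 hΦs (by norm_num) h03).hasFDerivAt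
      have := HasFDerivAt.comp (g := g) 0 (hΦ0.symm ▸ hg' :) hd0
      rw [ContinuousLinearMap.zero_comp] at this
      exact this
    have h2 := (P.hasFDerivAt (x := 0)).sub h1
    rw [sub_zero] at h2
    refine h2.congr_of_eventuallyEq (eventually_of_mem (hU3.mem_nhds h03) fun X hX => ?_)
    exact eq_sub_of_add_eq (hΦeq X hX).2
  · refine fun X hX => ⟨mem_disc_of_near (a := 33 / 10) (δ := 1 / 100) (by norm_num) (by norm_num)
      (hPd X hX) ?_, ?_⟩
    · rw [← (hΦeq X hX).2, sub_add_cancel_left, norm_neg]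
      exact (hgb.norm_le (hΦeq X hX).1).trans hsK
    · have := congrArg T ((hPA (Φ X)).trans (hΦeq X hX).2)
      rwa [hTP, hTP] at this
  · intro x hx
    have hx4 : x ∈ disc 4 := disc_mono (by norm_num) (by norm_num) hx
    have hmem : P (A (G x)) ∈ disc (292 / 100) := by
      rw [hPA]
      exact mem_disc_of_near (a := 29 / 10) (δ := 1 / 100) (by norm_num) (by norm_num) hx
        (by simpa using (hgb.norm_le hx4).trans hsK)
    refine ⟨?_, ?_⟩
    · show nsq _ < (3 : ℝ) ^ 2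
      nlinarith [hlow _ _ hmem]
    · show Q (P (A (G x))) = x
      rw [hPA]
      exact hQi x hx4
  · intro x hx
    have hx4 : x ∈ disc 4 := disc_mono (by norm_num) (by norm_num) hx
    have hmem : P (A (G x)) ∈ disc (202 / 100) := by
      rw [hPA]
      exact mem_disc_of_near (a := 2) (δ := 1 / 100) (by norm_num) (by norm_num) hx
        (by simpa using (hgb.norm_le hx4).trans hsK)
    show nsq _ < (11 / 5 : ℝ) ^ 2
    nlinarith [hlow _ _ hmem]
  · have hTn : ‖T‖ ≤ 2 := ContinuousLinearMap.opNorm_le_bound _ zero_le_two fun w => by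
      have h1 := hfr.low (T w)
      rw [show frameP v1 v2 (T w) = w from hPT w] at h1
      refine (pow_le_pow_iff_left₀ (norm_nonneg _) (by positivity) two_ne_zero).1 ?_
      nlinarith [norm_sq_le_nsq (T w), nsq_le_two_norm_sq w, sq_nonneg ‖w‖,
        mul_le_mul_of_nonneg_left (nsq_le_two_norm_sq w) hs.le,
        mul_le_mul_of_nonneg_right hs1 (sq_nonneg ‖w‖)]
    refine (((bdOn_clm_disc (by norm_num) 36 T).add hU T.contDiff.contDiffOn hh36 hhb).congr hU
      fun x _ => ?_).mono_const (le_max_of_le_left (le_max_of_le_right ?_))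
    · show T x + (A (G x) - T x) = A (G x)
      abel
    · have e1 : ‖T‖ * max (4 : ℝ) 1 ≤ 2 * max (4 : ℝ) 1 :=
        mul_le_mul_of_nonneg_right hTn (by norm_num)
      have e2 : M * s ≤ M := mul_le_of_le_one_right hM (by linarith)
      norm_num at e1 ⊢
      linarith

/-- The two-jet of the graph function. -/
noncomputable def qForm (α δ : ℝ) (X : Pl) : ℝ := (α * X.1 ^ 2 + δ * X.2 ^ 2) / 2

theorem contDiff_qForm (α δ : ℝ) {n : ℕ∞ω} : ContDiff ℝ n (qForm α δ) :=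
  ((contDiff_const.mul (contDiff_fst.pow 2)).add
    (contDiff_const.mul (contDiff_snd.pow 2))).div_const 2

theorem d_qForm (α δ : ℝ) (X : Pl) : d1 (qForm α δ) X = α * X.1 ∧ d2 (qForm α δ) X = δ * X.2 := by
  have h := ((((hasFDerivAt_fst (𝕜 := ℝ) (p := X)).pow 2).const_mul α).add
    (((hasFDerivAt_snd (𝕜 := ℝ) (p := X)).pow 2).const_mul δ)).mul_const (1 / 2)
  have he : qForm α δ = fun Y => (α * Y.1 ^ 2 + δ * Y.2 ^ 2) * (1 / 2) :=
    funext fun Y => by rw [qForm]; ring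
  have hq := (h.congr_of_eventuallyEq (f₁ := qForm α δ)
    (Filter.Eventually.of_forall fun Y => congrFun he Y)).fderiv
  constructor <;> simp [d1, d2, hq] <;> ring

/-- Second derivatives of the remainder of the two-jet. -/
theorem rem_deriv {α δ C : ℝ} {u : Pl → ℝ} {k : ℕ} (hk : 1 ≤ k)
    (hu : ContDiffOn ℝ (k + 1 : ℕ) u (disc 3))
    (hr : BdOn (disc 3) (k + 1) C (fun X => u X - qForm α δ X)) :
    BdOn (disc 3) k C (fun X => d1 u X - α * X.1) ∧
      ∀ X ∈ disc 3, |d1 (d1 u) X - α| ≤ C ∧ |d1 (d2 u) X| ≤ C := by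
  have hU := isOpen_disc 3
  have hrs : ContDiffOn ℝ (k + 1 : ℕ) (fun X => u X - qForm α δ X) (disc 3) :=
    hu.sub (contDiff_qForm α δ).contDiffOn
  have hud : ∀ X ∈ disc 3, DifferentiableAt ℝ u X := fun X hX =>
    diffAt_of_open hU hu (mod_cast (by omega : 1 ≤ k + 1)) hX
  have hqd : ∀ X, DifferentiableAt ℝ (qForm α δ) X := fun X =>
    (contDiff_qForm α δ (n := 1)).differentiable one_ne_zero X
  have h1 : BdOn (disc 3) k C (fun X => d1 u X - α * X.1) :=
    (hr.d1 hU hrs).congr hU fun X hX => by rw [d1_sub (hud X hX) (hqd X), (d_qForm α δ X).1]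
  have h2 : BdOn (disc 3) k C (fun X => d2 u X - δ * X.2) :=
    (hr.d2 hU hrs).congr hU fun X hX => by rw [d2_sub (hud X hX) (hqd X), (d_qForm α δ X).2]
  refine ⟨h1, fun X hX => ?_⟩
  have hd1 := diffAt_of_open hU (contDiffOn_d1 hU hu) (mod_cast hk) hX
  have hd2 := diffAt_of_open hU (contDiffOn_d2 hU hu) (mod_cast hk) hX
  have key : ∀ (f l : Pl → ℝ) (c : ℝ), DifferentiableAt ℝ f X → DifferentiableAt ℝ l X →
      d1 l X = c → BdOn (disc 3) k C (fun Y => f Y - l Y) → |d1 f X - c| ≤ C := by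
    intro f l c hf hl hc hb
    rw [← hc, ← d1_sub hf hl, ← Real.norm_eq_abs]
    refine ((fderiv ℝ (fun Y => f Y - l Y) X).le_opNorm (1, 0)).trans ?_
    rw [norm_e1, mul_one]
    exact hb.norm_fderiv_le hk hX
  refine ⟨key _ _ _ hd1 (differentiableAt_fst.const_mul α) ?_ h1, ?_⟩
  · simp [d1, ((hasFDerivAt_fst (𝕜 := ℝ) (p := X)).const_mul α).fderiv]
  · simpa using key _ _ 0 hd2 (differentiableAt_snd.const_mul δ)
      (by simp [d1, ((hasFDerivAt_snd (𝕜 := ℝ) (p := X)).const_mul δ).fderiv]) h2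

/-- The graph function is its two-jet up to `O(s)`. -/
theorem exists_u {k : ℕ} (hk : 40 ≤ k) {M : ℝ} (hM : 0 ≤ M) (CΦ : ℝ) :
    ∃ C : ℝ, 1 ≤ C ∧ ∀ (s β a0 : ℝ) (π : Pert) (G : Pl → R3) (e : R3) (v1 v2 : Pl) (Φ : Pl → Pl),
      0 < s → s ≤ 1 → IslandSol k s β M a0 π G e → Frame s a0 G e (zOf s G e) v1 v2 →
      ContDiffOn ℝ (36 : ℕ) Φ (disc 3) → BdOn (disc 3) 36 CΦ Φ →
      BdOn (disc 3) 36 (CΦ * s) (fun X => Φ X - frameP v1 v2 X) → Φ 0 = 0 →
      HasFDerivAt Φ (frameP v1 v2) 0 → MapsTo Φ (disc 3) (disc 4) →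
      ∀ (u : Pl → ℝ) (α δ : ℝ), (u = fun X => zOf s G e (Φ X)) →
        α = fderiv ℝ (fderiv ℝ (zOf s G e)) 0 v1 v1 →
        δ = fderiv ℝ (fderiv ℝ (zOf s G e)) 0 v2 v2 →
        ContDiffOn ℝ (36 : ℕ) u (disc 3) ∧ BdOn (disc 3) 36 C u ∧
        BdOn (disc 3) 36 (C * s) (fun X => u X - qForm α δ X) ∧
        d1 u 0 = 0 ∧ d2 u 0 = 0 ∧ d1 (d1 u) 0 = α ∧ d1 (d2 u) 0 = 0 ∧ α ≤ 4 * M := by
  let f : ℝ := ((36 : ℕ) ! : ℝ)
  refine ⟨max (max 1 (f * (16 * M) * max 1 CΦ ^ 36))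
    ((M + 1) / 2 * (2 ^ 36 * CΦ * (CΦ + 6)) + f * (64 * M) * max 1 CΦ ^ 36),
    le_max_of_le_left (le_max_left _ _), ?_⟩
  intro s β a0 π G e v1 v2 Φ hs hs1 hsol hfr hΦs hΦb hΦd hΦ0 hΦ' hmaps u α δ hu hα hδ
  obtain ⟨hsym, hHn, -, -⟩ := hess_zero (by omega) hs hsol
  have hz := (zOf_contDiffOn hsol).of_le
    (show ((37 : ℕ) : ℕ∞ω) ≤ k by exact_mod_cast (by omega : 37 ≤ k))
  set z := zOf s G e with hzdef
  set H := fderiv ℝ (fderiv ℝ z) 0 with hHdef
  set P := frameP v1 v2 with hP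
  have hU4 := isOpen_disc 4
  have hU3 := isOpen_disc 3
  have h04 := zero_mem_disc (by norm_num : (0 : ℝ) < 4)
  have h03 := zero_mem_disc (by norm_num : (0 : ℝ) < 3)
  have hDzs : ContDiffOn ℝ (36 : ℕ) (fderiv ℝ z) (disc 4) := ContDiffOn.fderivPl hU4 hz
  have hzb : ∀ j, 2 ≤ j → j ≤ 37 → ∀ x ∈ disc 4, ‖iteratedFDeriv ℝ j z x‖ ≤ M * s ^ (j - 2) :=
    fun j hj hj' x hx => zOf_deriv_bound hs hsol hj (by omega) hx
  have hz0 : z 0 = 0 := by simp [hzdef, zOf, hsol.2.2.1]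
  have hGd : DifferentiableAt ℝ G 0 :=
    diffAt_of_open hU4 hsol.1 (mod_cast (by omega : 1 ≤ k)) h04
  have hz' : fderiv ℝ z 0 = 0 := by
    ext <;>
    · have h1 := ((hGd.hasFDerivAt.inner ℝ (hasFDerivAt_const e (0 : Pl))).mul_const s⁻¹)
      rw [hzdef, show zOf s G e = fun x => ⟪G x, e⟫ * s⁻¹ from funext fun x => div_eq_mul_inv _ _,
        h1.fderiv]
      simp [hfr.perp]
  -- bounds on `z` and on its remainder
  have hzB : BdOn (disc 4) 37 (16 * M) z := by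
    have := bdOn_of_jet (ε := M) (by norm_num : (1 : ℝ) ≤ 4) (by norm_num) hz hz0 hz'
      fun j hj hj' x hx =>
        (hzb j hj hj' x hx).trans (mul_le_of_le_one_right hM (pow_le_one₀ hs.le hs1))
    norm_num at this ⊢
    exact this
  set h : Pl → (Pl →L[ℝ] ℝ) := fun y => fderiv ℝ z y - H y with hh
  have hhs : ContDiffOn ℝ (36 : ℕ) h (disc 4) := hDzs.sub H.contDiff.contDiffOn
  have hhd : fderiv ℝ h 0 = 0 := by
    rw [hh, fderiv_fun_sub (diffAt_of_open hU4 hDzs (by norm_num) h04) H.differentiableAt,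
      H.fderiv, ← hHdef, sub_self]
  have hhb : BdOn (disc 4) 36 (16 * (M * s)) h := by
    have := bdOn_of_jet (ε := M * s) (by norm_num : (1 : ℝ) ≤ 4) (by norm_num) hhs
      (by simp [hh, hz']) hhd (fun j hj hj' x hx => by
        rw [hh, fun_iteratedFDeriv_sub_apply (contDiffAt_of_open hU4 hDzs hx (mod_cast hj'))
          H.contDiff.contDiffAt, iteratedFDeriv_clm_two H hj, sub_zero, norm_iteratedFDeriv_fderiv]
        refine (hzb (j + 1) (by omega) (by omega) x hx).trans (mul_le_mul_of_nonneg_left ?_ hM)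
        calc s ^ (j + 1 - 2) ≤ s ^ 1 := pow_le_pow_of_le_one hs.le hs1 (by omega)
          _ = s := pow_one s)
    norm_num at this ⊢
    exact this
  set ρ : Pl → ℝ := fun y => z y - H y y / 2 with hρ
  have hρ' : ∀ y ∈ disc 4, HasFDerivAt ρ (h y) y := by
    intro y hy
    have h1 := H.hasFDerivAt_of_bilinear (hasFDerivAt_id y) (hasFDerivAt_id y)
    have h2 := ((diffAt_of_open hU4 hz (by norm_num) hy).hasFDerivAt).sub (h1.mul_const (1 / 2))
    refine (h2.congr_of_eventuallyEq (f₁ := ρ) (Filter.Eventually.of_forall fun w => ?_)).congr_fderiv ?_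
    · show z w - H w w / 2 = z w - H w w * (1 / 2)
      ring
    · ext <;>
      · simp [hh, hsym y]
        ring
  have hρs : ContDiffOn ℝ (36 + 1 : ℕ) ρ (disc 4) :=
    hz.sub (((H.contDiff.clm_apply contDiff_id).div_const 2).contDiffOn)
  have hρ0 : ∀ x ∈ disc 4, ‖ρ x‖ ≤ 64 * (M * s) := by
    intro x hx
    have h2 := (convex_disc 4).norm_image_sub_le_of_norm_fderiv_le (f := ρ) (C := 16 * (M * s))
      (fun y hy => (hρ' y hy).differentiableAt)
      (fun y hy => by rw [(hρ' y hy).fderiv]; exact hhb.norm_le hy) h04 hx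
    rw [show ρ 0 = 0 by simp [hρ, hz0], sub_zero, sub_zero] at h2
    refine h2.trans ?_
    calc 16 * (M * s) * ‖x‖ ≤ 16 * (M * s) * 4 :=
          mul_le_mul_of_nonneg_left (norm_lt_of_mem_disc (by norm_num) hx).le (by positivity)
      _ = _ := by ring
  have hρb : BdOn (disc 4) 37 (64 * (M * s)) ρ :=
    BdOn.of_fderiv hρ0 ((hhb.mono_const (by nlinarith [mul_nonneg hM hs.le])).congr hU4
      fun y hy => (hρ' y hy).fderiv.symm)
  -- the bilinear part
  set B : Pl →L[ℝ] Pl →L[ℝ] ℝ := (M + 1)⁻¹ • H with hB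
  have hBn : ‖B‖ ≤ 1 := by
    refine ContinuousLinearMap.opNorm_le_bound₂ _ zero_le_one fun x y => ?_
    calc ‖B x y‖ = (M + 1)⁻¹ * ‖H x y‖ := by
          simp only [hB, FunLike.coe_smul, Pi.smul_apply, smul_eq_mul, norm_mul, Real.norm_eq_abs]
          rw [abs_of_pos (by positivity : 0 < (M + 1)⁻¹)]
      _ ≤ (M + 1)⁻¹ * ((M + 1) * ‖x‖ * ‖y‖) :=
          mul_le_mul_of_nonneg_left
            ((H.le_opNorm₂ x y).trans (by gcongr; linarith)) (by positivity)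
      _ = 1 * ‖x‖ * ‖y‖ := by field_simp
  have hPb : BdOn (disc 3) 36 6 P := (bdOn_clm_disc (by norm_num) 36 P).mono_const (by
    calc ‖P‖ * max (3 : ℝ) 1 ≤ 2 * max (3 : ℝ) 1 :=
          mul_le_mul_of_nonneg_right hfr.norm_P (by norm_num)
      _ = 6 := by norm_num)
  have hPs : ContDiffOn ℝ (36 : ℕ) P (disc 3) := P.contDiff.contDiffOn
  have hsum : ContDiffOn ℝ (36 : ℕ) (fun X => Φ X + P X) (disc 3) := hΦs.add hPs
  have hdif : ContDiffOn ℝ (36 : ℕ) (fun X => Φ X - P X) (disc 3) := hΦs.sub hPs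
  have hbil := hΦd.bilinear B hBn hU3 hdif hsum (hΦb.add hU3 hΦs hPs hPb)
  have hbils : ContDiffOn ℝ (36 : ℕ) (fun X => B (Φ X - P X) (Φ X + P X)) (disc 3) :=
    (B.contDiff.comp_contDiffOn hdif).clm_apply hsum
  have hρΦ := (hρb.mono_order (by norm_num : 36 ≤ 37)).comp hU3 hU4 hmaps
    (hρs.of_le (by norm_num)) hΦs hΦb
  have hρΦs : ContDiffOn ℝ (36 : ℕ) (fun X => ρ (Φ X)) (disc 3) :=
    (hρs.of_le (by norm_num)).comp hΦs hmaps
  have hus : ContDiffOn ℝ (36 : ℕ) u (disc 3) := by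
    rw [hu]; exact (hz.of_le (by norm_num)).comp hΦs hmaps
  have hmixed : H v1 v2 = 0 := hfr.mixed
  have hq : ∀ X, H (P X) (P X) / 2 = qForm α δ X := by
    intro X
    simp only [hP, frameP_apply, map_add, map_smul, FunLike.coe_add, FunLike.coe_smul,
      Pi.add_apply, Pi.smul_apply, smul_eq_mul, qForm]
    rw [hsym v2 v1, hmixed, ← hα, ← hδ]
    ring
  refine ⟨hus, ?_, ?_, ?_, ?_, ?_, ?_, ?_⟩
  · rw [hu]
    exact ((hzB.mono_order (by norm_num)).comp hU3 hU4 hmaps (hz.of_le (by norm_num)) hΦs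
      hΦb).mono_const (le_max_of_le_left (le_max_right _ _))
  · refine (((hbil.const_mul hU3 ((M + 1) / 2) hbils).add hU3 (contDiffOn_const.mul hbils) hρΦs
      hρΦ).congr hU3 fun X _ => ?_).mono_const ?_
    · have hpos : M + 1 ≠ 0 := by positivity
      rw [← hq X, hu]
      simp only [hρ, hB, FunLike.coe_smul, Pi.smul_apply, smul_eq_mul, map_sub, map_add,
        FunLike.coe_sub, Pi.sub_apply]
      rw [hsym (P X) (Φ X)]
      field_simp
      ring
    · calc |(M + 1) / 2| * (2 ^ 36 * (CΦ * s) * (CΦ + 6))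
            + ((36 : ℕ) ! : ℝ) * (64 * (M * s)) * max 1 CΦ ^ 36
          = ((M + 1) / 2 * (2 ^ 36 * CΦ * (CΦ + 6)) + f * (64 * M) * max 1 CΦ ^ 36) * s := by
            rw [abs_of_pos (by positivity)]; ring
        _ ≤ _ := mul_le_mul_of_nonneg_right (le_max_right _ _) hs.le
  all_goals try rw [hu]
  · rw [d1_comp (diffAt_of_open hU4 hz (by norm_num) (hmaps h03)) hΦ'.differentiableAt, hΦ0]
    simp [d1, d2, hz']
  · rw [d2_comp (diffAt_of_open hU4 hz (by norm_num) (hmaps h03)) hΦ'.differentiableAt, hΦ0]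
    simp [d1, d2, hz']
  rotate_left 2
  · rw [hα]
    refine (le_abs_self _).trans ((H.le_opNorm₂ v1 v1).trans ?_)
    have hv : ‖v1‖ ≤ 2 := by
      have := P.le_opNorm (1, 0)
      rw [hP, frameP_e1, norm_e1, mul_one] at this
      exact this.trans hfr.norm_P
    calc ‖H‖ * ‖v1‖ * ‖v1‖ ≤ M * 2 * 2 := by gcongr
      _ = _ := by ring
  all_goals
    have hc : DifferentiableAt ℝ (fun X => fderiv ℝ z (Φ X)) 0 :=
      (diffAt_of_open hU4 hDzs (by norm_num) (hmaps h03)).comp 0 hΦ'.differentiableAt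
    have hc' : fderiv ℝ (fun X => fderiv ℝ z (Φ X)) 0 = H.comp P := by
      refine HasFDerivAt.fderiv (HasFDerivAt.comp (g := fderiv ℝ z) 0 ?_ hΦ')
      rw [hΦ0]
      exact (diffAt_of_open hU4 hDzs (by norm_num) h04).hasFDerivAt
    have key : ∀ v w : Pl,
        fderiv ℝ (fun X => fderiv ℝ (fun Y => z (Φ Y)) X v) 0 w = H (P w) (P v) := by
      intro v w
      have he : (fun X => fderiv ℝ (fun Y => z (Φ Y)) X v)
          =ᶠ[𝓝 0] fun X => fderiv ℝ z (Φ X) (fderiv ℝ Φ X v) :=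
        eventually_of_mem (hU3.mem_nhds h03) fun X hX => by
          show fderiv ℝ (z ∘ Φ) X v = _
          rw [fderiv_comp X (diffAt_of_open hU4 hz (by norm_num) (hmaps hX))
            (diffAt_of_open hU3 hΦs (by norm_num) hX)]
          rfl
      rw [he.fderiv_eq, fderiv_clm_apply hc
        (diffAt_of_open hU3 (contDiffOn_apply_fderiv (k := 35) hU3 hΦs v) (by norm_num) h03),
        hc', hΦ'.fderiv]
      simp [hΦ0, hz']
  · exact (key (1, 0) (1, 0)).trans (by rw [hP, frameP_e1, ← hα])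
  · exact (key (0, 1) (1, 0)).trans (by rw [hP, frameP_e1, frameP_e2, hmixed])

/-- `nsq ∘ Lam` is `nsq` up to `O(s)`. -/
theorem bdOn_nsq_sub {C s : ℝ} (hs : 0 ≤ s) (hs' : s ≤ 1 / 10) {v1 v2 : Pl} {L : Pl → Pl}
    (hlow : ∀ v, nsq v ≤ (1 + 2 * s) * nsq (frameP v1 v2 v))
    (hhigh : ∀ v, (1 - 2 * s) * nsq (frameP v1 v2 v) ≤ nsq v) (hP : ‖frameP v1 v2‖ ≤ 2)
    (hL : ContDiffOn ℝ (2 : ℕ) L (disc (5 / 2))) (hLb : BdOn (disc (5 / 2)) 2 C L)
    (hd : BdOn (disc (5 / 2)) 2 (C * s) (fun q => L q - frameP v1 v2 q)) :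
    BdOn (disc (5 / 2)) 2 ((8 * C * (C + 5) + 450) * s) (fun q => nsq (L q) - nsq q) := by
  have hU := isOpen_disc (5 / 2)
  have h00 := zero_mem_disc (by norm_num : (0 : ℝ) < 5 / 2)
  have hC : 0 ≤ C := hLb.nonneg h00
  set P := frameP v1 v2 with hPdef
  have hPs : ContDiffOn ℝ (2 : ℕ) P (disc (5 / 2)) := P.contDiff.contDiffOn
  have hPb : BdOn (disc (5 / 2)) 2 5 P := (bdOn_clm_disc (by norm_num) 2 P).mono_const (by
    calc ‖P‖ * max (5 / 2 : ℝ) 1 ≤ 2 * max (5 / 2 : ℝ) 1 :=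
          mul_le_mul_of_nonneg_right hP (by norm_num)
      _ = 5 := by norm_num)
  have hD : ContDiffOn ℝ (2 : ℕ) (fun q => L q - P q) (disc (5 / 2)) := hL.sub hPs
  have hS : ContDiffOn ℝ (2 : ℕ) (fun q => L q + P q) (disc (5 / 2)) := hL.add hPs
  have hSb := hLb.add hU hL hPs hPb
  have b1 := (hd.fst hU hD).mul hU hD.fst hS.fst (hSb.fst hU hS)
  have b2 := (hd.snd hU hD).mul hU hD.snd hS.snd (hSb.snd hU hS)
  -- the quadratic form `nsq ∘ P - nsq`
  have hn : ∀ v, |nsq (P v) - nsq v| ≤ 3 * s * nsq v := fun v => by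
    have h1 := hlow v
    have h2 := hhigh v
    have h3 : 0 ≤ nsq (P v) := add_nonneg (sq_nonneg _) (sq_nonneg _)
    have h4 : 0 ≤ nsq v := add_nonneg (sq_nonneg _) (sq_nonneg _)
    rw [abs_le]
    constructor <;>
      nlinarith [mul_le_mul_of_nonneg_left h2 hs, mul_le_mul_of_nonneg_left h1 hs,
        mul_le_mul_of_nonneg_right hs' (mul_nonneg hs h3), mul_nonneg hs h3, mul_nonneg hs h4]
  set a := nsq v1 - 1
  set c := nsq v2 - 1
  set b := 2 * (v1.1 * v2.1 + v1.2 * v2.2)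
  have hexp : ∀ q : Pl, nsq (P q) - nsq q = a * (q.1 * q.1) + b * (q.1 * q.2) + c * (q.2 * q.2) := by
    intro q
    simp only [hPdef, frameP_apply, nsq, Prod.fst_add, Prod.snd_add, Prod.smul_fst, Prod.smul_snd,
      smul_eq_mul, a, b, c]
    ring
  have ha : |a| ≤ 3 * s := by have := hn (1, 0); rw [hexp] at this; simpa [nsq] using this
  have hc : |c| ≤ 3 * s := by have := hn (0, 1); rw [hexp] at this; simpa [nsq] using this
  have hb : |b| ≤ 12 * s := by
    have h1 := hn (1, 1)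
    rw [hexp] at h1
    simp only [mul_one, nsq, one_pow] at h1
    rw [abs_le] at h1 ha hc ⊢
    constructor <;> linarith
  have c1 : ContDiffOn ℝ (2 : ℕ) (fun q : Pl => q.1) (disc (5 / 2)) := contDiffOn_fst
  have c2 : ContDiffOn ℝ (2 : ℕ) (fun q : Pl => q.2) (disc (5 / 2)) := contDiffOn_snd
  have p1 := bdOn_fst_disc (by norm_num : (0 : ℝ) ≤ 5 / 2) 2
  have p2 := bdOn_snd_disc (by norm_num : (0 : ℝ) ≤ 5 / 2) 2
  have m11 := ((p1.mul hU c1 c1 p1).const_mul hU a (c1.mul c1))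
  have m12 := ((p1.mul hU c1 c2 p2).const_mul hU b (c1.mul c2))
  have m22 := ((p2.mul hU c2 c2 p2).const_mul hU c (c2.mul c2))
  have k11 : ContDiffOn ℝ (2 : ℕ) (fun q : Pl => a * (q.1 * q.1)) (disc (5 / 2)) :=
    contDiffOn_const.mul (c1.mul c1)
  have k12 : ContDiffOn ℝ (2 : ℕ) (fun q : Pl => b * (q.1 * q.2)) (disc (5 / 2)) :=
    contDiffOn_const.mul (c1.mul c2)
  have k22 : ContDiffOn ℝ (2 : ℕ) (fun q : Pl => c * (q.2 * q.2)) (disc (5 / 2)) :=
    contDiffOn_const.mul (c2.mul c2)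
  have hquad := (m11.add hU k11 k12 m12).add hU (k11.add k12) k22 m22
  have hall := (b1.add hU (hD.fst.mul hS.fst) (hD.snd.mul hS.snd) b2).add hU
    ((hD.fst.mul hS.fst).add (hD.snd.mul hS.snd)) ((k11.add k12).add k22) hquad
  refine (hall.congr hU fun q _ => ?_).mono_const ?_
  · have := hexp q
    simp only [nsq, Prod.fst_add, Prod.snd_add, Prod.fst_sub, Prod.snd_sub] at this ⊢
    linear_combination -this
  · norm_num
    nlinarith [abs_nonneg a, abs_nonneg b, abs_nonneg c]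

/-- The Legendre map of a function that is `qForm α δ + O(s)`, and its inverse. -/
theorem exists_Theta (a C1 : ℝ) (ha : 0 < a) :
    ∃ C s0 : ℝ, 1 ≤ C ∧ 0 < s0 ∧ ∀ (s α δ : ℝ) (u : Pl → ℝ), 0 < s → s ≤ s0 → a ≤ α →
      ContDiffOn ℝ (36 : ℕ) u (disc 3) → BdOn (disc 3) 36 (C1 * s) (fun X => u X - qForm α δ X) →
      d1 u 0 = 0 →
      ∃ Θ : Pl → Pl, ContDiffOn ℝ (35 : ℕ) Θ (disc (5 / 2)) ∧ BdOn (disc (5 / 2)) 35 C Θ ∧
        BdOn (disc (5 / 2)) 35 (C * s) (fun q => Θ q - q) ∧ Θ 0 = 0 ∧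
        ContDiffOn ℝ (35 : ℕ) (fun X => (d1 u X / α, X.2) : Pl → Pl) (disc 3) ∧
        BdOn (disc 3) 35 C (fun X => (d1 u X / α, X.2) : Pl → Pl) ∧
        (∀ q ∈ disc (5 / 2), Θ q ∈ disc (29 / 10) ∧ (d1 u (Θ q) / α, (Θ q).2) = q) ∧
        ∀ X ∈ disc (12 / 5), (d1 u X / α, X.2) ∈ disc (5 / 2) ∧ Θ (d1 u X / α, X.2) = X := by
  set K := |C1| / a with hK
  have hK0 : 0 ≤ K := by positivity
  obtain ⟨Ci, εi, hCi, hεi, hinv⟩ := exists_inverse_small 35 (29 / 10) (5 / 2) K (by norm_num)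
    (by norm_num) (by norm_num) hK0
  refine ⟨max (max 1 Ci) (3 + K), min (min εi 1) (1 / (100 * (K + 1))),
    le_max_of_le_left (le_max_left _ _), lt_min (lt_min hεi one_pos) (by positivity), ?_⟩
  intro s α δ u hs hs0 haα hus hr hu0
  have hsi : s ≤ εi := hs0.trans ((min_le_left _ _).trans (min_le_left _ _))
  have hs1 : s ≤ 1 := hs0.trans ((min_le_left _ _).trans (min_le_right _ _))
  have hsK : K * s ≤ 1 / 100 := by
    have h := (le_div_iff₀ (by positivity)).1 (hs0.trans (min_le_right _ _))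
    nlinarith
  have hα : 0 < α := ha.trans_le haα
  have hU := isOpen_disc 3
  have hr1 := (rem_deriv (k := 35) (by norm_num) hus hr).1
  have hr1s : ContDiffOn ℝ (35 : ℕ) (fun X => d1 u X - α * X.1) (disc 3) :=
    (contDiffOn_d1 hU hus).sub (contDiffOn_const.mul contDiffOn_fst)
  set g : Pl → Pl := fun X => ((1 / α) * (d1 u X - α * X.1), 0) with hg
  have hgs : ContDiffOn ℝ (35 : ℕ) g (disc 3) :=
    (contDiffOn_const.mul hr1s).prodMk contDiffOn_const
  have hgb : BdOn (disc 3) 35 (K * s) g := by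
    refine ((hr1.const_mul hU (1 / α) hr1s).prodMk hU (contDiffOn_const.mul hr1s) contDiffOn_const
      (bdOn_zero (disc 3) 35)).mono_const (max_le ?_ (by positivity))
    calc |1 / α| * (C1 * s) ≤ |1 / α| * (|C1| * s) :=
          mul_le_mul_of_nonneg_left (mul_le_mul_of_nonneg_right (le_abs_self C1) hs.le)
            (abs_nonneg _)
      _ = |C1| / α * s := by rw [abs_of_pos (by positivity)]; ring
      _ ≤ K * s :=
          mul_le_mul_of_nonneg_right (div_le_div_of_nonneg_left (abs_nonneg _) ha haα) hs.le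
  have hΨ : ∀ X : Pl, ((d1 u X / α, X.2) : Pl) = X + g X := fun X => by
    ext <;> simp [hg]
    field_simp
    ring
  have hsub : disc (29 / 10) ⊆ disc 3 := disc_mono (by norm_num) (by norm_num)
  obtain ⟨Θ, hΘs, hΘb, hΘd, hΘ0, hΘm, hΘi⟩ := hinv g s hs.le hsi (hgs.mono hsub)
    (by simp [hg, hu0]) (hgb.mono_set hsub)
  refine ⟨Θ, hΘs, hΘb.mono_const (le_max_of_le_left (le_max_right _ _)),
    hΘd.mono_const (mul_le_mul_of_nonneg_right (le_max_of_le_left (le_max_right _ _)) hs.le),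
    hΘ0, (contDiffOn_id.add hgs).congr fun X _ => hΨ X, ?_, ?_, ?_⟩
  · refine (((bdOn_id_disc (by norm_num) 35).add hU contDiffOn_id hgs hgb).congr hU
      fun X _ => (hΨ X).symm).mono_const (le_max_of_le_right ?_)
    norm_num
    calc K * s ≤ K * 1 := mul_le_mul_of_nonneg_left hs1 hK0
      _ = K := mul_one K
  · exact fun q hq => ⟨(hΘm q hq).1, (hΨ _).trans (hΘm q hq).2⟩
  · intro X hX
    rw [hΨ]
    exact ⟨mem_disc_of_near (a := 12 / 5) (δ := 1 / 100) (by norm_num) (by norm_num) hX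
      (by simpa using (hgb.norm_le (disc_mono (by norm_num) (by norm_num) hX)).trans hsK),
      hΘi X (disc_mono (by norm_num) (by norm_num) hX)⟩

/-- A good chart exists. -/
theorem chartSpec {k : ℕ} (hk : 40 ≤ k) : ChartSpec k := by
  intro M a0 ha0
  rcases lt_or_ge M 0 with hM | hM
  · exact ⟨1, 1, le_rfl, one_pos, fun s hs _ β _ _ π G e _ _ hsol =>
      absurd (hsol.nonneg' (by omega) hs) (not_le.2 hM)⟩
  obtain ⟨CP, sP, hCP, hsP, hPhi⟩ := exists_Phi hk hM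
  obtain ⟨CU, hCU, hU'⟩ := exists_u hk hM CP
  obtain ⟨CT, sT, hCT, hsT, hTheta⟩ := exists_Theta (a0 / 8) CU (by positivity)
  let f : ℝ := ((35 : ℕ) ! : ℝ)
  let CW : ℝ := f * CP * max 1 CT ^ 35 + 2 * CT
  let CL : ℝ := max (f * CP * max 1 CT ^ 35) CW
  have key : ∀ a b c d e i g h : ℝ, ∃ C : ℝ, 1 ≤ C ∧ a ≤ C ∧ b ≤ C ∧ c ≤ C ∧ d ≤ C ∧ e ≤ C ∧
      i ≤ C ∧ g ≤ C ∧ h ≤ C := fun a b c d e i g h =>
    ⟨1 + |a| + |b| + |c| + |d| + |e| + |i| + |g| + |h|, by
      refine ⟨?_, ?_, ?_, ?_, ?_, ?_, ?_, ?_, ?_⟩ <;>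
        linarith [le_abs_self a, le_abs_self b, le_abs_self c, le_abs_self d, le_abs_self e,
          le_abs_self i, le_abs_self g, le_abs_self h, abs_nonneg a, abs_nonneg b, abs_nonneg c,
          abs_nonneg d, abs_nonneg e, abs_nonneg i, abs_nonneg g, abs_nonneg h]⟩
  obtain ⟨C, hC, lP, lU, lT, la, lM, lX, lL, lN⟩ :=
    key CP CU CT (8 / a0) (4 * M) (f * CT * max 1 CP ^ 35) CL (8 * CL * (CL + 5) + 450)
  refine ⟨C, min (min (min sP sT) (1 / 100)) (a0 / (8 * M + 1)), hC,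
    lt_min (lt_min (lt_min hsP hsT) (by norm_num)) (by positivity), ?_⟩
  intro s hs hs0 β hβ hβs π G e _ hπ hsol
  have hsP' : s ≤ sP := hs0.trans ((min_le_left _ _).trans ((min_le_left _ _).trans (min_le_left _ _)))
  have hsT' : s ≤ sT :=
    hs0.trans ((min_le_left _ _).trans ((min_le_left _ _).trans (min_le_right _ _)))
  have hs1 : s ≤ 1 / 100 := hs0.trans ((min_le_left _ _).trans (min_le_right _ _))
  have hsM : 8 * M * s ≤ a0 := by
    have := (le_div_iff₀ (by positivity)).1 (hs0.trans (min_le_right _ _))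
    nlinarith
  obtain ⟨v1, v2, hfr⟩ := exists_frame (by omega) hs hs1 hsM ha0.le hβ hβs hπ hsol
  obtain ⟨Φ, hΦs, hΦb, hΦd, hΦ0, hΦ', hΦinv, hJinv, hJ2, hJs, hJb⟩ :=
    hPhi s β a0 π G e v1 v2 hs hsP' hsol hfr
  set u : Pl → ℝ := fun X => zOf s G e (Φ X) with hu
  set α := fderiv ℝ (fderiv ℝ (zOf s G e)) 0 v1 v1 with hα
  obtain ⟨hus, hub, hur, hu1, hu2, hu11, hu12, hαM⟩ :=
    hU' s β a0 π G e v1 v2 Φ hs (by linarith) hsol hfr hΦs hΦb hΦd hΦ0 hΦ'
      (fun X hX => disc_mono (by norm_num) (by norm_num) (hΦinv X hX).1) u α _ hu hα rfl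
  obtain ⟨Θ, hΘs, hΘb, hΘd, hΘ0, hΨs, hΨb, hΘm, hΘi⟩ :=
    hTheta s α _ u hs hsT' hfr.pos hus hur hu1
  refine ⟨⟨fderiv ℝ G 0 v1, fderiv ℝ G 0 v2, Φ, Θ, α⟩, ?_⟩
  set ch : Chart := ⟨fderiv ℝ G 0 v1, fderiv ℝ G 0 v2, Φ, Θ, α⟩ with hch
  have hproj : ∀ x, ch.proj G x = frameA G v1 v2 (G x) := fun x => by
    simp [Chart.proj, hch, frameA, real_inner_comm]
  have hchu : ch.u s G e = u := rfl
  have hΨeq : ∀ X, ch.Psi s G e X = ((d1 u X / α, X.2) : Pl) := fun X => rfl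
  have hD3 := isOpen_disc 3
  have hD5 := isOpen_disc (5 / 2)
  have hΘ3 : MapsTo Θ (disc (5 / 2)) (disc 3) := fun q hq =>
    disc_mono (by norm_num) (by norm_num) (hΘm q hq).1
  have hΦ35 : ContDiffOn ℝ (35 : ℕ) Φ (disc 3) := hΦs.of_le (by norm_num)
  have hPs : ContDiffOn ℝ (35 : ℕ) (frameP v1 v2) (disc 3) :=
    (frameP v1 v2).contDiff.contDiffOn
  have hLs : ContDiffOn ℝ (35 : ℕ) (fun q => Φ (Θ q)) (disc (5 / 2)) := hΦ35.comp hΘs hΘ3
  have hLb : BdOn (disc (5 / 2)) 35 CL (fun q => Φ (Θ q)) :=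
    ((hΦb.mono_order (by norm_num)).comp hD5 hD3 hΘ3 hΦ35 hΘs hΘb).mono_const (le_max_left _ _)
  have hW : BdOn (disc (5 / 2)) 35 (CL * s) (fun q => Φ (Θ q) - frameP v1 v2 q) := by
    have w1 := (hΦd.mono_order (by norm_num : 35 ≤ 36)).comp hD5 hD3 hΘ3 (hΦ35.sub hPs) hΘs hΘb
    have w2 := hΘd.comp_clm hD5 (frameP v1 v2) (hΘs.sub contDiffOn_id)
    refine ((w1.add hD5 ((hΦ35.sub hPs).comp hΘs hΘ3)
      ((frameP v1 v2).contDiff.comp_contDiffOn (hΘs.sub contDiffOn_id)) w2).congr hD5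
      fun q _ => ?_).mono_const ?_
    · simp [map_sub]
    · calc f * (CP * s) * max 1 CT ^ 35 + ‖frameP v1 v2‖ * (CT * s)
          ≤ f * (CP * s) * max 1 CT ^ 35 + 2 * (CT * s) := by
            gcongr
            exact hfr.norm_P
        _ = CW * s := by simp only [CW]; ring
        _ ≤ CL * s := mul_le_mul_of_nonneg_right (le_max_right _ _) hs.le
  have hsub : disc (12 / 5) ⊆ disc 4 := disc_mono (by norm_num) (by norm_num)
  have hXs : ContDiffOn ℝ (35 : ℕ) (ch.Xi s G e) (disc (12 / 5)) := by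
    refine (hΨs.comp ((hJs.of_le (by norm_num)).mono hsub) fun x hx =>
      (hJinv x (disc_mono (by norm_num) (by norm_num) hx)).1).congr fun x _ => ?_
    show ch.Psi s G e (ch.proj G x) = _
    rw [hΨeq, hproj]
    rfl
  refine ⟨hfr.n1, hfr.n2, hfr.orth, hfr.perp v1, hfr.perp v2, ?_, hαM.trans lM, hu11.symm, hΦ0,
    hΘ0, hu1, hu2, hu12, hΦs, hus, hΘs, hΦb.mono_const lP, hub.mono_const lU,
    hΘb.mono_const lT, ?_, hLb.mono_const lL, ?_, ?_, ?_, ?_, ?_, ?_, ?_, hXs⟩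
  · calc 1 / C ≤ 1 / (8 / a0) := one_div_le_one_div_of_le (by positivity) la
      _ = a0 / 8 := one_div_div _ _
      _ ≤ α := hfr.pos
  · refine (((hΨb.comp (isOpen_disc (12 / 5)) hD3 (fun x hx =>
      (hJinv x (disc_mono (by norm_num) (by norm_num) hx)).1) hΨs
      ((hJs.of_le (by norm_num)).mono hsub) ((hJb.mono_order (by norm_num)).mono_set hsub)).congr
      (isOpen_disc _) fun x _ => ?_).mono_const lX)
    show _ = ch.Psi s G e (ch.proj G x)
    rw [hΨeq, hproj]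
  · exact fun X hX => ⟨(hΦinv X hX).1, (hproj _).trans (hΦinv X hX).2⟩
  · intro x hx
    rw [hproj]
    exact hJinv x hx
  · exact fun q hq => hΘm q hq
  · exact fun X hX => hΘi X hX
  · intro x hx
    rw [hproj]
    exact hJ2 x hx
  · intro X hX
    obtain ⟨h1, h2⟩ := (rem_deriv (k := 35) (by norm_num) hus hur).2 X hX
    exact ⟨h1.trans (mul_le_mul_of_nonneg_right lU hs.le),
      h2.trans (mul_le_mul_of_nonneg_right lU hs.le)⟩
  · exact (bdOn_nsq_sub hs.le (by linarith) hfr.low hfr.high hfr.norm_P (hLs.of_le (by norm_num))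
      (hLb.mono_order (by norm_num)) (hW.mono_order (by norm_num))).mono_const
      (mul_le_mul_of_nonneg_right lN hs.le)

end Vale.Agent.P229
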