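import Vale.Agent.P229.Core.Spec
import Vale.Agent.P229.Inverse

/-!
# P229, Core: auxiliary facts for the chart of a representative

Small jets, small perturbations of discs, the near-identity inverse in the form used for `Φ` and `Θ`,
the diagonalisation of a pair of quadratic forms, and the frame of an island solution at `0`.
-/

open scoped ContDiff RealInnerProductSpace Nat
open Set Filter Topology

namespace Vale.Agent.P229

section Jets

variable {F : Type*} [NormedAddCommGroup F] [NormedSpace ℝ F]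

/-- A linear map has no derivatives of order at least two. -/
theorem iteratedFDeriv_clm_two (L : Pl →L[ℝ] F) {j : ℕ} (hj : 2 ≤ j) (x : Pl) :
    iteratedFDeriv ℝ j L x = 0 := by
  obtain ⟨i, rfl⟩ : ∃ i, j = i + 1 + 1 := ⟨j - 2, by omega⟩
  refine norm_eq_zero.1 ?_
  have h : fderiv ℝ (L : Pl → F) = fun _ => L := funext fun y => L.fderiv
  rw [← norm_iteratedFDeriv_fderiv, h, iteratedFDeriv_const_of_ne (Nat.succ_ne_zero i),
    Pi.zero_apply, norm_zero]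

/-- A function with vanishing one-jet at `0` is bounded by its higher derivatives. -/
theorem bdOn_of_jet {f : Pl → F} {k : ℕ} {R ε : ℝ} (hR : 1 ≤ R) (hk : 2 ≤ k)
    (hf : ContDiffOn ℝ k f (disc R)) (h0 : f 0 = 0) (h1 : fderiv ℝ f 0 = 0)
    (h : ∀ j, 2 ≤ j → j ≤ k → ∀ x ∈ disc R, ‖iteratedFDeriv ℝ j f x‖ ≤ ε) :
    BdOn (disc R) k (R ^ 2 * ε) f := by
  have hU := isOpen_disc R
  have h00 := zero_mem_disc (by linarith : 0 < R)
  have hε : 0 ≤ ε := (norm_nonneg _).trans (h 2 le_rfl hk 0 h00)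
  have hd : ContDiffOn ℝ (1 : ℕ) (fderiv ℝ f) (disc R) :=
    ContDiffOn.fderivPl hU (hf.of_le (by exact_mod_cast hk))
  have hD : ∀ x ∈ disc R, ‖fderiv ℝ f x‖ ≤ R * ε := by
    intro x hx
    have h2 := (convex_disc R).norm_image_sub_le_of_norm_fderiv_le (f := fderiv ℝ f) (C := ε)
      (fun y hy => diffAt_of_open hU hd le_rfl hy)
      (fun y hy => by
        rw [← norm_iteratedFDeriv_one, norm_iteratedFDeriv_fderiv]
        exact h 2 le_rfl hk y hy) h00 hx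
    rw [h1, sub_zero, sub_zero] at h2
    exact h2.trans ((mul_le_mul_of_nonneg_left (norm_lt_of_mem_disc (by linarith) hx).le hε).trans_eq
      (mul_comm _ _))
  intro j hj x hx
  rcases j with _ | _ | j
  · rw [norm_iteratedFDeriv_zero]
    have h2 := (convex_disc R).norm_image_sub_le_of_norm_fderiv_le (f := f) (C := R * ε)
      (fun y hy => diffAt_of_open hU hf (by exact_mod_cast (by omega : 1 ≤ k)) hy) hD h00 hx
    rw [h0, sub_zero, sub_zero] at h2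
    refine h2.trans ?_
    calc R * ε * ‖x‖ ≤ R * ε * R :=
          mul_le_mul_of_nonneg_left (norm_lt_of_mem_disc (by linarith) hx).le (by positivity)
      _ = R ^ 2 * ε := by ring
  · rw [norm_iteratedFDeriv_one]
    refine (hD x hx).trans (mul_le_mul_of_nonneg_right ?_ hε)
    nlinarith
  · refine (h (j + 2) (by omega) hj x hx).trans (le_mul_of_one_le_left hε ?_)
    nlinarith

theorem bdOn_clm_disc {R : ℝ} (hR : 0 ≤ R) (k : ℕ) (L : Pl →L[ℝ] F) :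
    BdOn (disc R) k (‖L‖ * max R 1) L :=
  (bdOn_id_disc hR k).comp_clm (isOpen_disc R) L contDiffOn_id

end Jets

/-! ### Discs -/

theorem abs_fst_le_of_mem_disc {a : ℝ} (ha : 0 ≤ a) {x : Pl} (hx : x ∈ disc a) : |x.1| ≤ a :=
  (norm_fst_le x).trans (norm_lt_of_mem_disc ha hx).le

theorem abs_snd_le_of_mem_disc {a : ℝ} (ha : 0 ≤ a) {x : Pl} (hx : x ∈ disc a) : |x.2| ≤ a :=
  (norm_snd_le x).trans (norm_lt_of_mem_disc ha hx).le

/-- A point `δ`-close to the disc of radius `a` lies in the disc of radius `a + 2δ`. -/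
theorem mem_disc_of_near {a b δ : ℝ} (ha : 0 ≤ a) (hb : a + 2 * δ ≤ b) {x y : Pl}
    (hx : x ∈ disc a) (hd : ‖y - x‖ ≤ δ) : y ∈ disc b := by
  have hδ : 0 ≤ δ := (norm_nonneg _).trans hd
  have h1 : |y.1 - x.1| ≤ δ := (norm_fst_le (y - x)).trans hd
  have h2 : |y.2 - x.2| ≤ δ := (norm_snd_le (y - x)).trans hd
  have h3 : x.1 ^ 2 + x.2 ^ 2 < a ^ 2 := hx
  have q1 : x.1 * (y.1 - x.1) ≤ a * δ := (le_abs_self _).trans
    (by rw [abs_mul]; exact mul_le_mul (abs_fst_le_of_mem_disc ha hx) h1 (abs_nonneg _) ha)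
  have q2 : x.2 * (y.2 - x.2) ≤ a * δ := (le_abs_self _).trans
    (by rw [abs_mul]; exact mul_le_mul (abs_snd_le_of_mem_disc ha hx) h2 (abs_nonneg _) ha)
  have q3 : (y.1 - x.1) ^ 2 ≤ δ ^ 2 := sq_le_sq.2 (by rwa [abs_of_nonneg hδ])
  have q4 : (y.2 - x.2) ^ 2 ≤ δ ^ 2 := sq_le_sq.2 (by rwa [abs_of_nonneg hδ])
  have q5 : (a + 2 * δ) ^ 2 ≤ b ^ 2 := pow_le_pow_left₀ (by linarith) hb 2
  show y.1 ^ 2 + y.2 ^ 2 < b ^ 2
  nlinarith [mul_nonneg hδ hδ]

/-! ### Inverse of a small perturbation of the identity -/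

/-- The inverse of `id + g` for `g = O(ε)` is `id + O(ε)`. -/
theorem exists_inverse_small (k : ℕ) (R R' K : ℝ) (hk : 1 ≤ k) (hR' : 0 < R') (hRR : R' < R)
    (hK : 0 ≤ K) :
    ∃ C ε0 : ℝ, 0 ≤ C ∧ 0 < ε0 ∧ ∀ (g : Pl → Pl) (ε : ℝ), 0 ≤ ε → ε ≤ ε0 →
      ContDiffOn ℝ k g (disc R) → g 0 = 0 → BdOn (disc R) k (K * ε) g →
      ∃ Q : Pl → Pl, ContDiffOn ℝ k Q (disc R') ∧ BdOn (disc R') k C Q ∧
        BdOn (disc R') k (C * ε) (fun y => Q y - y) ∧ Q 0 = 0 ∧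
        (∀ y ∈ disc R', Q y ∈ disc R ∧ Q y + g (Q y) = y) ∧
        ∀ x ∈ disc R, Q (x + g x) = x := by
  have hR : 0 < R := hR'.trans hRR
  obtain ⟨C', hC', hinv⟩ := exists_inverse k (max R 1 + 1)
  set ε0 := min (1 / 10) ((R - R') / (3 * R)) / (K + 1) with hε0
  have hε0' : 0 < ε0 :=
    div_pos (lt_min (by norm_num) (div_pos (by linarith) (by linarith))) (by linarith)
  refine ⟨max C' (k ! * K * max 1 C' ^ k), ε0, le_max_of_le_left (by linarith), hε0',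
    fun g ε hε hεle hg hg0 hb => ?_⟩
  have hsmall : K * ε ≤ min (1 / 10) ((R - R') / (3 * R)) := by
    calc K * ε ≤ (K + 1) * ε0 := mul_le_mul (by linarith) hεle hε (by linarith)
      _ = _ := by rw [hε0]; field_simp
  have hdisc : R' ≤ R * (1 - 3 * (K * ε)) := by
    have h2 := hsmall.trans (min_le_right _ _)
    rw [le_div_iff₀ (by linarith)] at h2
    linarith
  have hU := isOpen_disc R
  let Pm : Pl → Pl := fun x => x + g x
  have hn : NearId Pm R (K * ε) k :=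
    { hR := hR
      eps_le := hsmall.trans (min_le_left _ _)
      one_le := hk
      smooth := contDiffOn_id.add hg
      zero := by simp [Pm, hg0]
      near := fun x hx => by
        rw [show Pm = fun x => x + g x from rfl,
          fderiv_fun_add differentiableAt_fun_id (diffAt_of_open hU hg (mod_cast hk) hx),
          fderiv_fun_id, add_sub_cancel_left]
        exact hb.norm_fderiv_le hk hx }
  have hPb : BdOn (disc R) k (max R 1 + 1) Pm :=
    ((bdOn_id_disc hR.le k).add hU contDiffOn_id hg hb).mono_const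
      (by linarith [hsmall.trans (min_le_left _ _)])
  obtain ⟨Q, hQs, hQb, hQ0, hQm, hQi, -, -⟩ := hinv Pm R (K * ε) hn hPb
  have hsub : disc R' ⊆ disc (R * (1 - 3 * (K * ε))) := disc_mono hR'.le hdisc
  have hm : ∀ y ∈ disc R', Q y ∈ disc R ∧ Q y + g (Q y) = y := fun y hy => hQm y (hsub hy)
  refine ⟨Q, hQs.mono hsub, (hQb.mono_set hsub).mono_const (le_max_left _ _), ?_, hQ0, hm, hQi⟩
  have h := (hb.comp (isOpen_disc R') hU (fun y hy => (hm y hy).1) hg (hQs.mono hsub)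
    (hQb.mono_set hsub)).neg
  refine (h.mono_const ?_).congr (isOpen_disc R') fun y hy => ?_
  · calc (k ! : ℝ) * (K * ε) * max 1 C' ^ k = k ! * K * max 1 C' ^ k * ε := by ring
      _ ≤ _ := mul_le_mul_of_nonneg_right (le_max_right _ _) hε
  · show -g (Q y) = Q y - y
    linear_combination (norm := module) -(hm y hy).2

/-! ### Two quadratic forms -/

theorem exists_rotation (A B D : ℝ) : ∃ c t : ℝ, c ^ 2 + t ^ 2 = 1 ∧
    (c ^ 2 - t ^ 2) * B + c * t * (D - A) = 0 ∧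
    (A + D) / 2 ≤ c ^ 2 * A + 2 * c * t * B + t ^ 2 * D := by
  set w : ℂ := ⟨A - D, 2 * B⟩
  set θ := w.arg / 2
  have hre : ‖w‖ * Real.cos w.arg = A - D := Complex.norm_mul_cos_arg w
  have him : ‖w‖ * Real.sin w.arg = 2 * B := Complex.norm_mul_sin_arg w
  have hθ : w.arg = 2 * θ := by simp [θ]; ring
  rw [hθ, Real.cos_two_mul'] at hre
  rw [hθ, Real.sin_two_mul] at him
  have h1 := Real.cos_sq_add_sin_sq θ
  refine ⟨Real.cos θ, Real.sin θ, h1, ?_, ?_⟩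
  · linear_combination -((Real.cos θ ^ 2 - Real.sin θ ^ 2) / 2) * him
      + Real.cos θ * Real.sin θ * hre
  · have hn := norm_nonneg w
    have h4 : Real.cos θ ^ 2 * A + 2 * Real.cos θ * Real.sin θ * B + Real.sin θ ^ 2 * D
        = (A + D) / 2 + ‖w‖ / 2 := by
      linear_combination ((A + D) / 2) * h1 + (‖w‖ / 2) * (Real.cos θ ^ 2 + Real.sin θ ^ 2 + 1) * h1
        - ((Real.cos θ ^ 2 - Real.sin θ ^ 2) / 2) * hre - Real.cos θ * Real.sin θ * him
    linarith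

/-- A quadratic form with coefficients `η`-close to those of `nsq`. -/
theorem form_near {E F G η : ℝ} (hE : |E - 1| ≤ η) (hF : |F| ≤ η) (hG : |G - 1| ≤ η) (w : Pl) :
    |E * (w.1 * w.1) + F * (w.1 * w.2 + w.2 * w.1) + G * (w.2 * w.2) - nsq w|
      ≤ 2 * η * nsq w := by
  have h1 := abs_le.1 hE
  have h2 := abs_le.1 hF
  have h3 := abs_le.1 hG
  unfold nsq
  rw [abs_le]
  constructor
  · nlinarith [mul_nonneg (show 0 ≤ η + (E - 1) by linarith) (sq_nonneg w.1),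
      mul_nonneg (show 0 ≤ η + (G - 1) by linarith) (sq_nonneg w.2),
      mul_nonneg (show 0 ≤ η + F by linarith) (sq_nonneg (w.1 + w.2)),
      mul_nonneg (show 0 ≤ η - F by linarith) (sq_nonneg (w.1 - w.2))]
  · nlinarith [mul_nonneg (show 0 ≤ η - (E - 1) by linarith) (sq_nonneg w.1),
      mul_nonneg (show 0 ≤ η - (G - 1) by linarith) (sq_nonneg w.2),
      mul_nonneg (show 0 ≤ η + F by linarith) (sq_nonneg (w.1 - w.2)),
      mul_nonneg (show 0 ≤ η - F by linarith) (sq_nonneg (w.1 + w.2))]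

/-- Diagonalising the symmetric form `h` by a basis orthonormal for the form `(E, F, G)`. -/
theorem exists_diag {E F G η h11 h12 h22 M a0 : ℝ} (hη : η ≤ 1 / 20) (hE : |E - 1| ≤ η)
    (hF : |F| ≤ η) (hG : |G - 1| ≤ η) (h1 : |h11| ≤ M) (h2 : |h12| ≤ M) (h3 : |h22| ≤ M)
    (hM : 8 * M * η ≤ a0) (ha : 0 ≤ a0) (ht : a0 ≤ h11 + h22) :
    ∃ v1 v2 : Pl,
      E * (v1.1 * v1.1) + F * (v1.1 * v1.2 + v1.2 * v1.1) + G * (v1.2 * v1.2) = 1 ∧
      E * (v2.1 * v2.1) + F * (v2.1 * v2.2 + v2.2 * v2.1) + G * (v2.2 * v2.2) = 1 ∧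
      E * (v1.1 * v2.1) + F * (v1.1 * v2.2 + v1.2 * v2.1) + G * (v1.2 * v2.2) = 0 ∧
      h11 * (v1.1 * v2.1) + h12 * (v1.1 * v2.2 + v1.2 * v2.1) + h22 * (v1.2 * v2.2) = 0 ∧
      a0 / 8 ≤
        h11 * (v1.1 * v1.1) + h12 * (v1.1 * v1.2 + v1.2 * v1.1) + h22 * (v1.2 * v1.2) := by
  obtain ⟨hE1, hE2⟩ := abs_le.1 hE
  obtain ⟨hF1, hF2⟩ := abs_le.1 hF
  obtain ⟨hG1, hG2⟩ := abs_le.1 hG
  have hE0 : 0 < E := by linarith
  set Δ := E * G - F ^ 2 with hΔ
  have hΔ0 : 0 < Δ := by nlinarith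
  have hΔ2 : Δ ≤ 2 := by nlinarith
  obtain ⟨a, ha'⟩ : ∃ a : ℝ, E * a ^ 2 = 1 :=
    ⟨Real.sqrt (1 / E), by rw [Real.sq_sqrt (by positivity)]; field_simp⟩
  obtain ⟨c, hc⟩ : ∃ c : ℝ, Δ * c ^ 2 = E :=
    ⟨Real.sqrt (E / Δ), by rw [Real.sq_sqrt (by positivity)]; field_simp⟩
  obtain ⟨b, hb⟩ : ∃ b : ℝ, E * b + F * c = 0 := ⟨-(F * c) / E, by field_simp; ring⟩
  have g22 : E * b ^ 2 + 2 * F * (b * c) + G * c ^ 2 = 1 := by
    refine mul_left_cancel₀ hE0.ne' ?_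
    linear_combination (E * b + F * c) * hb + hc
  have tr : (h11 * a ^ 2 + (h11 * b ^ 2 + 2 * h12 * (b * c) + h22 * c ^ 2)) * Δ
      = G * h11 - 2 * F * h12 + E * h22 := by
    refine mul_left_cancel₀ hE0.ne' ?_
    refine mul_left_cancel₀ hE0.ne' ?_
    linear_combination E * Δ * h11 * ha' + (h11 * F ^ 2 - 2 * h12 * E * F + h22 * E ^ 2) * hc
      + Δ * (h11 * (E * b - F * c) + 2 * h12 * E * c) * hb
  have hnum : a0 / 2 ≤ G * h11 - 2 * F * h12 + E * h22 := by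
    have q : ∀ x y : ℝ, |x| ≤ η → |y| ≤ M → |x * y| ≤ η * M := fun x y hx hy => by
      rw [abs_mul]; exact mul_le_mul hx hy (abs_nonneg _) ((abs_nonneg _).trans hx)
    have q1 := abs_le.1 (q _ _ hG h1)
    have q2 := abs_le.1 (q _ _ hF h2)
    have q3 := abs_le.1 (q _ _ hE h3)
    nlinarith
  have htr : a0 / 4 ≤ h11 * a ^ 2 + (h11 * b ^ 2 + 2 * h12 * (b * c) + h22 * c ^ 2) := by
    by_contra hlt
    push Not at hlt
    nlinarith
  obtain ⟨p, t, hpt, hmix, hbig⟩ := exists_rotation (h11 * a ^ 2) (h11 * (a * b) + h12 * (a * c))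
    (h11 * b ^ 2 + 2 * h12 * (b * c) + h22 * c ^ 2)
  refine ⟨(p * a + t * b, t * c), (-t * a + p * b, p * c), ?_, ?_, ?_, ?_, ?_⟩ <;> dsimp only
  · linear_combination p ^ 2 * ha' + t ^ 2 * g22 + 2 * p * t * a * hb + hpt
  · linear_combination t ^ 2 * ha' + p ^ 2 * g22 - 2 * p * t * a * hb + hpt
  · linear_combination p * t * g22 - p * t * ha' + (p ^ 2 - t ^ 2) * a * hb
  · linear_combination hmix
  · nlinarith

/-! ### The frame of an island solution at `0` -/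

/-- `(X, Y) ↦ X v1 + Y v2`. -/
noncomputable def frameP (v1 v2 : Pl) : Pl →L[ℝ] Pl :=
  (ContinuousLinearMap.fst ℝ ℝ ℝ).smulRight v1 + (ContinuousLinearMap.snd ℝ ℝ ℝ).smulRight v2

theorem frameP_apply (v1 v2 v : Pl) : frameP v1 v2 v = v.1 • v1 + v.2 • v2 := rfl

theorem frameP_e1 (v1 v2 : Pl) : frameP v1 v2 (1, 0) = v1 := by simp [frameP_apply]

theorem frameP_e2 (v1 v2 : Pl) : frameP v1 v2 (0, 1) = v2 := by simp [frameP_apply]

/-- The projection on `dG₀ v1`, `dG₀ v2`. -/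
noncomputable def frameA (G : Pl → R3) (v1 v2 : Pl) : R3 →L[ℝ] Pl :=
  (innerSL ℝ (fderiv ℝ G 0 v1)).prod (innerSL ℝ (fderiv ℝ G 0 v2))

/-- The properties of the frame. -/
structure Frame (s a0 : ℝ) (G : Pl → R3) (e : R3) (z : Pl → ℝ) (v1 v2 : Pl) : Prop where
  n1 : ‖fderiv ℝ G 0 v1‖ = 1
  n2 : ‖fderiv ℝ G 0 v2‖ = 1
  orth : ⟪fderiv ℝ G 0 v1, fderiv ℝ G 0 v2⟫ = 0
  perp : ∀ v, ⟪fderiv ℝ G 0 v, e⟫ = 0
  low : ∀ v, nsq v ≤ (1 + 2 * s) * nsq (frameP v1 v2 v)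
  high : ∀ v, (1 - 2 * s) * nsq (frameP v1 v2 v) ≤ nsq v
  left_inv : ∀ w, frameP v1 v2 (frameA G v1 v2 (fderiv ℝ G 0 w)) = w
  right_inv : ∀ v, frameA G v1 v2 (fderiv ℝ G 0 (frameP v1 v2 v)) = v
  norm_P : ‖frameP v1 v2‖ ≤ 2
  norm_A : ‖frameA G v1 v2‖ ≤ 1
  mixed : fderiv ℝ (fderiv ℝ z) 0 v1 v2 = 0
  pos : a0 / 8 ≤ fderiv ℝ (fderiv ℝ z) 0 v1 v1

theorem zOf_contDiffOn {k : ℕ} {s β M a0 : ℝ} {π : Pert} {G : Pl → R3} {e : R3}
    (h : IslandSol k s β M a0 π G e) : ContDiffOn ℝ k (zOf s G e) (disc 4) :=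
  (h.1.inner ℝ contDiffOn_const).div_const s

theorem IslandSol.nonneg' {k : ℕ} {s β M a0 : ℝ} {π : Pert} {G : Pl → R3} {e : R3}
    (hk : 2 ≤ k) (hs : 0 < s) (h : IslandSol k s β M a0 π G e) : 0 ≤ M := by
  have := (norm_nonneg _).trans (h.2.2.2.1 2 le_rfl hk 0 (zero_mem_disc (by norm_num)))
  simpa [hs, mul_nonneg_iff_of_pos_right] using this

theorem zOf_deriv_bound {k : ℕ} {s β M a0 : ℝ} {π : Pert} {G : Pl → R3} {e : R3}
    (hs : 0 < s) (h : IslandSol k s β M a0 π G e) {j : ℕ} (hj : 2 ≤ j) (hjk : j ≤ k) {x : Pl}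
    (hx : x ∈ disc 4) : ‖iteratedFDeriv ℝ j (zOf s G e) x‖ ≤ M * s ^ (j - 2) := by
  obtain ⟨hG, -, -, hd, hen, -, -, -⟩ := h
  set L : R3 →L[ℝ] ℝ := s⁻¹ • innerSL ℝ e with hL
  have hz : zOf s G e = L ∘ G := by
    funext y
    simp [zOf, L, real_inner_comm, div_eq_inv_mul]
  have hLn : ‖L‖ ≤ s⁻¹ := by
    rw [hL, norm_smul, innerSL_apply_norm, hen, mul_one, Real.norm_eq_abs,
      abs_of_pos (inv_pos.2 hs)]
  rw [hz]
  refine (L.norm_iteratedFDeriv_comp_left (hG.contDiffAt ((isOpen_disc 4).mem_nhds hx))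
    (mod_cast hjk)).trans ?_
  refine (mul_le_mul hLn (hd j hj hjk x hx) (norm_nonneg _) (inv_nonneg.2 hs.le)).trans_eq ?_
  rw [show j - 1 = j - 2 + 1 by omega, pow_succ]
  field_simp

theorem fderiv_fderiv_apply {f : Pl → ℝ} {x : Pl} (hd : DifferentiableAt ℝ (fderiv ℝ f) x)
    (v w : Pl) : fderiv ℝ (fun y => fderiv ℝ f y v) x w = fderiv ℝ (fderiv ℝ f) x w v := by
  rw [fderiv_clm_apply hd (differentiableAt_const v)]
  simp

/-- The Hessian of a height at `0`: symmetric, bounded by `M`, in coordinates. -/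
theorem hess_zero {k : ℕ} {s β M a0 : ℝ} {π : Pert} {G : Pl → R3} {e : R3} (hk : 2 ≤ k)
    (hs : 0 < s) (h : IslandSol k s β M a0 π G e) :
    (∀ v w, fderiv ℝ (fderiv ℝ (zOf s G e)) 0 v w = fderiv ℝ (fderiv ℝ (zOf s G e)) 0 w v) ∧
      ‖fderiv ℝ (fderiv ℝ (zOf s G e)) 0‖ ≤ M ∧
      d1 (d1 (zOf s G e)) 0 = fderiv ℝ (fderiv ℝ (zOf s G e)) 0 (1, 0) (1, 0) ∧
      d2 (d2 (zOf s G e)) 0 = fderiv ℝ (fderiv ℝ (zOf s G e)) 0 (0, 1) (0, 1) := by
  have hU := isOpen_disc 4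
  have h0 := zero_mem_disc (by norm_num : (0 : ℝ) < 4)
  have hz := (zOf_contDiffOn h).of_le (show ((2 : ℕ) : ℕ∞ω) ≤ k by exact_mod_cast hk)
  have hdd : DifferentiableAt ℝ (fderiv ℝ (zOf s G e)) 0 :=
    diffAt_of_open hU (ContDiffOn.fderivPl (k := 1) hU hz) le_rfl h0
  refine ⟨fun v w => ((hz.contDiffAt (hU.mem_nhds h0)).isSymmSndFDerivAt (by simp)).eq v w, ?_,
    fderiv_fderiv_apply hdd _ _, fderiv_fderiv_apply hdd _ _⟩
  rw [← norm_iteratedFDeriv_one, norm_iteratedFDeriv_fderiv]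
  simpa using zOf_deriv_bound hs h le_rfl hk h0

theorem islandMet_zero_near {s β : ℝ} {π : Pert} (hs : 0 < s) (hs1 : s ≤ 1) (hβ : 0 < β)
    (hβs : β ≤ s ^ 2) (hπ : ∀ i, BdOn univ 8 (β ^ 2) (π i)) :
    |(islandMet s β π).e 0 - 1| ≤ s ∧ |(islandMet s β π).f 0| ≤ s ∧
      |(islandMet s β π).g 0 - 1| ≤ s := by
  have hb : ∀ i, |s ^ 2 * π i 0| ≤ s := by
    intro i
    have h1 : |π i 0| ≤ β ^ 2 := (hπ i).norm_le (mem_univ 0)
    have h2 : β ≤ 1 := hβs.trans (pow_le_one₀ hs.le hs1)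
    have h3 : β ^ 2 ≤ 1 := pow_le_one₀ hβ.le h2
    rw [abs_mul, abs_of_nonneg (sq_nonneg s)]
    calc s ^ 2 * |π i 0| ≤ s ^ 2 * 1 :=
          mul_le_mul_of_nonneg_left (h1.trans h3) (sq_nonneg s)
      _ ≤ s := by nlinarith
  simpa [islandMet, psi, nsq] using And.intro (hb 0) (And.intro (hb 1) (hb 2))

theorem exists_frame {k : ℕ} {s β M a0 : ℝ} {π : Pert} {G : Pl → R3} {e : R3} (hk : 2 ≤ k)
    (hs : 0 < s) (hs' : s ≤ 1 / 100) (hsM : 8 * M * s ≤ a0) (ha : 0 ≤ a0) (hβ : 0 < β)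
    (hβs : β ≤ s ^ 2) (hπ : ∀ i, BdOn univ 8 (β ^ 2) (π i))
    (h : IslandSol k s β M a0 π G e) :
    ∃ v1 v2, Frame s a0 G e (zOf s G e) v1 v2 := by
  obtain ⟨hsym, hHn, hd11, hd22⟩ := hess_zero hk hs h
  obtain ⟨hE, hF, hG⟩ := islandMet_zero_near hs (by linarith) hβ hβs hπ
  obtain ⟨-, hiso, -, -, -, hp1, hp2, htr⟩ := h
  obtain ⟨i1, i2, i3⟩ := hiso 0 (zero_mem_disc (by norm_num))
  set H := fderiv ℝ (fderiv ℝ (zOf s G e)) 0
  set D := fderiv ℝ G 0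
  set E := (islandMet s β π).e 0
  set F := (islandMet s β π).f 0
  set G2 := (islandMet s β π).g 0
  have hHb : ∀ v w : Pl, ‖v‖ = 1 → ‖w‖ = 1 → |H v w| ≤ M := fun v w hv hw => by
    have := H.le_opNorm₂ v w
    rw [hv, hw, mul_one, mul_one] at this
    exact this.trans hHn
  obtain ⟨v1, v2, g11, g22, g12, hmix, hpos⟩ := exists_diag (η := s) (by linarith) hE hF hG
    (hHb _ _ norm_e1 norm_e1) (hHb _ _ norm_e1 norm_e2) (hHb _ _ norm_e2 norm_e2) hsM ha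
    (by rw [← hd11, ← hd22]; exact htr)
  have hD : ∀ v w : Pl, ⟪D v, D w⟫
      = E * (v.1 * w.1) + F * (v.1 * w.2 + v.2 * w.1) + G2 * (v.2 * w.2) := by
    intro v w
    rw [clm_apply_eq_d D v, clm_apply_eq_d D w]
    simp only [inner_add_left, inner_add_right, real_inner_smul_left, real_inner_smul_right]
    rw [real_inner_comm (D (1, 0)) (D (0, 1)), i1, i2, i3]
    ring
  have hH : ∀ v w : Pl, H v w = H (1, 0) (1, 0) * (v.1 * w.1)
      + H (1, 0) (0, 1) * (v.1 * w.2 + v.2 * w.1) + H (0, 1) (0, 1) * (v.2 * w.2) := by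
    intro v w
    rw [clm_apply_eq_d H v]
    simp only [FunLike.coe_add, FunLike.coe_smul, Pi.add_apply, Pi.smul_apply]
    rw [clm_apply_eq_d (H (1, 0)) w, clm_apply_eq_d (H (0, 1)) w, hsym (0, 1) (1, 0)]
    simp only [smul_eq_mul]
    ring
  have hP : ∀ v, ⟪D (frameP v1 v2 v), D (frameP v1 v2 v)⟫ = nsq v := by
    intro v
    rw [← hD v1 v1] at g11
    rw [← hD v2 v2] at g22
    rw [← hD v1 v2] at g12
    rw [frameP_apply, map_add, map_smul, map_smul]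
    simp only [inner_add_left, inner_add_right, real_inner_smul_left, real_inner_smul_right]
    rw [g11, g22, real_inner_comm (D v1) (D v2), g12, nsq]
    ring
  have hnear : ∀ v, |nsq v - nsq (frameP v1 v2 v)| ≤ 2 * s * nsq (frameP v1 v2 v) := fun v => by
    rw [← hP v, hD]
    exact form_near hE hF hG _
  have n1 : ‖D v1‖ = 1 := by
    rw [norm_eq_sqrt_real_inner, hD, g11, Real.sqrt_one]
  have n2 : ‖D v2‖ = 1 := by
    rw [norm_eq_sqrt_real_inner, hD, g22, Real.sqrt_one]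
  have orth : ⟪D v1, D v2⟫ = 0 := by rw [hD, g12]
  have rinv : ∀ v, frameA G v1 v2 (D (frameP v1 v2 v)) = v := by
    intro v
    rw [frameP_apply, map_add, map_smul, map_smul]
    simp only [frameA, ContinuousLinearMap.prod_apply, innerSL_apply_apply, inner_add_right,
      real_inner_smul_right]
    change (v.1 * ⟪D v1, D v1⟫ + v.2 * ⟪D v1, D v2⟫,
      v.1 * ⟪D v2, D v1⟫ + v.2 * ⟪D v2, D v2⟫) = v
    rw [real_inner_self_eq_norm_sq, real_inner_self_eq_norm_sq, n1, n2,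
      real_inner_comm (D v1) (D v2), orth]
    simp
  refine ⟨v1, v2, n1, n2, orth, fun v => ?_, fun v => ?_, fun v => ?_, fun w => ?_, rinv, ?_, ?_,
    (hH v1 v2).trans hmix, hpos.trans_eq (hH v1 v1).symm⟩
  · rw [clm_apply_eq_d D v, inner_add_left, real_inner_smul_left, real_inner_smul_left]
    have q1 : ⟪D (1, 0), e⟫ = 0 := hp1
    have q2 : ⟪D (0, 1), e⟫ = 0 := hp2
    rw [q1, q2]
    ring
  · nlinarith [abs_le.1 (hnear v)]
  · nlinarith [abs_le.1 (hnear v)]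
  · have h2 := (LinearMap.comp_eq_id_comm
      (f := ((frameA G v1 v2).comp D : Pl →ₗ[ℝ] Pl))
      (g := (frameP v1 v2 : Pl →ₗ[ℝ] Pl))).1 (LinearMap.ext rinv)
    exact LinearMap.congr_fun h2 w
  · refine ContinuousLinearMap.opNorm_le_bound _ zero_le_two fun v => ?_
    have q1 := abs_le.1 (hnear v)
    have q2 := norm_sq_le_nsq (frameP v1 v2 v)
    have q3 := nsq_le_two_norm_sq v
    refine (pow_le_pow_iff_left₀ (norm_nonneg _) (by positivity) two_ne_zero).1 ?_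
    have q4 : 0 ≤ nsq (frameP v1 v2 v) := add_nonneg (sq_nonneg _) (sq_nonneg _)
    have q5 : 2 * s * nsq (frameP v1 v2 v) ≤ 1 / 2 * nsq (frameP v1 v2 v) :=
      mul_le_mul_of_nonneg_right (by linarith) q4
    rw [show (2 * ‖v‖) ^ 2 = 4 * ‖v‖ ^ 2 by ring]
    linarith
  · rw [frameA, ContinuousLinearMap.opNorm_prod, Prod.norm_def]
    simp [innerSL_apply_norm, n1, n2, D]

end Vale.Agent.P229
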