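import Vale.Agent.P229.Core.Spec

/-!
# P229, Core: in the chart the linearised operator is `kHat (V_yy + a V_pp + a_p V_p)`

The first order terms of the covariant Hessians cancel the gradient term of the Gauss equation
exactly, so the operator is a multiple of `cof (D² u) : D²`, which the Legendre map turns into
`V_yy + a V_pp + a_p V_p`.
-/

open scoped ContDiff RealInnerProductSpace Topology
open Set Filter

namespace Vale.Agent.P229

namespace ChartId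

/-- The pointwise algebra of the graph chart. -/
theorem graph_alg {e f g p11 p12 p21 p22 u1 u2 U11 U12 U22 W1 W2 X11 X12 X22 a b c n1 n2 n3 s
    H11 H12 H22 K11 K12 K22 R : ℝ} (hs : s ≠ 0)
    (hD : p11 * p22 - p12 * p21 ≠ 0)
    (he : e = p11 * p11 + p21 * p21 + s ^ 2 * ((u1 * p11 + u2 * p21) * (u1 * p11 + u2 * p21)))
    (hf : f = p11 * p12 + p21 * p22 + s ^ 2 * ((u1 * p11 + u2 * p21) * (u1 * p12 + u2 * p22)))
    (hg : g = p12 * p12 + p22 * p22 + s ^ 2 * ((u1 * p12 + u2 * p22) * (u1 * p12 + u2 * p22)))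
    (ht1 : p11 * n1 + p21 * n2 + s * (u1 * p11 + u2 * p21) * n3 = 0)
    (ht2 : p12 * n1 + p22 * n2 + s * (u1 * p12 + u2 * p22) * n3 = 0)
    (hn : n1 * n1 + n2 * n2 + n3 * n3 = 1)
    (g11 : H11 = a * n3 / s) (g12 : H12 = b * n3 / s) (g22 : H22 = c * n3 / s)
    (z11 : H11 = U11 * p11 * p11 + 2 * U12 * p11 * p21 + U22 * p21 * p21
      + u1 * (a * n1) + u2 * (a * n2))
    (z12 : H12 = U11 * p11 * p12 + U12 * (p11 * p22 + p21 * p12) + U22 * p21 * p22
      + u1 * (b * n1) + u2 * (b * n2))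
    (z22 : H22 = U11 * p12 * p12 + 2 * U12 * p12 * p22 + U22 * p22 * p22
      + u1 * (c * n1) + u2 * (c * n2))
    (w11 : K11 = X11 * p11 * p11 + 2 * X12 * p11 * p21 + X22 * p21 * p21
      + W1 * (a * n1) + W2 * (a * n2))
    (w12 : K12 = X11 * p11 * p12 + X12 * (p11 * p22 + p21 * p12) + X22 * p21 * p22
      + W1 * (b * n1) + W2 * (b * n2))
    (w22 : K22 = X11 * p12 * p12 + 2 * X12 * p12 * p22 + X22 * p22 * p22
      + W1 * (c * n1) + W2 * (c * n2))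
    (hR : R = a * c - b ^ 2) :
    H22 * K11 + 2 * (-H12) * K12 + H11 * K22
      + R * ((g * (2 * (u1 * p11 + u2 * p21)) * (W1 * p11 + W2 * p21)
        - f * ((2 * (u1 * p11 + u2 * p21)) * (W1 * p12 + W2 * p22)
          + (2 * (u1 * p12 + u2 * p22)) * (W1 * p11 + W2 * p21))
        + e * (2 * (u1 * p12 + u2 * p22)) * (W1 * p12 + W2 * p22)) / (e * g - f ^ 2))
      = (e * g - f ^ 2) / (1 + s ^ 2 * (u1 ^ 2 + u2 ^ 2)) ^ 2
        * (U22 * X11 - 2 * U12 * X12 + U11 * X22) := by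
  set D := p11 * p22 - p12 * p21 with hDdef
  set S := 1 + s ^ 2 * (u1 ^ 2 + u2 ^ 2) with hSdef
  have hn1 : n1 = -(s * u1 * n3) := by
    have : (n1 + s * u1 * n3) * D = 0 := by
      rw [hDdef]; linear_combination p22 * ht1 - p21 * ht2
    linarith [(mul_eq_zero.1 this).resolve_right hD]
  have hn2 : n2 = -(s * u2 * n3) := by
    have : (n2 + s * u2 * n3) * D = 0 := by
      rw [hDdef]; linear_combination p11 * ht2 - p12 * ht1
    linarith [(mul_eq_zero.1 this).resolve_right hD]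
  subst hn1 hn2
  have hS0 : 0 < S := by positivity
  have h3 : n3 ^ 2 * S = 1 := by rw [hSdef]; linear_combination hn
  have hn30 : n3 ≠ 0 := fun h => by simp [h] at h3
  have hdet : e * g - f ^ 2 = D ^ 2 * S := by rw [he, hf, hg, hDdef, hSdef]; ring
  have ha : a = H11 * s / n3 := by rw [g11]; field_simp
  have hb : b = H12 * s / n3 := by rw [g12]; field_simp
  have hc : c = H22 * s / n3 := by rw [g22]; field_simp
  have hnum : g * (2 * (u1 * p11 + u2 * p21)) * (W1 * p11 + W2 * p21)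
        - f * ((2 * (u1 * p11 + u2 * p21)) * (W1 * p12 + W2 * p22)
          + (2 * (u1 * p12 + u2 * p22)) * (W1 * p11 + W2 * p21))
        + e * (2 * (u1 * p12 + u2 * p22)) * (W1 * p12 + W2 * p22)
      = 2 * D ^ 2 * (u1 * W1 + u2 * W2) := by rw [he, hf, hg, hDdef]; ring
  rw [hnum, hdet]
  set q11 := U11 * p11 * p11 + 2 * U12 * p11 * p21 + U22 * p21 * p21 with hq11
  set q12 := U11 * p11 * p12 + U12 * (p11 * p22 + p21 * p12) + U22 * p21 * p22 with hq12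
  set q22 := U11 * p12 * p12 + 2 * U12 * p12 * p22 + U22 * p22 * p22 with hq22
  have s11 : H11 * S = q11 := by
    rw [ha] at z11; field_simp at z11; rw [hSdef]; linear_combination z11
  have s12 : H12 * S = q12 := by
    rw [hb] at z12; field_simp at z12; rw [hSdef]; linear_combination z12
  have s22 : H22 * S = q22 := by
    rw [hc] at z22; field_simp at z22; rw [hSdef]; linear_combination z22
  have hR' : R = s ^ 2 * S * (H11 * H22 - H12 ^ 2) := by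
    rw [hR, ha, hb, hc]; field_simp; linear_combination (-(H11 * H22 - H12 ^ 2)) * h3
  have k11 : K11 = X11 * p11 * p11 + 2 * X12 * p11 * p21 + X22 * p21 * p21
      - s ^ 2 * (u1 * W1 + u2 * W2) * H11 := by rw [w11, ha]; field_simp; ring
  have k12 : K12 = X11 * p11 * p12 + X12 * (p11 * p22 + p21 * p12) + X22 * p21 * p22
      - s ^ 2 * (u1 * W1 + u2 * W2) * H12 := by rw [w12, hb]; field_simp; ring
  have k22 : K22 = X11 * p12 * p12 + 2 * X12 * p12 * p22 + X22 * p22 * p22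
      - s ^ 2 * (u1 * W1 + u2 * W2) * H22 := by rw [w22, hc]; field_simp; ring
  rw [k11, k12, k22, hR']
  field_simp
  rw [← s11.symm.trans s11] at *
  linear_combination (X11 * p11 * p11 + 2 * X12 * p11 * p21 + X22 * p21 * p21) * s22
    - 2 * (X11 * p11 * p12 + X12 * (p11 * p22 + p21 * p12) + X22 * p21 * p22) * s12
    + (X11 * p12 * p12 + 2 * X12 * p12 * p22 + X22 * p22 * p22) * s11

/-- The Legendre map turns `cof (D² u) : D²` into the divergence form. -/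
theorem legendre_alg {α U11 U12 U22 U111 U112 U122 Vp Vpp Vpy Vyy W11 W12 W22 ap : ℝ}
    (hα : α ≠ 0) (hU : U11 ≠ 0)
    (h11 : W11 = Vpp * (U11 / α) * (U11 / α) + Vp * (U111 / α))
    (h12 : W12 = Vpp * (U11 / α) * (U12 / α) + Vpy * (U11 / α) + Vp * (U112 / α))
    (h22 : W22 = Vpp * (U12 / α) * (U12 / α) + 2 * Vpy * (U12 / α) + Vyy + Vp * (U122 / α))
    (hap : ap = (U111 * U22 + U11 * U122 - 2 * U12 * U112) * (α / U11) / α ^ 2) :
    U22 * W11 - 2 * U12 * W12 + U11 * W22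
      = U11 * (Vyy + (U11 * U22 - U12 ^ 2) / α ^ 2 * Vpp + ap * Vp) := by
  rw [h11, h12, h22, hap]
  field_simp
  ring

theorem d1_eq (f : Pl → ℝ) : d1 f = fun y => fderiv ℝ f y (1, 0) := rfl

theorem d2_eq (f : Pl → ℝ) : d2 f = fun y => fderiv ℝ f y (0, 1) := rfl

theorem apply_eq (L : Pl →L[ℝ] ℝ) (a : Pl) : L a = L (1, 0) * a.1 + L (0, 1) * a.2 := by
  conv_lhs => rw [show a = a.1 • ((1, 0) : Pl) + a.2 • ((0, 1) : Pl) by ext <;> simp]
  rw [map_add, map_smul, map_smul, smul_eq_mul, smul_eq_mul, mul_comm a.1, mul_comm a.2]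

/-- Chain rule along a map into the plane given by its two components. -/
theorem dir_comp {W : Pl → ℝ} {p1 p2 : Pl → ℝ} {x : Pl}
    (hW : DifferentiableAt ℝ W (p1 x, p2 x)) (h1 : DifferentiableAt ℝ p1 x)
    (h2 : DifferentiableAt ℝ p2 x) (v : Pl) :
    fderiv ℝ (fun y => W (p1 y, p2 y)) x v
      = d1 W (p1 x, p2 x) * fderiv ℝ p1 x v + d2 W (p1 x, p2 x) * fderiv ℝ p2 x v := by
  have h := hW.hasFDerivAt.comp x (h1.hasFDerivAt.prodMk h2.hasFDerivAt)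
  rw [show (fun y => W (p1 y, p2 y)) = W ∘ fun y => (p1 y, p2 y) from rfl, h.fderiv,
    ContinuousLinearMap.comp_apply, apply_eq (fderiv ℝ W _)]
  rfl

theorem contDiffAt_dir {n m : ℕ} {f : Pl → ℝ} {x : Pl} (hf : ContDiffAt ℝ m f x) (hnm : n + 1 ≤ m)
    (v : Pl) : ContDiffAt ℝ n (fun y => fderiv ℝ f y v) x :=
  (hf.fderiv_right (by exact_mod_cast hnm)).clm_apply contDiffAt_const

theorem differentiableAt_dir {f : Pl → ℝ} {x : Pl} (hf : ContDiffAt ℝ 2 f x) (v : Pl) :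
    DifferentiableAt ℝ (fun y => fderiv ℝ f y v) x :=
  (contDiffAt_dir (n := 1) (m := 2) hf le_rfl v).differentiableAt (by simp)

/-- Second order chain rule along a map into the plane. -/
theorem dir2_comp {W : Pl → ℝ} {p1 p2 : Pl → ℝ} {x : Pl} (hW : ContDiffAt ℝ 2 W (p1 x, p2 x))
    (h1 : ContDiffAt ℝ 2 p1 x) (h2 : ContDiffAt ℝ 2 p2 x) (v w : Pl) :
    fderiv ℝ (fun y => fderiv ℝ (fun y => W (p1 y, p2 y)) y v) x w
      = (d1 (d1 W) (p1 x, p2 x) * fderiv ℝ p1 x w + d2 (d1 W) (p1 x, p2 x) * fderiv ℝ p2 x w)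
          * fderiv ℝ p1 x v
        + d1 W (p1 x, p2 x) * fderiv ℝ (fun y => fderiv ℝ p1 y v) x w
        + (d1 (d2 W) (p1 x, p2 x) * fderiv ℝ p1 x w + d2 (d2 W) (p1 x, p2 x) * fderiv ℝ p2 x w)
          * fderiv ℝ p2 x v
        + d2 W (p1 x, p2 x) * fderiv ℝ (fun y => fderiv ℝ p2 y v) x w := by
  have hc : ContinuousAt (fun y => (p1 y, p2 y)) x := (h1.prodMk h2).continuousAt
  have hev : (fun y => fderiv ℝ (fun y => W (p1 y, p2 y)) y v) =ᶠ[𝓝 x] fun y =>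
      d1 W (p1 y, p2 y) * fderiv ℝ p1 y v + d2 W (p1 y, p2 y) * fderiv ℝ p2 y v := by
    filter_upwards [hc.eventually (hW.eventually (by simp)), h1.eventually (by simp),
      h2.eventually (by simp)] with y a b c
    exact dir_comp (a.differentiableAt (by simp)) (b.differentiableAt (by simp))
      (c.differentiableAt (by simp)) v
  have hd : ∀ i : Pl, DifferentiableAt ℝ (fun y => fderiv ℝ W (p1 y, p2 y) i) x := fun i =>
    DifferentiableAt.comp x (g := fun X => fderiv ℝ W X i) (differentiableAt_dir hW i)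
      ((h1.prodMk h2).differentiableAt (by simp))
  have h1' := h1.differentiableAt (by simp)
  have h2' := h2.differentiableAt (by simp)
  have a1 : DifferentiableAt ℝ (fun y => d1 W (p1 y, p2 y)) x := hd (1, 0)
  have a2 : DifferentiableAt ℝ (fun y => d2 W (p1 y, p2 y)) x := hd (0, 1)
  have b1 := differentiableAt_dir h1 v
  have b2 := differentiableAt_dir h2 v
  rw [hev.fderiv_eq, fderiv_fun_add (a1.fun_mul b1) (a2.fun_mul b2), add_apply,
    fderiv_fun_mul a1 b1, fderiv_fun_mul a2 b2]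
  simp only [add_apply, smul_apply, smul_eq_mul]
  rw [dir_comp (W := d1 W) (differentiableAt_dir hW (1, 0)) h1' h2' w,
    dir_comp (W := d2 W) (differentiableAt_dir hW (0, 1)) h1' h2' w]
  ring

theorem dir_symm {f : Pl → ℝ} {x : Pl} (hf : ContDiffAt ℝ 2 f x) :
    d2 (d1 f) x = d1 (d2 f) x := by
  have hd : DifferentiableAt ℝ (fderiv ℝ f) x :=
    (hf.fderiv_right (m := 1) le_rfl).differentiableAt (by simp)
  have key : ∀ v w : Pl, fderiv ℝ (fun y => fderiv ℝ f y v) x w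
      = fderiv ℝ (fderiv ℝ f) x w v := fun v w => by
    rw [fderiv_clm_apply hd (differentiableAt_const v)]
    simp
  show fderiv ℝ (fun y => fderiv ℝ f y (1, 0)) x (0, 1)
    = fderiv ℝ (fun y => fderiv ℝ f y (0, 1)) x (1, 0)
  rw [key, key]
  exact (hf.isSymmSndFDerivAt (by simp)).eq _ _

theorem inner_split {e1 e2 e : R3} (h1 : ‖e1‖ = 1) (h2 : ‖e2‖ = 1) (he : ‖e‖ = 1)
    (h12 : ⟪e1, e2⟫ = 0) (h1e : ⟪e1, e⟫ = 0) (h2e : ⟪e2, e⟫ = 0) (v w : R3) :
    ⟪v, w⟫ = ⟪v, e1⟫ * ⟪w, e1⟫ + ⟪v, e2⟫ * ⟪w, e2⟫ + ⟪v, e⟫ * ⟪w, e⟫ := by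
  have hon : Orthonormal ℝ ![e1, e2, e] := by
    rw [orthonormal_iff_ite]
    intro i j
    fin_cases i <;> fin_cases j <;>
      simp [h1, h2, he, h12, h1e, h2e, real_inner_comm e1 e2, real_inner_comm e1 e,
        real_inner_comm e2 e]
  let B := OrthonormalBasis.mk hon
    (hon.linearIndependent.span_eq_top_of_card_eq_finrank (by simp)).ge
  have hB : ∀ i, B i = ![e1, e2, e] i := fun i => by simp [B]
  rw [← B.sum_inner_mul_inner v w, Fin.sum_univ_three, hB, hB, hB, real_inner_comm e1 w,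
    real_inner_comm e2 w, real_inner_comm e w]
  rfl

theorem dir_inner {G : Pl → R3} {x : Pl} (hG : DifferentiableAt ℝ G x) (a : R3) (v : Pl) :
    fderiv ℝ (fun y => ⟪G y, a⟫) x v = ⟪fderiv ℝ G x v, a⟫ := by
  rw [fderiv_inner_apply ℝ hG (differentiableAt_const a)]
  simp

theorem disc_isOpen (R : ℝ) : IsOpen (disc R) :=
  isOpen_lt (by unfold nsq; fun_prop) continuous_const

theorem disc_sub {a b : ℝ} (h : a ^ 2 ≤ b ^ 2) : disc a ⊆ disc b :=
  fun _ hx => lt_of_lt_of_le hx h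

/-- The linearised operator along the projection is a multiple of `cof (D² u) : D²`, exactly. -/
theorem graph_op {k : ℕ} (hG : GaussSpec) (hk : 3 ≤ k) {s β M a0 C : ℝ} {π : Pert} {G : Pl → R3}
    {e : R3} {ch : Chart} (hs : 0 < s) (hsol : IslandSol k s β M a0 π G e) (hOK : ch.OK s C G e)
    {W : Pl → ℝ} {x0 : Pl} (hxU : x0 ∈ disc (29 / 10))
    (hWc : ContDiffAt ℝ 2 W (ch.proj G x0)) :
    lop (islandMet s β π) ((islandMet s β π).h22 (zOf s G e))
        (fun x => -(islandMet s β π).h12 (zOf s G e) x) ((islandMet s β π).h11 (zOf s G e))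
        (fun x => 2 * zOf s G e x) (fun x => W (ch.proj G x)) x0
      = (islandMet s β π).det x0 / (1 + s ^ 2 * (d1 (ch.u s G e) (ch.proj G x0) ^ 2
          + d2 (ch.u s G e) (ch.proj G x0) ^ 2)) ^ 2
        * (d2 (d2 (ch.u s G e)) (ch.proj G x0) * d1 (d1 W) (ch.proj G x0)
          - 2 * d1 (d2 (ch.u s G e)) (ch.proj G x0) * d1 (d2 W) (ch.proj G x0)
          + d1 (d1 (ch.u s G e)) (ch.proj G x0) * d2 (d2 W) (ch.proj G x0)) := by
  obtain ⟨hGs, hiso, -, -, he, -, -, -⟩ := hsol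
  obtain ⟨he1, he2, he12, he1e, he2e, -, -, -, -, -, -, -, -, hΦc, hu, -, -, -, -, -, -, -, hPΦ,
    -⟩ := hOK
  set m := islandMet s β π with hm
  set z := zOf s G e with hz
  set u := ch.u s G e with hu_def
  set X0 := ch.proj G x0 with hX0
  have hX3 : X0 ∈ disc 3 := (hPΦ x0 hxU).1
  have hPx0 : ch.proj G x0 = X0 := rfl
  set w : Pl → ℝ := fun x => W (ch.proj G x) with hw
  set U := disc (29 / 10) with hU
  have hUo : IsOpen U := disc_isOpen _
  have hU4 : U ⊆ disc 4 := disc_sub (by norm_num)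
  have hG3 : ∀ x ∈ U, ContDiffAt ℝ 3 G x := fun x hx =>
    (hGs.contDiffAt ((disc_isOpen 4).mem_nhds (hU4 hx))).of_le (by exact_mod_cast (by omega : 3 ≤ k))
  set p1 : Pl → ℝ := fun x => ⟪G x, ch.e1⟫ with hp1
  set p2 : Pl → ℝ := fun x => ⟪G x, ch.e2⟫ with hp2
  have hzx : ∀ x, z x = s⁻¹ * ⟪G x, e⟫ := fun x => by
    rw [hz, zOf, div_eq_inv_mul]
  have hp1c : ∀ x ∈ U, ContDiffAt ℝ 3 p1 x := fun x hx =>
    (hG3 x hx).inner ℝ contDiffAt_const
  have hp2c : ∀ x ∈ U, ContDiffAt ℝ 3 p2 x := fun x hx =>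
    (hG3 x hx).inner ℝ contDiffAt_const
  have huc : ∀ X ∈ disc 3, ContDiffAt ℝ 3 u X := fun X hX =>
    (hu.contDiffAt ((disc_isOpen 3).mem_nhds hX)).of_le (by norm_num)
  have hzu : ∀ x ∈ U, z =ᶠ[𝓝 x] fun y => u (p1 y, p2 y) := fun x hx => by
    filter_upwards [hUo.mem_nhds hx] with y hy
    exact (congrArg z (hPΦ y hy).2).symm
  have hGi : ∀ x ∈ U, ∀ v, ⟪fderiv ℝ G x v, ch.e1⟫ = fderiv ℝ p1 x v ∧
      ⟪fderiv ℝ G x v, ch.e2⟫ = fderiv ℝ p2 x v ∧
      ⟪fderiv ℝ G x v, e⟫ = s * (d1 u (p1 x, p2 x) * fderiv ℝ p1 x v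
        + d2 u (p1 x, p2 x) * fderiv ℝ p2 x v) := fun x hx v => by
    have hd := (hG3 x hx).differentiableAt (by simp)
    refine ⟨(dir_inner hd _ v).symm, (dir_inner hd _ v).symm, ?_⟩
    have h := (hzu x hx).fderiv_eq (𝕜 := ℝ)
    rw [← dir_comp ((huc _ (hPΦ x hx).1).differentiableAt (by simp))
      ((hp1c x hx).differentiableAt (by simp)) ((hp2c x hx).differentiableAt (by simp)), ← h,
      funext hzx, fderiv_const_mul (hd.inner ℝ (differentiableAt_const e)),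
      smul_apply, dir_inner hd, smul_eq_mul, ← mul_assoc,
      mul_inv_cancel₀ hs.ne', one_mul]
  have hmet : ∀ x ∈ U,
      let z1 := d1 u (p1 x, p2 x) * d1 p1 x + d2 u (p1 x, p2 x) * d1 p2 x
      let z2 := d1 u (p1 x, p2 x) * d2 p1 x + d2 u (p1 x, p2 x) * d2 p2 x
      m.e x = d1 p1 x * d1 p1 x + d1 p2 x * d1 p2 x + s ^ 2 * (z1 * z1) ∧
      m.f x = d1 p1 x * d2 p1 x + d1 p2 x * d2 p2 x + s ^ 2 * (z1 * z2) ∧
      m.g x = d2 p1 x * d2 p1 x + d2 p2 x * d2 p2 x + s ^ 2 * (z2 * z2) := fun x hx => by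
    obtain ⟨he', hf', hg'⟩ := hiso x (hU4 hx)
    obtain ⟨a1, b1, c1⟩ := hGi x hx (1, 0)
    obtain ⟨a2, b2, c2⟩ := hGi x hx (0, 1)
    refine ⟨?_, ?_, ?_⟩
    · rw [← he', inner_split he1 he2 he he12 he1e he2e, a1, b1, c1]; simp only [d1, d2]; ring
    · rw [← hf', inner_split he1 he2 he he12 he1e he2e, a1, b1, c1, a2, b2, c2]
      simp only [d1, d2]; ring
    · rw [← hg', inner_split he1 he2 he he12 he1e he2e, a2, b2, c2]; simp only [d1, d2]; ring
  have hDne : ∀ x ∈ U, d1 p1 x * d2 p2 x - d2 p1 x * d1 p2 x ≠ 0 := fun x hx h0 => by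
    have hev : (fun y => ch.Φ (p1 y, p2 y)) =ᶠ[𝓝 x] id := by
      filter_upwards [hUo.mem_nhds hx] with y hy using (hPΦ y hy).2
    have hΦ : DifferentiableAt ℝ ch.Φ (p1 x, p2 x) :=
      (hΦc.contDiffAt ((disc_isOpen 3).mem_nhds (hPΦ x hx).1)).differentiableAt (by simp)
    have hp := ((hp1c x hx).prodMk (hp2c x hx)).differentiableAt (by simp)
    have hid := hev.fderiv_eq (𝕜 := ℝ)
    rw [fderiv_id, show (fun y => ch.Φ (p1 y, p2 y)) = ch.Φ ∘ fun y => (p1 y, p2 y) from rfl,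
      fderiv_comp x hΦ hp] at hid
    have hinj : Function.Injective (fderiv ℝ (fun y => (p1 y, p2 y)) x) := fun v w hvw => by
      have := congrArg (fun L : Pl →L[ℝ] Pl => L v - L w) hid
      simpa [hvw, sub_eq_zero] using this.symm
    rw [((hp1c x hx).differentiableAt (by simp)).fderiv_prodMk
      ((hp2c x hx).differentiableAt (by simp))] at hinj
    have k1 : ((d2 p1 x, -d1 p1 x) : Pl) = 0 := hinj (by
      rw [map_zero]
      ext <;> simp only [ContinuousLinearMap.prod_apply, Prod.fst_zero, Prod.snd_zero] <;>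
        rw [apply_eq] <;> simp only [d1, d2] at h0 ⊢ <;> linarith)
    have k2 : ((d2 p2 x, -d1 p2 x) : Pl) = 0 := hinj (by
      rw [map_zero]
      ext <;> simp only [ContinuousLinearMap.prod_apply, Prod.fst_zero, Prod.snd_zero] <;>
        rw [apply_eq] <;> simp only [d1, d2] at h0 ⊢ <;> linarith)
    simp only [Prod.mk_eq_zero, neg_eq_zero] at k1 k2
    have k3 : ((1, 0) : Pl) = 0 := hinj (by
      rw [map_zero]
      ext <;> simp [ContinuousLinearMap.prod_apply] <;> [exact k1.2; exact k2.2])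
    simp at k3
  have hdetpos : ∀ x ∈ U, 0 < m.det x := fun x hx => by
    obtain ⟨a, b, c⟩ := hmet x hx
    have hne := hDne x hx
    rw [Met.det, a, b, c]
    have : 0 < (d1 p1 x * d2 p2 x - d2 p1 x * d1 p2 x) ^ 2
        * (1 + s ^ 2 * (d1 u (p1 x, p2 x) ^ 2 + d2 u (p1 x, p2 x) ^ 2)) := by positivity
    refine lt_of_lt_of_eq this ?_
    ring
  obtain ⟨n, a, b, c, -, hgauss⟩ := hG m U G hUo
    (fun x hx => (hG3 x hx).contDiffWithinAt) (fun x hx => hiso x (hU4 hx)) hdetpos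
  obtain ⟨hn, hn1, hn2, hR, hh⟩ := hgauss x0 hxU
  obtain ⟨gz11, gz12, gz22, -⟩ := hh s e hs.ne'
  obtain ⟨ga11, ga12, ga22, -⟩ := hh 1 ch.e1 one_ne_zero
  obtain ⟨gb11, gb12, gb22, -⟩ := hh 1 ch.e2 one_ne_zero
  have hP : (p1 x0, p2 x0) = X0 := hPx0
  have hu0 : ContDiffAt ℝ 3 u X0 := huc X0 hX3
  have hwW : w = fun y => W (p1 y, p2 y) := rfl
  have q1 := (hp1c x0 hxU).of_le (m := 2) (by norm_num)
  have q2 := (hp2c x0 hxU).of_le (m := 2) (by norm_num)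
  have hX : ∀ {F : Pl → ℝ}, ContDiffAt ℝ 2 F X0 → ∀ v w : Pl,
      fderiv ℝ (fun y => fderiv ℝ (fun y => F (p1 y, p2 y)) y v) x0 w
        = (d1 (d1 F) X0 * fderiv ℝ p1 x0 w + d2 (d1 F) X0 * fderiv ℝ p2 x0 w) * fderiv ℝ p1 x0 v
          + d1 F X0 * fderiv ℝ (fun y => fderiv ℝ p1 y v) x0 w
          + (d1 (d2 F) X0 * fderiv ℝ p1 x0 w + d2 (d2 F) X0 * fderiv ℝ p2 x0 w) * fderiv ℝ p2 x0 v
          + d2 F X0 * fderiv ℝ (fun y => fderiv ℝ p2 y v) x0 w := by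
    intro F hF v w
    have h := dir2_comp (W := F) (hP.symm ▸ hF) q1 q2 v w
    rw [hP] at h
    exact h
  have hX1 : ∀ {F : Pl → ℝ}, ContDiffAt ℝ 2 F X0 → ∀ v : Pl,
      fderiv ℝ (fun y => F (p1 y, p2 y)) x0 v
        = d1 F X0 * fderiv ℝ p1 x0 v + d2 F X0 * fderiv ℝ p2 x0 v := by
    intro F hF v
    have h := dir_comp (W := F) ((hP.symm ▸ hF : ContDiffAt ℝ 2 F _).differentiableAt (by simp))
      (q1.differentiableAt (by simp)) (q2.differentiableAt (by simp)) v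
    rw [hP] at h
    exact h
  have hu2 : ContDiffAt ℝ 2 u X0 := hu0.of_le (by norm_num)
  have hz1 : ∀ v, fderiv ℝ z x0 v = fderiv ℝ (fun y => u (p1 y, p2 y)) x0 v := fun v => by
    rw [(hzu x0 hxU).fderiv_eq]
  have hz2 : ∀ v w, fderiv ℝ (fun y => fderiv ℝ z y v) x0 w
      = fderiv ℝ (fun y => fderiv ℝ (fun y => u (p1 y, p2 y)) y v) x0 w := fun v w => by
    have h : (fun y => fderiv ℝ z y v) =ᶠ[𝓝 x0]
        fun y => fderiv ℝ (fun y => u (p1 y, p2 y)) y v :=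
      ((hzu x0 hxU).fderiv (𝕜 := ℝ)).mono fun y hy => by simp only [hy]
    rw [h.fderiv_eq]
  have t := fun v => inner_split he1 he2 he he12 he1e he2e (fderiv ℝ G x0 v) (n x0)
  have ht1 : d1 p1 x0 * ⟪n x0, ch.e1⟫ + d1 p2 x0 * ⟪n x0, ch.e2⟫
      + s * (d1 u X0 * d1 p1 x0 + d2 u X0 * d1 p2 x0) * ⟪n x0, e⟫ = 0 := by
    obtain ⟨a1, b1, c1⟩ := hGi x0 hxU (1, 0)
    rw [hP] at c1
    have h := t (1, 0)
    rw [a1, b1, c1] at h
    simp only [d1] at hn1 h ⊢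
    linarith
  have ht2 : d2 p1 x0 * ⟪n x0, ch.e1⟫ + d2 p2 x0 * ⟪n x0, ch.e2⟫
      + s * (d1 u X0 * d2 p1 x0 + d2 u X0 * d2 p2 x0) * ⟪n x0, e⟫ = 0 := by
    obtain ⟨a2, b2, c2⟩ := hGi x0 hxU (0, 1)
    rw [hP] at c2
    have h := t (0, 1)
    rw [a2, b2, c2] at h
    simp only [d2] at hn2 h ⊢
    linarith
  have hnn : ⟪n x0, ch.e1⟫ * ⟪n x0, ch.e1⟫ + ⟪n x0, ch.e2⟫ * ⟪n x0, ch.e2⟫
      + ⟪n x0, e⟫ * ⟪n x0, e⟫ = 1 := by
    rw [← inner_split he1 he2 he he12 he1e he2e, real_inner_self_eq_norm_sq, hn, one_pow]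
  obtain ⟨me, mf, mg⟩ := hmet x0 hxU
  rw [hP] at me mf mg
  have hzp1 : zOf 1 G ch.e1 = p1 := funext fun x => div_one _
  have hzp2 : zOf 1 G ch.e2 = p2 := funext fun x => div_one _
  rw [hzp1] at ga11 ga12 ga22
  rw [hzp2] at gb11 gb12 gb22
  simp only [div_one, Met.h11, Met.h12, Met.h22] at ga11 ga12 ga22 gb11 gb12 gb22
  have su : d2 (d1 u) X0 = d1 (d2 u) X0 := dir_symm hu2
  have sW : d2 (d1 W) X0 = d1 (d2 W) X0 := dir_symm hWc
  have key := graph_alg (e := m.e x0) (f := m.f x0) (g := m.g x0) (p11 := d1 p1 x0)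
    (p12 := d2 p1 x0) (p21 := d1 p2 x0) (p22 := d2 p2 x0) (u1 := d1 u X0) (u2 := d2 u X0)
    (U11 := d1 (d1 u) X0) (U12 := d1 (d2 u) X0) (U22 := d2 (d2 u) X0)
    (W1 := d1 W X0) (W2 := d2 W X0) (X11 := d1 (d1 W) X0) (X12 := d1 (d2 W) X0)
    (X22 := d2 (d2 W) X0) (K11 := m.h11 w x0) (K12 := m.h12 w x0) (K22 := m.h22 w x0)
    (R := m.rcur x0) hs.ne' (hDne x0 hxU) me mf mg ht1 ht2 hnn gz11 gz12 gz22
    (by
      simp only [← hz, Met.h11, d1_eq, d2_eq, hz1, hz2, hX hu2, hX1 hu2] at ga11 gb11 su ⊢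
      linear_combination fderiv ℝ u X0 (1, 0) * ga11 + fderiv ℝ u X0 (0, 1) * gb11
        + fderiv ℝ p1 x0 (1, 0) * fderiv ℝ p2 x0 (1, 0) * su)
    (by
      simp only [← hz, Met.h12, d1_eq, d2_eq, hz1, hz2, hX hu2, hX1 hu2] at ga12 gb12 su ⊢
      linear_combination fderiv ℝ u X0 (1, 0) * ga12 + fderiv ℝ u X0 (0, 1) * gb12
        + fderiv ℝ p1 x0 (0, 1) * fderiv ℝ p2 x0 (1, 0) * su)
    (by
      simp only [← hz, Met.h22, d1_eq, d2_eq, hz1, hz2, hX hu2, hX1 hu2] at ga22 gb22 su ⊢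
      linear_combination fderiv ℝ u X0 (1, 0) * ga22 + fderiv ℝ u X0 (0, 1) * gb22
        + fderiv ℝ p1 x0 (0, 1) * fderiv ℝ p2 x0 (0, 1) * su)
    (by
      simp only [hwW, Met.h11, d1_eq, d2_eq, hX hWc, hX1 hWc] at ga11 gb11 sW ⊢
      linear_combination fderiv ℝ W X0 (1, 0) * ga11 + fderiv ℝ W X0 (0, 1) * gb11
        + fderiv ℝ p1 x0 (1, 0) * fderiv ℝ p2 x0 (1, 0) * sW)
    (by
      simp only [hwW, Met.h12, d1_eq, d2_eq, hX hWc, hX1 hWc] at ga12 gb12 sW ⊢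
      linear_combination fderiv ℝ W X0 (1, 0) * ga12 + fderiv ℝ W X0 (0, 1) * gb12
        + fderiv ℝ p1 x0 (0, 1) * fderiv ℝ p2 x0 (1, 0) * sW)
    (by
      simp only [hwW, Met.h22, d1_eq, d2_eq, hX hWc, hX1 hWc] at ga22 gb22 sW ⊢
      linear_combination fderiv ℝ W X0 (1, 0) * ga22 + fderiv ℝ W X0 (0, 1) * gb22
        + fderiv ℝ p1 x0 (0, 1) * fderiv ℝ p2 x0 (0, 1) * sW)
    hR.symm
  have hZ : ∀ v, fderiv ℝ (fun x => 2 * z x) x0 v
      = 2 * (d1 u X0 * fderiv ℝ p1 x0 v + d2 u X0 * fderiv ℝ p2 x0 v) := fun v => by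
    have hzd : DifferentiableAt ℝ z x0 := by
      rw [funext hzx]
      exact (((hG3 x0 hxU).differentiableAt (by simp)).inner ℝ
        (differentiableAt_const e)).const_mul _
    rw [fderiv_const_mul hzd, smul_apply, smul_eq_mul, hz1, hX1 hu2]
  have hw1 : ∀ v, fderiv ℝ w x0 v = d1 W X0 * fderiv ℝ p1 x0 v + d2 W X0 * fderiv ℝ p2 x0 v :=
    fun v => by rw [hwW, hX1 hWc]
  rw [Met.det, ← key, lop, Met.gradIP, Met.det]
  simp only [d1_eq, d2_eq, hZ, hw1]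
  ring

/-- The Gauss equation in the graph chart. -/
theorem det_hess {k : ℕ} (hG : GaussSpec) (hk : 3 ≤ k) {s β M a0 C : ℝ} {π : Pert} {G : Pl → R3}
    {e : R3} {ch : Chart} (hs : 0 < s) (hsol : IslandSol k s β M a0 π G e) (hOK : ch.OK s C G e)
    {x : Pl} (hx : x ∈ disc (29 / 10)) (hpos : ∀ y ∈ disc (29 / 10), 0 < (islandMet s β π).det y) :
    (islandMet s β π).det x * (d1 (d1 (ch.u s G e)) (ch.proj G x) * d2 (d2 (ch.u s G e)) (ch.proj G x)
        - d1 (d2 (ch.u s G e)) (ch.proj G x) ^ 2)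
      = (islandMet s β π).rcur x / s ^ 2 * (1 + s ^ 2 * (d1 (ch.u s G e) (ch.proj G x) ^ 2
          + d2 (ch.u s G e) (ch.proj G x) ^ 2)) ^ 2 := by
  set m := islandMet s β π with hm
  set z := zOf s G e with hz
  set u := ch.u s G e with hu_def
  set X := ch.proj G x with hX
  obtain ⟨-, -, -, -, -, -, -, -, -, -, -, -, -, -, hu, -, -, -, -, -, -, -, hPΦ, -⟩ := id hOK
  obtain ⟨hGs, hiso, -, -, he, -, -, -⟩ := id hsol
  have huc : ContDiffAt ℝ 2 u X :=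
    (hu.contDiffAt ((disc_isOpen 3).mem_nhds (hPΦ x hx).1)).of_le (by norm_num)
  have hop := graph_op hG hk hs hsol hOK hx (W := u) huc
  have hev : (fun y => u (ch.proj G y)) =ᶠ[𝓝 x] z := by
    filter_upwards [(disc_isOpen _).mem_nhds hx] with y hy
    exact congrArg z (hPΦ y hy).2
  have e1 : ∀ v, fderiv ℝ (fun y => u (ch.proj G y)) x v = fderiv ℝ z x v := fun v => by
    rw [hev.fderiv_eq]
  have e2 : ∀ v w, fderiv ℝ (fun y => fderiv ℝ (fun y => u (ch.proj G y)) y v) x w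
      = fderiv ℝ (fun y => fderiv ℝ z y v) x w := fun v w => by
    have h : (fun y => fderiv ℝ (fun y => u (ch.proj G y)) y v) =ᶠ[𝓝 x]
        fun y => fderiv ℝ z y v :=
      (hev.fderiv (𝕜 := ℝ)).mono fun y hy => by simp only [hy]
    rw [h.fderiv_eq]
  have hsub : disc (29 / 10) ⊆ disc 4 := disc_sub (by norm_num)
  obtain ⟨n, a, b, c, -, hg⟩ := hG m (disc (29 / 10)) G (disc_isOpen _)
    ((hGs.mono hsub).of_le (by exact_mod_cast hk)) (fun y hy => hiso y (hsub hy)) hpos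
  obtain ⟨-, -, -, hR, hh⟩ := hg x hx
  obtain ⟨g11, g12, g22, hgr⟩ := hh s e hs.ne'
  have hd : fderiv ℝ (fun y => 2 * z y) x = (2 : ℝ) • fderiv ℝ z x := by
    refine fderiv_const_mul ?_ 2
    have h : DifferentiableAt ℝ (fun y => ⟪G y, e⟫) x :=
      (((hGs.contDiffAt ((disc_isOpen 4).mem_nhds (hsub hx))).differentiableAt
        (by exact_mod_cast (by omega : k ≠ 0))).inner ℝ (differentiableAt_const e))
    show DifferentiableAt ℝ (fun y => ⟪G y, e⟫ / s) x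
    simpa only [div_eq_mul_inv] using h.mul_const s⁻¹
  rw [he, one_pow] at hgr
  have hL : lop m (m.h22 z) (fun x => -m.h12 z x) (m.h11 z) (fun x => 2 * z x)
      (fun y => u (ch.proj G y)) x
      = 2 * (m.h11 z x * m.h22 z x - m.h12 z x ^ 2) + m.rcur x * (2 * m.gradSq z x) := by
    simp only [lop, Met.gradIP, Met.gradSq, Met.h11, Met.h12, Met.h22, d1_eq, d2_eq, e1, e2, hd,
      smul_apply, smul_eq_mul]
    ring
  rw [hL, g11, g12, g22, ← hR] at hop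
  rw [← hR]
  field_simp at hop ⊢
  linear_combination (-(1 / 2 : ℝ)) * hop
    + (a x * c x - b x ^ 2) * (1 + s ^ 2 * (d1 u X ^ 2 + d2 u X ^ 2)) ^ 2 * hgr

end ChartId

open ChartId in
/-- In the chart the linearised operator is exactly `kHat (V_yy + a V_pp + a_p V_p)`. -/
theorem chartId {k : ℕ} (hG : GaussSpec) (hk : 40 ≤ k) : ChartIdSpec k := by
  intro M a0 C _
  refine ⟨1 / (|C| + 1), by positivity, fun s hs hs0 β _ _ π G e ch _ _ hsol hOK q hq V hV => ?_⟩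
  obtain ⟨-, -, -, -, -, -, -, -, -, -, -, -, -, -, hu, hΘ, -, -, -, -, -, hΦP, -,
    hΨΘ, -, -, -, hnsq, -⟩ := id hOK
  set m := islandMet s β π with hm
  set z := zOf s G e with hz
  set u := ch.u s G e with hu_def
  set X0 := ch.Θ q with hX0
  set x0 := ch.Lam q with hx0
  have hq' : q ∈ disc (5 / 2) := disc_sub (by norm_num) hq
  have hX3 : X0 ∈ disc 3 := disc_sub (by norm_num) (hΨΘ q hq').1
  have hPx0 : ch.proj G x0 = X0 := (hΦP X0 hX3).2
  have hq0 : ch.Psi s G e X0 = q := (hΨΘ q hq').2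
  have hxU : x0 ∈ disc (29 / 10) := by
    have h := hnsq 0 (Nat.zero_le _) q hq'
    rw [norm_iteratedFDeriv_zero, Real.norm_eq_abs] at h
    have hb : C * s ≤ 1 := by
      calc C * s ≤ (|C| + 1) * (1 / (|C| + 1)) :=
            mul_le_mul (by linarith [le_abs_self C]) hs0 hs.le (by positivity)
        _ = 1 := by field_simp
    have h' := (le_abs_self _).trans (h.trans hb)
    simp only [disc, mem_ofPred_eq] at hq ⊢
    norm_num at hq ⊢
    linarith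
  have hu3 : ∀ X ∈ disc 3, ContDiffAt ℝ 3 u X := fun X hX =>
    (hu.contDiffAt ((disc_isOpen 3).mem_nhds hX)).of_le (by norm_num)
  have hu0 : ContDiffAt ℝ 3 u X0 := hu3 X0 hX3
  have hu2 : ContDiffAt ℝ 2 u X0 := hu0.of_le (by norm_num)
  have su : d2 (d1 u) X0 = d1 (d2 u) X0 := dir_symm hu2
  set W : Pl → ℝ := fun X => V (ch.Psi s G e X) with hW
  set P : Pl → ℝ := fun X => d1 u X / ch.α with hPdef
  have hPc : ContDiffAt ℝ 2 P X0 := (contDiffAt_dir (m := 3) hu0 le_rfl (1, 0)).div_const _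
  have hWc : ContDiffAt ℝ 2 W X0 :=
    ContDiffAt.comp X0 (g := V) (by rw [hq0]; exact hV) (hPc.prodMk contDiffAt_snd)
  have hlop := graph_op hG (by omega) hs hsol hOK hxU (W := W) (by rw [hPx0]; exact hWc)
  rw [hPx0] at hlop
  refine hlop.trans ?_
  -- the Legendre map
  have hP0 : (P X0, X0.2) = q := hq0
  have sP : DifferentiableAt ℝ (fun X : Pl => X.2) X0 := differentiableAt_snd
  have d_snd : ∀ X v : Pl, fderiv ℝ (fun X : Pl => X.2) X v = v.2 := fun X v => by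
    rw [fderiv_snd]; rfl
  have d2_snd : ∀ v w : Pl, fderiv ℝ (fun y => fderiv ℝ (fun X : Pl => X.2) y v) X0 w = 0 :=
    fun v w => by simp [d_snd]
  have hdu1 : DifferentiableAt ℝ (d1 u) X0 := differentiableAt_dir hu2 (1, 0)
  have dP : ∀ v : Pl, fderiv ℝ P X0 v = fderiv ℝ (d1 u) X0 v / ch.α := fun v => by
    simp only [hPdef, div_eq_inv_mul]
    rw [fderiv_const_mul hdu1, smul_apply, smul_eq_mul]
  have hd1c : ContDiffAt ℝ 2 (d1 u) X0 := contDiffAt_dir (m := 3) hu0 le_rfl (1, 0)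
  have hd2c : ContDiffAt ℝ 2 (d2 u) X0 := contDiffAt_dir (m := 3) hu0 le_rfl (0, 1)
  have d2P : ∀ v w : Pl, fderiv ℝ (fun y => fderiv ℝ P y v) X0 w
      = fderiv ℝ (fun y => fderiv ℝ (d1 u) y v) X0 w / ch.α := fun v w => by
    have h : (fun y => fderiv ℝ P y v) =ᶠ[𝓝 X0] fun y => ch.α⁻¹ * fderiv ℝ (d1 u) y v := by
      filter_upwards [hd1c.eventually (by simp)] with y hy
      simp only [hPdef, div_eq_inv_mul]
      rw [fderiv_const_mul (hy.differentiableAt (by simp)), smul_apply,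
        smul_eq_mul]
    rw [h.fderiv_eq, fderiv_const_mul (differentiableAt_dir hd1c v),
      smul_apply, smul_eq_mul, div_eq_inv_mul]
  have hVq : ContDiffAt ℝ 2 V (P X0, X0.2) := hP0.symm ▸ hV
  have dW : ∀ v w : Pl, fderiv ℝ (fun y => fderiv ℝ W y v) X0 w
      = (d1 (d1 V) q * (fderiv ℝ (d1 u) X0 w / ch.α) + d2 (d1 V) q * w.2)
          * (fderiv ℝ (d1 u) X0 v / ch.α)
        + d1 V q * (fderiv ℝ (fun y => fderiv ℝ (d1 u) y v) X0 w / ch.α)
        + (d1 (d2 V) q * (fderiv ℝ (d1 u) X0 w / ch.α) + d2 (d2 V) q * w.2) * v.2 := fun v w => by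
    have h := dir2_comp (W := V) (p1 := P) (p2 := fun X : Pl => X.2) hVq hPc contDiffAt_snd v w
    rw [hP0, dP, dP, d_snd, d_snd, d2P, d2_snd, mul_zero, add_zero] at h
    exact h
  have sV : d2 (d1 V) q = d1 (d2 V) q := dir_symm hV
  have hsym : d2 (d1 u) =ᶠ[𝓝 X0] d1 (d2 u) := by
    filter_upwards [hu2.eventually (by simp)] with y hy using dir_symm hy
  have s112 : d1 (d2 (d1 u)) X0 = d1 (d1 (d2 u)) X0 := by
    unfold d1; exact congrArg (fun L : Pl →L[ℝ] ℝ => L (1, 0)) hsym.fderiv_eq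
  have s122 : d2 (d2 (d1 u)) X0 = d1 (d2 (d2 u)) X0 := by
    rw [← dir_symm hd2c]
    exact congrArg (fun L : Pl →L[ℝ] ℝ => L (0, 1)) hsym.fderiv_eq
  -- the derivative of the inverse Legendre map
  have hΘd : DifferentiableAt ℝ ch.Θ q :=
    ((hΘ.contDiffAt ((disc_isOpen _).mem_nhds hq'))).differentiableAt (by simp)
  have hΘ1 : DifferentiableAt ℝ (fun y => (ch.Θ y).1) q := hΘd.fst
  have hΘ2 : DifferentiableAt ℝ (fun y => (ch.Θ y).2) q := hΘd.snd
  have hev : ∀ᶠ y in 𝓝 q, P (ch.Θ y) = y.1 ∧ (ch.Θ y).2 = y.2 := by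
    filter_upwards [(disc_isOpen _).mem_nhds hq'] with y hy
    exact ⟨(congrArg Prod.fst (hΨΘ y hy).2 :), (congrArg Prod.snd (hΨΘ y hy).2 :)⟩
  set Xp := fderiv ℝ (fun y => (ch.Θ y).1) q (1, 0) with hXp
  have hYp : fderiv ℝ (fun y => (ch.Θ y).2) q (1, 0) = 0 := by
    have e2 : (fun y => (ch.Θ y).2) =ᶠ[𝓝 q] fun y => y.2 := hev.mono fun y hy => hy.2
    rw [e2.fderiv_eq]
    exact d_snd q _
  have hap1 : d1 (d1 u) X0 / ch.α * Xp = 1 := by
    have e1 : (fun y => P ((ch.Θ y).1, (ch.Θ y).2)) =ᶠ[𝓝 q] fun y => y.1 :=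
      hev.mono fun y hy => hy.1
    have h := dir_comp (W := P) (p1 := fun y => (ch.Θ y).1) (p2 := fun y => (ch.Θ y).2)
      (hPc.differentiableAt (by simp)) hΘ1 hΘ2 (1, 0)
    rw [e1.fderiv_eq, fderiv_fst, hYp,
      mul_zero, add_zero] at h
    rw [show d1 P ((ch.Θ q).1, (ch.Θ q).2) = fderiv ℝ P X0 (1, 0) from rfl, dP] at h
    exact h.symm
  have hα : ch.α ≠ 0 := fun h => by simp [h] at hap1
  have hU11 : d1 (d1 u) X0 ≠ 0 := fun h => by simp [h] at hap1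
  have hXp' : Xp = ch.α / d1 (d1 u) X0 := by field_simp at hap1 ⊢; linarith
  set Δ : Pl → ℝ := fun X => d1 (d1 u) X * d2 (d2 u) X - d1 (d2 u) X * d1 (d2 u) X with hΔ
  have a11 : DifferentiableAt ℝ (d1 (d1 u)) X0 := differentiableAt_dir hd1c (1, 0)
  have a12 : DifferentiableAt ℝ (d1 (d2 u)) X0 := differentiableAt_dir hd2c (1, 0)
  have a22 : DifferentiableAt ℝ (d2 (d2 u)) X0 := differentiableAt_dir hd2c (0, 1)
  have hΔd : DifferentiableAt ℝ Δ X0 := (a11.fun_mul a22).fun_sub (a12.fun_mul a12)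
  have hΔ1 : d1 Δ X0 = d1 (d1 (d1 u)) X0 * d2 (d2 u) X0 + d1 (d1 u) X0 * d1 (d2 (d2 u)) X0
      - 2 * d1 (d2 u) X0 * d1 (d1 (d2 u)) X0 := by
    show fderiv ℝ Δ X0 (1, 0) = _
    rw [hΔ, fderiv_fun_sub (a11.fun_mul a22) (a12.fun_mul a12), fderiv_fun_mul a11 a22,
      fderiv_fun_mul a12 a12]
    simp only [d1_eq, sub_apply, add_apply,
      smul_apply, smul_eq_mul]
    ring
  have ha : ch.aHat s G e = fun y => (ch.α ^ 2)⁻¹ * Δ ((ch.Θ y).1, (ch.Θ y).2) := funext fun y => by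
    simp only [Chart.aHat, hΔ, ← hu_def, Prod.mk.eta]
    ring
  have hap : d1 (ch.aHat s G e) q
      = (d1 (d1 (d1 u)) X0 * d2 (d2 u) X0 + d1 (d1 u) X0 * d1 (d2 (d2 u)) X0
        - 2 * d1 (d2 u) X0 * d1 (d1 (d2 u)) X0) * (ch.α / d1 (d1 u) X0) / ch.α ^ 2 := by
    have hd : DifferentiableAt ℝ (fun y => Δ ((ch.Θ y).1, (ch.Θ y).2)) q :=
      DifferentiableAt.comp q (g := Δ) hΔd (hΘ1.prodMk hΘ2)
    show fderiv ℝ (ch.aHat s G e) q (1, 0) = _
    rw [ha, fderiv_const_mul hd, smul_apply, dir_comp (W := Δ) (p1 := fun y => (ch.Θ y).1) (p2 := fun y => (ch.Θ y).2) hΔd hΘ1 hΘ2, hYp,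
      ← hXp, mul_zero, add_zero, smul_eq_mul,
      show d1 Δ ((ch.Θ q).1, (ch.Θ q).2) = d1 Δ X0 from rfl, hΔ1, hXp']
    ring
  have haq : ch.aHat s G e q
      = (d1 (d1 u) X0 * d2 (d2 u) X0 - d1 (d2 u) X0 ^ 2) / ch.α ^ 2 := rfl
  have hleg := legendre_alg (W11 := d1 (d1 W) X0) (W12 := d1 (d2 W) X0) (W22 := d2 (d2 W) X0)
    (Vp := d1 V q) (Vpp := d1 (d1 V) q) (Vpy := d1 (d2 V) q) (Vyy := d2 (d2 V) q)
    (U11 := d1 (d1 u) X0) (U12 := d1 (d2 u) X0) (U22 := d2 (d2 u) X0)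
    (U111 := d1 (d1 (d1 u)) X0) (U112 := d1 (d1 (d2 u)) X0) (U122 := d1 (d2 (d2 u)) X0)
    (ap := d1 (ch.aHat s G e) q) hα hU11
    (by
      refine (dW (1, 0) (1, 0)).trans ?_
      simp only [d1_eq, d2_eq]
      ring)
    (by
      refine (dW (0, 1) (1, 0)).trans ?_
      simp only [d1_eq, d2_eq] at su s112 ⊢
      rw [su, s112]
      ring)
    (by
      refine (dW (0, 1) (0, 1)).trans ?_
      simp only [d1_eq, d2_eq] at su sV s122 ⊢
      rw [su, sV, s122]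
      ring)
    hap
  rw [hleg, haq, Chart.kHat]
  rw [← hu_def, ← hX0]
  ring

end Vale.Agent.P229
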