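import Vale.Agent.P229.Base
import Vale.Agent.P229.EstSpec

/-!
# P229, Core: the chart of a representative, the linearised operator, waves and targets

For a representative `(πr, Gr, er)` put `Π x = (⟪Gr x, e1⟫, ⟪Gr x, e2⟫)`, `u = z ∘ Φ` with `Φ = Π⁻¹`,
`Ψ (X, Y) = (u_X / α, Y)` with `α = u_XX 0`, `Θ = Ψ⁻¹`; `Xi = Ψ ∘ Π` and `Lam = Φ ∘ Θ` are the passage
between island coordinates `x` and `q = (p, y)`.
-/

open scoped ContDiff RealInnerProductSpace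

namespace Vale.Agent.P229

/-- The bilinear form of the gradients. -/
noncomputable def Met.gradIP (m : Met) (z w : Pl → ℝ) (x : Pl) : ℝ :=
  (m.g x * d1 z x * d1 w x - m.f x * (d1 z x * d2 w x + d2 z x * d1 w x)
    + m.e x * d2 z x * d2 w x) / m.det x

/-- `A : Hess w + rcur ⟪D Z, D w⟫`, the operator satisfied by a difference of two heights when
`A` is the cofactor of the mean Hessian and `Z` the sum of the heights. -/
noncomputable def lop (m : Met) (A1 A2 A3 Z w : Pl → ℝ) (x : Pl) : ℝ :=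
  A1 x * m.h11 w x + 2 * A2 x * m.h12 w x + A3 x * m.h22 w x + m.rcur x * m.gradIP Z w x

/-- The right side `rcur / s² (1 - s² |Dz|²)` of the Gauss equation of a height. -/
noncomputable def rho (s : ℝ) (m : Met) (z : Pl → ℝ) (x : Pl) : ℝ :=
  m.rcur x / s ^ 2 * (1 - s ^ 2 * m.gradSq z x)

/-- What a change of metric from `m'` to `m` contributes to the equation of the difference. -/
noncomputable def srcTerm (s : ℝ) (m m' : Met) (A1 A2 A3 z : Pl → ℝ) (x : Pl) : ℝ :=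
  rho s m z x - rho s m' z x - (A1 x * (m.h11 z x - m'.h11 z x)
    + 2 * A2 x * (m.h12 z x - m'.h12 z x) + A3 x * (m.h22 z x - m'.h22 z x))

/-- The second order part of the linearised curvature of a metric increment. -/
noncomputable def lin2 (π : Pert) (x : Pl) : ℝ :=
  -(1 / 2) * (d2 (d2 (π 0)) x - 2 * d1 (d2 (π 1)) x + d1 (d1 (π 2)) x)

/-- A linear form in the one-jet of a metric increment. -/
noncomputable def jet1 (P Q R : Fin 3 → Pl → ℝ) (π : Pert) (x : Pl) : ℝ :=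
  ∑ i, (P i x * π i x + Q i x * d1 (π i) x + R i x * d2 (π i) x)

/-- The data of a chart. -/
structure Chart where
  e1 : R3
  e2 : R3
  Φ : Pl → Pl
  Θ : Pl → Pl
  α : ℝ

namespace Chart

variable (ch : Chart)

/-- The projection `Π`. -/
noncomputable def proj (G : Pl → R3) (x : Pl) : Pl := (⟪G x, ch.e1⟫, ⟪G x, ch.e2⟫)

/-- The graph function. -/
noncomputable def u (s : ℝ) (G : Pl → R3) (e : R3) (X : Pl) : ℝ := zOf s G e (ch.Φ X)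

/-- The Legendre map `Ψ`. -/
noncomputable def Psi (s : ℝ) (G : Pl → R3) (e : R3) (X : Pl) : Pl :=
  (d1 (ch.u s G e) X / ch.α, X.2)

/-- From island coordinates to `(p, y)`. -/
noncomputable def Xi (s : ℝ) (G : Pl → R3) (e : R3) (x : Pl) : Pl :=
  ch.Psi s G e (ch.proj G x)

/-- From `(p, y)` to island coordinates. -/
noncomputable def Lam (q : Pl) : Pl := ch.Φ (ch.Θ q)

/-- The coefficient `a = det D²u / α²` in `(p, y)`. -/
noncomputable def aHat (s : ℝ) (G : Pl → R3) (e : R3) (q : Pl) : ℝ :=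
  (d1 (d1 (ch.u s G e)) (ch.Θ q) * d2 (d2 (ch.u s G e)) (ch.Θ q)
    - d1 (d2 (ch.u s G e)) (ch.Θ q) ^ 2) / ch.α ^ 2

/-- The factor of the transformed operator. -/
noncomputable def kHat (s : ℝ) (m : Met) (G : Pl → R3) (e : R3) (q : Pl) : ℝ :=
  m.det (ch.Lam q) * d1 (d1 (ch.u s G e)) (ch.Θ q) /
    (1 + s ^ 2 * (d1 (ch.u s G e) (ch.Θ q) ^ 2 + d2 (ch.u s G e) (ch.Θ q) ^ 2)) ^ 2

/-- A good chart, with constant `C` independent of `s` and `β`. -/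
def OK (s C : ℝ) (G : Pl → R3) (e : R3) : Prop :=
  ‖ch.e1‖ = 1 ∧ ‖ch.e2‖ = 1 ∧ ⟪ch.e1, ch.e2⟫ = 0 ∧ ⟪ch.e1, e⟫ = 0 ∧ ⟪ch.e2, e⟫ = 0 ∧
  1 / C ≤ ch.α ∧ ch.α ≤ C ∧ ch.α = d1 (d1 (ch.u s G e)) 0 ∧
  ch.Φ 0 = 0 ∧ ch.Θ 0 = 0 ∧ d1 (ch.u s G e) 0 = 0 ∧ d2 (ch.u s G e) 0 = 0 ∧
  d1 (d2 (ch.u s G e)) 0 = 0 ∧
  ContDiffOn ℝ 36 ch.Φ (disc 3) ∧ ContDiffOn ℝ 36 (ch.u s G e) (disc 3) ∧
  ContDiffOn ℝ 35 ch.Θ (disc (5 / 2)) ∧
  BdOn (disc 3) 36 C ch.Φ ∧ BdOn (disc 3) 36 C (ch.u s G e) ∧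
  BdOn (disc (5 / 2)) 35 C ch.Θ ∧
  BdOn (disc (12 / 5)) 35 C (ch.Xi s G e) ∧ BdOn (disc (5 / 2)) 35 C ch.Lam ∧
  (∀ X ∈ disc 3, ch.Φ X ∈ disc (7 / 2) ∧ ch.proj G (ch.Φ X) = X) ∧
  (∀ x ∈ disc (29 / 10), ch.proj G x ∈ disc 3 ∧ ch.Φ (ch.proj G x) = x) ∧
  (∀ q ∈ disc (5 / 2), ch.Θ q ∈ disc (29 / 10) ∧ ch.Psi s G e (ch.Θ q) = q) ∧
  (∀ X ∈ disc (12 / 5), ch.Psi s G e X ∈ disc (5 / 2) ∧ ch.Θ (ch.Psi s G e X) = X) ∧
  (∀ x ∈ disc 2, ch.proj G x ∈ disc (11 / 5)) ∧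
  (∀ X ∈ disc 3, |d1 (d1 (ch.u s G e)) X - ch.α| ≤ C * s ∧
    |d1 (d2 (ch.u s G e)) X| ≤ C * s) ∧
  BdOn (disc (5 / 2)) 2 (C * s) (fun q => nsq (ch.Lam q) - nsq q) ∧
  ContDiffOn ℝ 35 (ch.Xi s G e) (disc (12 / 5))

end Chart

/-- The profile of one wave. -/
noncomputable def zeta0 : ℝ → ℝ :=
  fun y => (⟨1 / 10, 1 / 5, by norm_num, by norm_num⟩ : ContDiffBump (0 : ℝ)) y

/-- The centres of the waves. -/
noncomputable def waveCtr (N : ℕ) (j : Fin N) : ℝ := -(1 / 4) + (j : ℝ) / (2 * N)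

/-- One wave. -/
noncomputable def wave1 (N : ℕ) (j : Fin N) (y : ℝ) : ℝ :=
  zeta0 ((N : ℝ) * (y - waveCtr N j)) / (N : ℝ) ^ 2

/-- A signed sum of waves. -/
noncomputable def wave (N : ℕ) (δ : Fin N → ℤ) (y : ℝ) : ℝ :=
  ∑ j, (δ j : ℝ) * wave1 N j y

/-- The three coefficients of the tensor with cofactor `-2 v ⊗ v`, `v = ∂ Lam / ∂ y`. -/
noncomputable def Chart.tens (ch : Chart) (i : Fin 3) (q : Pl) : ℝ :=
  ![-2 * (d2 ch.Lam q).2 ^ 2, 2 * (d2 ch.Lam q).1 * (d2 ch.Lam q).2,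
    -2 * (d2 ch.Lam q).1 ^ 2] i

open Classical in
/-- The targets, in island coordinates. -/
noncomputable def Chart.tgt (ch : Chart) (s : ℝ) (G : Pl → R3) (e : R3) (N : ℕ) (j : Fin N)
    (i : Fin 3) (x : Pl) : ℝ :=
  if x ∈ disc 2 then
    ch.tens i (ch.Xi s G e x) * eta0 ((N : ℝ) ^ 4 * (ch.Xi s G e x).1)
      * wave1 N j (ch.Xi s G e x).2
  else 0

end Vale.Agent.P229
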