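import Vale.Agent.P229.Bd
import Vale.Agent.P229.Core.Spec2

/-!
# P229, Core: cutting off a local solution, and extending from a smaller disc

A radial cut-off `χ`, equal to one on `nsq ≤ (123/100)²` and to zero for `nsq ≥ (143/100)²`, turns a
local solution `W` of `c.op W = S + R` into `v = χ W`; the error is `χ R` plus the commutator, whose
terms live in the ring and contain only `W` and its first derivatives.
-/

open scoped ContDiff RealInnerProductSpace
open Set Filter Topology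

namespace Vale.Agent.P229

namespace Loc

/-- The radial cut-off: one for `nsq ≤ a²`, zero for `b² ≤ nsq`. -/
noncomputable def cutoff (a b : ℝ) (q : Pl) : ℝ :=
  Real.smoothTransition ((b ^ 2 - nsq q) / (b ^ 2 - a ^ 2))

theorem contDiff_nsq {n : ℕ∞ω} : ContDiff ℝ n nsq :=
  (contDiff_fst.pow 2).add (contDiff_snd.pow 2)

theorem contDiff_cutoff (a b : ℝ) {n : ℕ∞} : ContDiff ℝ n (cutoff a b) :=
  Real.smoothTransition.contDiff.comp ((contDiff_const.sub contDiff_nsq).div_const _)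

theorem cutoff_one {a b : ℝ} (hab : a ^ 2 < b ^ 2) {q : Pl} (h : nsq q ≤ a ^ 2) :
    cutoff a b q = 1 :=
  Real.smoothTransition.one_of_one_le (by rw [le_div_iff₀ (sub_pos.2 hab)]; linarith)

theorem cutoff_zero {a b : ℝ} (hab : a ^ 2 < b ^ 2) {q : Pl} (h : b ^ 2 ≤ nsq q) :
    cutoff a b q = 0 :=
  Real.smoothTransition.zero_of_nonpos (div_nonpos_of_nonpos_of_nonneg (by linarith) (by linarith))

theorem tsupport_cutoff {a b : ℝ} (hab : a ^ 2 < b ^ 2) :
    tsupport (cutoff a b) ⊆ {q | nsq q ≤ b ^ 2} := by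
  refine closure_minimal (fun q hq => ?_) (isClosed_le (contDiff_nsq (n := 0)).continuous
    continuous_const)
  by_contra h
  exact hq (cutoff_zero hab (not_le.1 h).le)

theorem hasCompactSupport_cutoff {a b : ℝ} (hab : a ^ 2 < b ^ 2) :
    HasCompactSupport (cutoff a b) := by
  refine HasCompactSupport.of_support_subset_isCompact (isCompact_closedBall (0 : Pl) (|b| + 1)) ?_
  intro q hq
  have h := tsupport_cutoff hab (subset_tsupport _ hq)
  rw [mem_ofPred_eq] at h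
  rw [Metric.mem_closedBall, dist_zero_right]
  refine (abs_le_of_sq_le_sq' ?_ (by positivity)).2
  nlinarith [norm_sq_le_nsq q, sq_abs b, abs_nonneg b]

/-- A product with a cut-off of a function smooth near the support is smooth. -/
theorem contDiff_cut_mul {a b R : ℝ} (hab : a ^ 2 < b ^ 2) (hbR : b ^ 2 < R ^ 2) {n : ℕ}
    {f : Pl → ℝ} (hf : ContDiffOn ℝ n f (disc R)) :
    ContDiff ℝ n (fun q => cutoff a b q * f q) := by
  refine contDiff_iff_contDiffAt.2 fun x => ?_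
  by_cases hx : x ∈ disc R
  · exact ((contDiff_cutoff a b).contDiffAt).mul (hf.contDiffAt ((isOpen_disc R).mem_nhds hx))
  · refine (contDiffAt_const (c := (0 : ℝ))).congr_of_eventuallyEq ?_
    have hn : b ^ 2 < nsq x := lt_of_lt_of_le hbR (not_lt.1 hx)
    filter_upwards [(isOpen_lt continuous_const (contDiff_nsq (n := 0)).continuous).mem_nhds hn]
      with y hy
    rw [cutoff_zero hab (le_of_lt hy), zero_mul]

/-- The commutator of the operator with the multiplication by `χ`. -/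
noncomputable def comm (c : Coef) (χ W : Pl → ℝ) (q : Pl) : ℝ :=
  (d2 (d2 χ) q + 2 * c.d q * d1 (d2 χ) q + c.a q * d1 (d1 χ) q + c.b q * d1 χ q
      + c.e q * d2 χ q) * W q
    + (2 * c.d q * d2 χ q + 2 * c.a q * d1 χ q) * d1 W q
    + (2 * d2 χ q + 2 * c.d q * d1 χ q) * d2 W q

theorem op_mul {U : Set Pl} (hU : IsOpen U) (c : Coef) {χ W : Pl → ℝ}
    (hχ : ContDiffOn ℝ (2 : ℕ) χ U) (hW : ContDiffOn ℝ (2 : ℕ) W U) {q : Pl} (hq : q ∈ U) :
    c.op (fun y => χ y * W y) q = χ q * c.op W q + comm c χ W q := by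
  have df : ∀ {f : Pl → ℝ}, ContDiffOn ℝ (2 : ℕ) f U → ∀ y ∈ U, DifferentiableAt ℝ f y :=
    fun hf y hy => diffAt_of_open hU hf (by norm_num) hy
  have e1 : ∀ {f : Pl → ℝ}, ContDiffOn ℝ (2 : ℕ) f U → ∀ y ∈ U, DifferentiableAt ℝ (d1 f) y :=
    fun hf y hy => diffAt_of_open hU (contDiffOn_d1 (k := 1) hU hf) le_rfl hy
  have e2 : ∀ {f : Pl → ℝ}, ContDiffOn ℝ (2 : ℕ) f U → ∀ y ∈ U, DifferentiableAt ℝ (d2 f) y :=
    fun hf y hy => diffAt_of_open hU (contDiffOn_d2 (k := 1) hU hf) le_rfl hy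
  have a1 : EqOn (d1 fun y => χ y * W y) (fun y => d1 χ y * W y + χ y * d1 W y) U :=
    fun y hy => d1_mul (df hχ y hy) (df hW y hy)
  have a2 : EqOn (d2 fun y => χ y * W y) (fun y => d2 χ y * W y + χ y * d2 W y) U :=
    fun y hy => d2_mul (df hχ y hy) (df hW y hy)
  have u1 := df hχ q hq
  have u2 := df hW q hq
  have v1 := e1 hχ q hq
  have v2 := e1 hW q hq
  have w1 := e2 hχ q hq
  have w2 := e2 hW q hq
  have s11 : d1 (d1 fun y => χ y * W y) q =
      d1 (d1 χ) q * W q + d1 χ q * d1 W q + (d1 χ q * d1 W q + χ q * d1 (d1 W) q) := by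
    rw [d1_congr hU a1 hq]
    exact (d1_add (v1.mul u2) (u1.mul v2)).trans
      (congrArg₂ (· + ·) (d1_mul v1 u2) (d1_mul u1 v2))
  have s12 : d1 (d2 fun y => χ y * W y) q =
      d1 (d2 χ) q * W q + d2 χ q * d1 W q + (d1 χ q * d2 W q + χ q * d1 (d2 W) q) := by
    rw [d1_congr hU a2 hq]
    exact (d1_add (w1.mul u2) (u1.mul w2)).trans
      (congrArg₂ (· + ·) (d1_mul w1 u2) (d1_mul u1 w2))
  have s22 : d2 (d2 fun y => χ y * W y) q =
      d2 (d2 χ) q * W q + d2 χ q * d2 W q + (d2 χ q * d2 W q + χ q * d2 (d2 W) q) := by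
    rw [d2_congr hU a2 hq]
    exact (d2_add (w1.mul u2) (u1.mul w2)).trans
      (congrArg₂ (· + ·) (d2_mul w1 u2) (d2_mul u1 w2))
  simp only [Coef.op, comm, s11, s12, s22, a1 hq, a2 hq]
  ring

/-- Where the cut-off is locally constant the commutator vanishes. -/
theorem comm_eq_zero (c : Coef) {χ : Pl → ℝ} (W : Pl → ℝ) {r : ℝ} {q : Pl}
    (h : χ =ᶠ[𝓝 q] fun _ => r) : comm c χ W =ᶠ[𝓝 q] fun _ => 0 := by
  filter_upwards [h.eventually_nhds] with y hy
  have h1 : ∀ᶠ z in 𝓝 y, d1 χ z = 0 ∧ d2 χ z = 0 := by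
    filter_upwards [eventually_eventually_nhds.2 hy] with z hz
    have hz' : χ =ᶠ[𝓝 z] fun _ => r := hz
    simp [P229.d1, P229.d2, hz'.fderiv_eq]
  have d0 : ∀ {f : Pl → ℝ}, (∀ᶠ z in 𝓝 y, f z = 0) → d1 f y = 0 ∧ d2 f y = 0 := fun {f} hf => by
    have hf' : f =ᶠ[𝓝 y] fun _ => (0 : ℝ) := hf
    simp [P229.d1, P229.d2, hf'.fderiv_eq]
  obtain ⟨g1, g2⟩ := h1.self_of_nhds
  obtain ⟨g11, -⟩ := d0 (h1.mono fun z hz => hz.1)
  obtain ⟨g12, g22⟩ := d0 (h1.mono fun z hz => hz.2)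
  simp [comm, g1, g2, g11, g12, g22]

end Loc

open Loc

theorem extendSpec : ExtendSpec := by
  intro n f hf
  refine ⟨fun q => cutoff (3 / 2) (31 / 20) q * f q,
    contDiff_cut_mul (by norm_num) (by norm_num) hf, fun q hq => ?_⟩
  simp only [cutoff_one (a := 3 / 2) (b := 31 / 20) (by norm_num) (le_of_lt hq), one_mul]

theorem localizeSpec : LocalizeSpec := by
  intro B
  set χ : Pl → ℝ := cutoff (123 / 100) (143 / 100) with hχdef
  have hab : ((123 : ℝ) / 100) ^ 2 < (143 / 100) ^ 2 := by norm_num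
  have hχ : ContDiff ℝ (4 : ℕ) χ := by exact_mod_cast contDiff_cutoff (n := 4) _ _
  obtain ⟨H, hH0, hH⟩ := exists_bdOn_univ hχ (hasCompactSupport_cutoff hab)
  set M : ℝ := |B| + 1 with hM
  have hM0 : 0 ≤ M := by positivity
  set D : ℝ := 2 * H + 24 * M * H with hD
  refine ⟨max 1 (4 * H + 12 * D), le_max_left _ _, ?_⟩
  intro ε c W S R hε hcd hca hcb hce bd ba bb be hW hR hS hop hWb hRb
  set U8 : Set Pl := disc (8 / 5) with hU8
  have hU8o : IsOpen U8 := isOpen_disc _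
  set E : Pl → ℝ := fun q => χ q * R q + comm c χ W q with hE
  -- smoothness data on the larger disc
  have hχn : ∀ {n : ℕ} {U : Set Pl}, ContDiffOn ℝ (n : ℕ) χ U := fun {n U} => by
    exact_mod_cast (contDiff_cutoff (n := (n : ℕ∞)) (123 / 100 : ℝ) (143 / 100)).contDiffOn
  have hW5 : ContDiffOn ℝ (5 : ℕ) W U8 := hW
  have hR2 : ContDiffOn ℝ (2 : ℕ) R U8 := hR
  have x1 : ContDiffOn ℝ (2 : ℕ) (d1 χ) U8 := contDiffOn_d1 hU8o hχn
  have x2 : ContDiffOn ℝ (2 : ℕ) (d2 χ) U8 := contDiffOn_d2 hU8o hχn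
  have x11 : ContDiffOn ℝ (2 : ℕ) (d1 (d1 χ)) U8 := contDiffOn_d1 hU8o (contDiffOn_d1 hU8o hχn)
  have x12 : ContDiffOn ℝ (2 : ℕ) (d1 (d2 χ)) U8 := contDiffOn_d1 hU8o (contDiffOn_d2 hU8o hχn)
  have x22 : ContDiffOn ℝ (2 : ℕ) (d2 (d2 χ)) U8 := contDiffOn_d2 hU8o (contDiffOn_d2 hU8o hχn)
  have kd : ContDiffOn ℝ (2 : ℕ) c.d U8 := hcd.of_le (by norm_num)
  have ka : ContDiffOn ℝ (2 : ℕ) c.a U8 := hca.of_le (by norm_num)
  have kb : ContDiffOn ℝ (2 : ℕ) c.b U8 := hcb.of_le (by norm_num)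
  have ke : ContDiffOn ℝ (2 : ℕ) c.e U8 := hce.of_le (by norm_num)
  have w0 : ContDiffOn ℝ (2 : ℕ) W U8 := hW5.of_le (by norm_num)
  have w1 : ContDiffOn ℝ (2 : ℕ) (d1 W) U8 :=
    contDiffOn_d1 hU8o (hW5.of_le (show ((3 : ℕ) : ℕ∞ω) ≤ (5 : ℕ) by norm_num))
  have w2 : ContDiffOn ℝ (2 : ℕ) (d2 W) U8 :=
    contDiffOn_d2 hU8o (hW5.of_le (show ((3 : ℕ) : ℕ∞ω) ≤ (5 : ℕ) by norm_num))
  have kd2 : ContDiffOn ℝ (2 : ℕ) (fun q => 2 * c.d q) U8 := contDiffOn_const.mul kd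
  have ka2 : ContDiffOn ℝ (2 : ℕ) (fun q => 2 * c.a q) U8 := contDiffOn_const.mul ka
  have x2' : ContDiffOn ℝ (2 : ℕ) (fun q => 2 * d2 χ q) U8 := contDiffOn_const.mul x2
  have p0a : ContDiffOn ℝ (2 : ℕ) (fun q => d2 (d2 χ) q + 2 * c.d q * d1 (d2 χ) q) U8 :=
    x22.add (kd2.mul x12)
  have p0b : ContDiffOn ℝ (2 : ℕ)
      (fun q => d2 (d2 χ) q + 2 * c.d q * d1 (d2 χ) q + c.a q * d1 (d1 χ) q) U8 :=
    p0a.add (ka.mul x11)
  have p0c : ContDiffOn ℝ (2 : ℕ) (fun q =>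
      d2 (d2 χ) q + 2 * c.d q * d1 (d2 χ) q + c.a q * d1 (d1 χ) q + c.b q * d1 χ q) U8 :=
    p0b.add (kb.mul x1)
  have p0 : ContDiffOn ℝ (2 : ℕ) (fun q => d2 (d2 χ) q + 2 * c.d q * d1 (d2 χ) q
      + c.a q * d1 (d1 χ) q + c.b q * d1 χ q + c.e q * d2 χ q) U8 :=
    p0c.add (ke.mul x2)
  have p1 : ContDiffOn ℝ (2 : ℕ) (fun q => 2 * c.d q * d2 χ q + 2 * c.a q * d1 χ q) U8 :=
    (kd2.mul x2).add (ka2.mul x1)
  have p2 : ContDiffOn ℝ (2 : ℕ) (fun q => 2 * d2 χ q + 2 * c.d q * d1 χ q) U8 :=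
    x2'.add (kd2.mul x1)
  have kc : ContDiffOn ℝ (2 : ℕ) (comm c χ W) U8 :=
    ((p0.mul w0).add (p1.mul w1)).add (p2.mul w2)
  -- the cut-off near the centre and near infinity
  have far : ∀ q : Pl, (143 / 100 : ℝ) ^ 2 < nsq q → χ =ᶠ[𝓝 q] fun _ => (0 : ℝ) := fun q hq => by
    filter_upwards [(isOpen_lt continuous_const (contDiff_nsq (n := 0)).continuous).mem_nhds hq]
      with y hy
    exact cutoff_zero hab (le_of_lt hy)
  have near : ∀ q : Pl, nsq q < (123 / 100 : ℝ) ^ 2 → χ =ᶠ[𝓝 q] fun _ => (1 : ℝ) := fun q hq => by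
    filter_upwards [(isOpen_lt (contDiff_nsq (n := 0)).continuous continuous_const).mem_nhds hq]
      with y hy
    exact cutoff_one hab (le_of_lt hy)
  have hEc : ContDiff ℝ (2 : ℕ) E := by
    refine contDiff_iff_contDiffAt.2 fun x => ?_
    by_cases hx : x ∈ U8
    · exact ((hχn.mul hR2).add kc).contDiffAt (hU8o.mem_nhds hx)
    · have hx' : (8 / 5 : ℝ) ^ 2 ≤ nsq x := not_lt.1 hx
      have hf := far x (by linarith [show (143 / 100 : ℝ) ^ 2 < (8 / 5) ^ 2 by norm_num])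
      refine (contDiffAt_const (c := (0 : ℝ))).congr_of_eventuallyEq ?_
      filter_upwards [hf, comm_eq_zero c W hf] with y hy hy'
      simp [E, hy, hy']
  refine ⟨fun q => χ q * W q, E,
    contDiff_cut_mul hab (by norm_num) (hW5.of_le (show ((4 : ℕ) : ℕ∞ω) ≤ (5 : ℕ) by norm_num)),
    ?_, hEc, ?_, fun q hq => ?_⟩
  · refine (tsupport_mul_subset_left.trans (tsupport_cutoff hab)).trans fun q hq => ?_
    have hq' : nsq q ≤ (143 / 100 : ℝ) ^ 2 := hq
    show nsq q < (29 / 20 : ℝ) ^ 2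
    norm_num at hq' ⊢
    linarith
  · -- the bound
    set U : Set Pl := {q | (61 / 50 : ℝ) ^ 2 < nsq q ∧ nsq q < (287 / 200) ^ 2} with hUdef
    have hUo : IsOpen U := (isOpen_lt continuous_const (contDiff_nsq (n := 0)).continuous).inter
      (isOpen_lt (contDiff_nsq (n := 0)).continuous continuous_const)
    have hU8s : U ⊆ U8 := fun q hq => lt_of_lt_of_le hq.2 (by norm_num)
    have hUr : U ⊆ ring' (61 / 50) (287 / 200) := fun q hq => ⟨hq.1.le, hq.2.le⟩
    have bU : BdOn U 4 H χ := hH.mono_set (subset_univ _)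
    have b1 : BdOn U 2 H (d1 χ) := (bU.mono_order (by norm_num : 3 ≤ 4)).d1 hUo hχn
    have b2 : BdOn U 2 H (d2 χ) := (bU.mono_order (by norm_num : 3 ≤ 4)).d2 hUo hχn
    have b11 : BdOn U 2 H (d1 (d1 χ)) := (bU.d1 hUo hχn).d1 hUo (contDiffOn_d1 hUo hχn)
    have b12 : BdOn U 2 H (d1 (d2 χ)) := (bU.d2 hUo hχn).d1 hUo (contDiffOn_d2 hUo hχn)
    have b22 : BdOn U 2 H (d2 (d2 χ)) := (bU.d2 hUo hχn).d2 hUo (contDiffOn_d2 hUo hχn)
    have hBM : B ≤ M := (le_abs_self B).trans (by linarith)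
    have cd' : BdOn U 2 M c.d := (bd.mono_set hU8s).mono_const hBM
    have ca' : BdOn U 2 M c.a := (ba.mono_set hU8s).mono_const hBM
    have cb' : BdOn U 2 M c.b := (bb.mono_set hU8s).mono_const hBM
    have ce' : BdOn U 2 M c.e := (be.mono_set hU8s).mono_const hBM
    have cd2 : BdOn U 2 (|2| * M) (fun q => 2 * c.d q) := cd'.const_mul hUo 2 (kd.mono hU8s)
    have ca2 : BdOn U 2 (|2| * M) (fun q => 2 * c.a q) := ca'.const_mul hUo 2 (ka.mono hU8s)
    have hW3 : ContDiffOn ℝ (3 : ℕ) W U := (hW5.of_le (by norm_num)).mono hU8s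
    have hWU : BdOn U 3 ε W := (hWb.mono_set hUr).mono_order (by norm_num)
    have y0 : BdOn U 2 ε W := hWU.mono_order (by norm_num)
    have y1 : BdOn U 2 ε (d1 W) := hWU.d1 hUo hW3
    have y2 : BdOn U 2 ε (d2 W) := hWU.d2 hUo hW3
    have m := hU8s
    have t12 := cd2.mul hUo (kd2.mono m) (x12.mono m) b12
    have t11 := ca'.mul hUo (ka.mono m) (x11.mono m) b11
    have t1 := cb'.mul hUo (kb.mono m) (x1.mono m) b1
    have t2 := ce'.mul hUo (ke.mono m) (x2.mono m) b2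
    have P0 := (((b22.add hUo (x22.mono m) ((kd2.mul x12).mono m) t12).add hUo (p0a.mono m)
      ((ka.mul x11).mono m) t11).add hUo (p0b.mono m) ((kb.mul x1).mono m) t1).add hUo
      (p0c.mono m) ((ke.mul x2).mono m) t2
    have P1 := (cd2.mul hUo (kd2.mono m) (x2.mono m) b2).add hUo ((kd2.mul x2).mono m)
      ((ka2.mul x1).mono m) (ca2.mul hUo (ka2.mono m) (x1.mono m) b1)
    have P2 := (b2.const_mul hUo 2 (x2.mono m)).add hUo (x2'.mono m) ((kd2.mul x1).mono m)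
      (cd2.mul hUo (kd2.mono m) (x1.mono m) b1)
    have hMH : 0 ≤ M * H := mul_nonneg hM0 hH0
    have Q0 := P0.mono_const (C' := D) (by rw [hD]; norm_num; nlinarith)
    have Q1 := P1.mono_const (C' := D) (by rw [hD]; norm_num; nlinarith)
    have Q2 := P2.mono_const (C' := D) (by rw [hD]; norm_num; nlinarith)
    have K : BdOn U 2 (12 * D * ε) (comm c χ W) :=
      (((Q0.mul hUo (p0.mono m) (w0.mono m) y0).add hUo ((p0.mul w0).mono m) ((p1.mul w1).mono m)
        (Q1.mul hUo (p1.mono m) (w1.mono m) y1)).add hUo (((p0.mul w0).add (p1.mul w1)).mono m)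
        ((p2.mul w2).mono m) (Q2.mul hUo (p2.mono m) (w2.mono m) y2)).mono_const
        (le_of_eq (by ring))
    -- the commutator on the whole disc
    have hD0 : 0 ≤ D := by rw [hD]; positivity
    have h32 : disc (3 / 2) ⊆ U8 := disc_mono (by norm_num) (by norm_num)
    have K' : BdOn (disc (3 / 2)) 2 (12 * D * ε) (comm c χ W) := by
      intro j hj x hx
      by_cases hxU : x ∈ U
      · exact K j hj x hxU
      · have hz : comm c χ W =ᶠ[𝓝 x] fun _ => (0 : ℝ) := by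
          rw [hUdef, mem_ofPred_eq, not_and_or, not_lt, not_lt] at hxU
          rcases hxU with h | h
          · refine comm_eq_zero c W (near x ?_)
            norm_num at h ⊢; linarith
          · refine comm_eq_zero c W (far x ?_)
            norm_num at h ⊢; linarith
        rw [(hz.iteratedFDeriv ℝ j).eq_of_nhds]
        calc _ ≤ (0 : ℝ) := bdOn_zero (F := ℝ) univ 2 j hj x (mem_univ _)
          _ ≤ _ := by positivity
    have hχ3 : BdOn (disc (3 / 2)) 2 H χ := (hH.mono_set (subset_univ _)).mono_order (by norm_num)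
    have T := (hχ3.mul (isOpen_disc _) hχn (hR2.mono h32) (hRb.mono_set h32)).add (isOpen_disc _)
      ((hχn.mul hR2).mono h32) (kc.mono h32) K'
    refine BdOn.mono_const (f := E) T ?_
    calc 2 ^ 2 * H * ε + 12 * D * ε = (4 * H + 12 * D) * ε := by ring
      _ ≤ _ := mul_le_mul_of_nonneg_right (le_max_right _ _) hε
  · -- the equation
    have hq8 : q ∈ U8 := disc_mono (by norm_num) (by norm_num) hq
    rw [op_mul hU8o c hχn w0 hq8, hop q hq8, mul_add]
    have hχS : χ q * S q = S q := by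
      by_cases h : 1 / 2 ^ 2 ≤ nsq q
      · simp [hS q h]
      · rw [hχdef, cutoff_one hab (by norm_num at h ⊢; linarith), one_mul]
    simp only [E, hχS]
    ring

end Vale.Agent.P229
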