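import Vale.Agent.P229.Core.Defs
import Vale.Agent.P229.Spec

/-!
# P229, Core: the statements of its parts
-/

open scoped ContDiff RealInnerProductSpace
open Set

namespace Vale.Agent.P229

/-- A good chart exists. -/
def ChartSpec (k : ℕ) : Prop :=
  ∀ M a0 : ℝ, 0 < a0 → ∃ C s0 : ℝ, 1 ≤ C ∧ 0 < s0 ∧ ∀ s, 0 < s → s ≤ s0 →
    ∀ β, 0 < β → β ≤ s ^ 2 → ∀ π G e, PertOK π → (∀ i, BdOn univ 8 (β ^ 2) (π i)) →
      IslandSol k s β M a0 π G e → ∃ ch : Chart, ch.OK s C G e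

/-- In the chart the linearised operator is exactly `kHat (V_yy + a V_pp + a_p V_p)`. -/
def ChartIdSpec (k : ℕ) : Prop :=
  ∀ M a0 C : ℝ, 0 < a0 → ∃ s0 > 0, ∀ s, 0 < s → s ≤ s0 → ∀ β, 0 < β → β ≤ s ^ 2 →
    ∀ π G e (ch : Chart), PertOK π → (∀ i, BdOn univ 8 (β ^ 2) (π i)) →
      IslandSol k s β M a0 π G e → ch.OK s C G e →
      ∀ q ∈ disc 2, ∀ V : Pl → ℝ, ContDiffAt ℝ 2 V q →
        lop (islandMet s β π) ((islandMet s β π).h22 (zOf s G e))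
            (fun x => -(islandMet s β π).h12 (zOf s G e) x) ((islandMet s β π).h11 (zOf s G e))
            (fun x => 2 * zOf s G e x) (fun x => V (ch.Xi s G e x)) (ch.Lam q)
          = ch.kHat s (islandMet s β π) G e q *
            (d2 (d2 V) q + ch.aHat s G e q * d1 (d1 V) q + d1 (ch.aHat s G e) q * d1 V q)

/-- (H2), (H3) for `aHat`; bounds for `kHat`. -/
def AHatSpec (k : ℕ) : Prop :=
  ∀ M a0 C : ℝ, 0 < a0 → ∃ C' s0 : ℝ, 1 ≤ C' ∧ 0 < s0 ∧ ∀ s, 0 < s → s ≤ s0 →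
    ∀ β, 0 < β → β ≤ s ^ 2 → ∀ π G e (ch : Chart), PertOK π →
      (∀ i, BdOn univ 8 (β ^ 2) (π i)) → IslandSol k s β M a0 π G e → ch.OK s C G e →
      BdOn (disc 2) 3 (C' * β) (ch.aHat s G e) ∧
      BdOn (disc 2) 3 C' (ch.kHat s (islandMet s β π) G e) ∧
      ∀ q ∈ disc 2, 1 / C' ≤ ch.kHat s (islandMet s β π) G e q ∧
        |ch.aHat s G e q - β / ch.α ^ 2 * (nsq q - 1)| ≤ C' * s * (β / ch.α ^ 2) ∧
        |d2 (ch.aHat s G e) q - 2 * (β / ch.α ^ 2) * q.2| ≤ C' * s * (β / ch.α ^ 2) ∧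
        |d1 (ch.aHat s G e) q - 2 * (β / ch.α ^ 2) * q.1|
          ≤ C' * s * (β / ch.α ^ 2) * (|q.1| + Real.sqrt (β / ch.α ^ 2))

/-- The contribution of a change of metric is linear in the increment, exactly, with bounded
coefficients and leading part `cL * lin2`. -/
def SrcSpec (k : ℕ) : Prop :=
  ∀ M a0 B : ℝ, 0 < a0 → ∃ C s0 : ℝ, 1 ≤ C ∧ 0 < s0 ∧ ∀ s, 0 < s → s ≤ s0 →
    ∀ β, 0 < β → β ≤ s ^ 2 → ∀ π π' G e (A1 A2 A3 : Pl → ℝ), PertOK π → PertOK π' →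
      (∀ i, BdOn univ 8 (β ^ 2) (π i)) → (∀ i, BdOn univ 8 (β ^ 2) (π' i)) →
      IslandSol k s β M a0 π G e →
      ContDiffOn ℝ 3 A1 (disc 3) → ContDiffOn ℝ 3 A2 (disc 3) → ContDiffOn ℝ 3 A3 (disc 3) →
      BdOn (disc 2) 3 B A1 → BdOn (disc 2) 3 B A2 → BdOn (disc 2) 3 B A3 →
      ∃ (cL : Pl → ℝ) (P Q R : Fin 3 → Pl → ℝ),
        ContDiffOn ℝ 3 cL (disc 3) ∧ BdOn (disc 2) 3 C cL ∧
        (∀ i, ContDiffOn ℝ 3 (P i) (disc 3) ∧ ContDiffOn ℝ 3 (Q i) (disc 3) ∧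
          ContDiffOn ℝ 3 (R i) (disc 3) ∧ BdOn (disc 2) 3 C (P i) ∧ BdOn (disc 2) 3 C (Q i) ∧
          BdOn (disc 2) 3 C (R i)) ∧
        ∀ x ∈ disc 2, 1 / 2 ≤ cL x ∧
          srcTerm s (islandMet s β π) (islandMet s β π') A1 A2 A3 (zOf s G e) x
            = cL x * lin2 (fun i x => π i x - π' i x) x
              + jet1 P Q R (fun i x => π i x - π' i x) x

/-- The waves are admissible profiles. -/
def WaveSpec : Prop :=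
  ∃ C N0 : ℕ, 0 < C ∧ ∀ N : ℕ, N0 ≤ N → ∀ δ : Fin N → ℤ, δ ≠ 0 → (∀ j, |δ j| ≤ 1) →
    WaveOK N C (wave N δ)

/-- The targets are admissible. -/
def TgtSpec : Prop :=
  ∃ A : ℕ, ∀ C : ℝ, ∃ s0 > 0, ∃ N0 : ℕ, ∀ s, 0 < s → s ≤ s0 → ∀ N : ℕ, N0 ≤ N →
    ∀ (G : Pl → R3) (e : R3) (ch : Chart), ch.OK s C G e → ∀ (j : Fin N) (i : Fin 3),
      ContDiff ℝ 31 (ch.tgt s G e N j i) ∧ tsupport (ch.tgt s G e N j i) ⊆ disc (9 / 10) ∧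
      BdOn univ 31 ((N : ℝ) ^ A) (ch.tgt s G e N j i)

/-- A signed sum of targets produces the source (H4). -/
def WaveSrcSpec : Prop :=
  ∀ C : ℝ, ∃ C' s0 : ℝ, 1 ≤ C' ∧ 0 < s0 ∧ ∀ s, 0 < s → s ≤ s0 →
    ∀ (G : Pl → R3) (e : R3) (ch : Chart) (κ cL : Pl → ℝ) (P Q R : Fin 3 → Pl → ℝ),
      ch.OK s C G e → ContDiffOn ℝ 3 κ (disc (9 / 5)) → BdOn (disc (9 / 5)) 3 C κ →
      (∀ q ∈ disc (9 / 5), 1 / C ≤ κ q) → ContDiffOn ℝ 3 cL (disc 3) → BdOn (disc 2) 3 C cL →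
      (∀ x ∈ disc 2, 1 / 2 ≤ cL x) →
      (∀ i, ContDiffOn ℝ 3 (P i) (disc 3) ∧ ContDiffOn ℝ 3 (Q i) (disc 3) ∧
        ContDiffOn ℝ 3 (R i) (disc 3) ∧ BdOn (disc 2) 3 C (P i) ∧ BdOn (disc 2) 3 C (Q i) ∧
        BdOn (disc 2) 3 C (R i)) →
      ∃ c0 c1 c2 c3 : Pl → ℝ,
        ContDiffOn ℝ 2 c0 (disc (8 / 5)) ∧ ContDiffOn ℝ 2 c1 (disc (8 / 5)) ∧
        ContDiffOn ℝ 2 c2 (disc (8 / 5)) ∧ ContDiffOn ℝ 2 c3 (disc (8 / 5)) ∧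
        BdOn (disc (8 / 5)) 2 C' c0 ∧ BdOn (disc (8 / 5)) 2 C' c1 ∧
        BdOn (disc (8 / 5)) 2 C' c2 ∧ BdOn (disc (8 / 5)) 2 C' c3 ∧
        (∀ q ∈ disc (8 / 5), 1 / C' ≤ c0 q) ∧
        ∀ (N : ℕ) (t : ℝ) (δ : Fin N → ℤ), 11 ≤ N → ∀ q ∈ disc (8 / 5),
          (cL (ch.Lam q) * lin2 (fun i x => t * ∑ j, (δ j : ℝ) * ch.tgt s G e N j i x) (ch.Lam q)
            + jet1 P Q R (fun i x => t * ∑ j, (δ j : ℝ) * ch.tgt s G e N j i x) (ch.Lam q)) / κ q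
            = source N t c0 c1 c2 c3 (wave N δ) q

end Vale.Agent.P229
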