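import Vale.Agent.P229.Core.Spec
import Vale.Agent.P229.Bd

/-!
# P229, Core: the contribution of a change of metric (`srcSpec`)

All the data are packed in a parameter type `SrcPar`.  `UReg` says that a family of functions is
uniformly bounded in `C³`, `UJet` that it is a uniformly bounded linear form in the one-jet of
`π - π'`, `UD` that two uniformly bounded families differ by `s²` times such a form.  These are
closed under the operations in the formulas of `rcur`, `gradSq` and the covariant Hessian, and the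
only second order term of `srcTerm` is the leading part `(1 - s² |Dz|²) lin2 (π - π')`.
-/

open scoped ContDiff RealInnerProductSpace
open Set

namespace Vale.Agent.P229

theorem d1_affine {u v w : Pl → ℝ} {c : ℝ} (hu : Differentiable ℝ u) (hv : Differentiable ℝ v)
    (hw : Differentiable ℝ w) (h : ∀ x, u x - v x = c * w x) (x : Pl) :
    d1 u x - d1 v x = c * d1 w x := by
  rw [← d1_sub (hu x) (hv x), funext h]
  exact d1_const_smul c (hw x)

theorem d2_affine {u v w : Pl → ℝ} {c : ℝ} (hu : Differentiable ℝ u) (hv : Differentiable ℝ v)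
    (hw : Differentiable ℝ w) (h : ∀ x, u x - v x = c * w x) (x : Pl) :
    d2 u x - d2 v x = c * d2 w x := by
  rw [← d2_sub (hu x) (hv x), funext h]
  exact d2_const_smul c (hw x)

theorem smooth_dir {f : Pl → ℝ} (hf : ContDiff ℝ ∞ f) (w : Pl) :
    ContDiff ℝ ∞ (fun x => fderiv ℝ f x w) :=
  (hf.fderiv_right le_rfl).clm_apply contDiff_const

theorem smooth_d1 {f : Pl → ℝ} (hf : ContDiff ℝ ∞ f) : ContDiff ℝ ∞ (d1 f) := smooth_dir hf (1, 0)

theorem smooth_d2 {f : Pl → ℝ} (hf : ContDiff ℝ ∞ f) : ContDiff ℝ ∞ (d2 f) := smooth_dir hf (0, 1)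

theorem smooth_diff {f : Pl → ℝ} (hf : ContDiff ℝ ∞ f) : Differentiable ℝ f :=
  hf.differentiable (by simp)

private theorem contDiff_psi : ContDiff ℝ ∞ psi := by
  have h : ContDiff ℝ ∞ nsq := by unfold nsq; fun_prop
  unfold psi
  exact ((h.div_const 4).sub ((h.pow 2).div_const 16)).mul
    (Real.smoothTransition.contDiff.comp ((contDiff_const.sub h).div_const 3))

private theorem hasCompactSupport_psi : HasCompactSupport psi := by
  refine HasCompactSupport.intro (isCompact_closedBall (0 : Pl) 3) fun x hx => ?_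
  rw [Metric.mem_closedBall, dist_zero_right, not_le] at hx
  have h9 : 9 ≤ nsq x := by nlinarith [norm_sq_le_nsq x]
  rw [psi, Real.smoothTransition.zero_of_nonpos (by linarith), mul_zero]

/-- The data of `SrcSpec`, with the scale at most `s1`. -/
structure SrcPar (k : ℕ) (M a0 B s1 : ℝ) where
  s : ℝ
  β : ℝ
  π : Pert
  π' : Pert
  G : Pl → R3
  e : R3
  A1 : Pl → ℝ
  A2 : Pl → ℝ
  A3 : Pl → ℝ
  s_pos : 0 < s
  s_le : s ≤ s1
  β_pos : 0 < β
  β_le : β ≤ s ^ 2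
  ok : PertOK π
  ok' : PertOK π'
  bd : ∀ i, BdOn univ 8 (β ^ 2) (π i)
  bd' : ∀ i, BdOn univ 8 (β ^ 2) (π' i)
  sol : IslandSol k s β M a0 π G e
  cA1 : ContDiffOn ℝ 3 A1 (disc 3)
  cA2 : ContDiffOn ℝ 3 A2 (disc 3)
  cA3 : ContDiffOn ℝ 3 A3 (disc 3)
  bA1 : BdOn (disc 2) 3 B A1
  bA2 : BdOn (disc 2) 3 B A2
  bA3 : BdOn (disc 2) 3 B A3

section Calculus

variable {ι : Type}

/-- Uniformly bounded in `C³`. -/
def UReg (f : ι → Pl → ℝ) : Prop :=
  ∃ C : ℝ, ∀ p, ContDiffOn ℝ 3 (f p) (disc 3) ∧ BdOn (disc 2) 3 C (f p)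

variable {f g : ι → Pl → ℝ}

theorem UReg.const (c : ℝ) : UReg fun (_ : ι) (_ : Pl) => c :=
  ⟨‖c‖, fun _ => ⟨contDiffOn_const, bdOn_const _ _ c⟩⟩

theorem UReg.param {c : ι → ℝ} {C : ℝ} (h : ∀ p, |c p| ≤ C) : UReg fun p (_ : Pl) => c p :=
  ⟨C, fun p => ⟨contDiffOn_const, (bdOn_const _ _ (c p)).mono_const (h p)⟩⟩

theorem disc23 : disc 2 ⊆ disc 3 := disc_mono (by norm_num) (by norm_num)

theorem UReg.add (hf : UReg f) (hg : UReg g) : UReg fun p x => f p x + g p x := by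
  obtain ⟨C, hf⟩ := hf
  obtain ⟨D, hg⟩ := hg
  exact ⟨C + D, fun p => ⟨(hf p).1.add (hg p).1,
    (hf p).2.add (isOpen_disc 2) ((hf p).1.mono disc23) ((hg p).1.mono disc23) (hg p).2⟩⟩

theorem UReg.sub (hf : UReg f) (hg : UReg g) : UReg fun p x => f p x - g p x := by
  obtain ⟨C, hf⟩ := hf
  obtain ⟨D, hg⟩ := hg
  exact ⟨C + D, fun p => ⟨(hf p).1.sub (hg p).1,
    (hf p).2.sub (isOpen_disc 2) ((hf p).1.mono disc23) ((hg p).1.mono disc23) (hg p).2⟩⟩

theorem UReg.mul (hf : UReg f) (hg : UReg g) : UReg fun p x => f p x * g p x := by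
  obtain ⟨C, hf⟩ := hf
  obtain ⟨D, hg⟩ := hg
  exact ⟨2 ^ 3 * C * D, fun p => ⟨(hf p).1.mul (hg p).1,
    (hf p).2.mul (isOpen_disc 2) ((hf p).1.mono disc23) ((hg p).1.mono disc23) (hg p).2⟩⟩

theorem UReg.neg (hf : UReg f) : UReg fun p x => -f p x := by
  obtain ⟨C, hf⟩ := hf
  exact ⟨C, fun p => ⟨(hf p).1.neg, (hf p).2.neg⟩⟩

theorem UReg.sq (hf : UReg f) : UReg fun p x => f p x ^ 2 := by
  simpa only [pow_two] using hf.mul hf

theorem UReg.inv (hf : UReg f) {c : ℝ} (hc : 0 < c) (h : ∀ p, ∀ x ∈ disc 3, c ≤ f p x) :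
    UReg fun p x => (f p x)⁻¹ := by
  obtain ⟨C, hf⟩ := hf
  exact ⟨invC 3 c C, fun p => ⟨(hf p).1.inv fun x hx => (hc.trans_le (h p x hx)).ne',
    (hf p).2.inv (isOpen_disc 2) hc ((hf p).1.mono disc23)
      fun x hx => (h p x (disc23 hx)).trans (le_abs_self _)⟩⟩

variable (δ : ι → Pert) (t : ι → ℝ)

/-- A uniformly bounded linear form in the one-jet of `δ`. -/
def UJet (J : ι → Pl → ℝ) : Prop :=
  ∃ P Q R : Fin 3 → ι → Pl → ℝ, (∀ i, UReg (P i) ∧ UReg (Q i) ∧ UReg (R i)) ∧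
    ∀ p, ∀ x ∈ disc 2,
      J p x = jet1 (fun i => P i p) (fun i => Q i p) (fun i => R i p) (δ p) x

/-- Two uniformly bounded families differing by `t` times a form in the one-jet. -/
def UD (a a' : ι → Pl → ℝ) : Prop :=
  UReg a ∧ UReg a' ∧ ∃ J, UJet δ J ∧ ∀ p, ∀ x ∈ disc 2, a p x - a' p x = t p * J p x

variable {δ t} {J J' a a' b b' : ι → Pl → ℝ}

theorem UJet.congr (h : UJet δ J) (he : ∀ p, ∀ x ∈ disc 2, J' p x = J p x) : UJet δ J' := by
  obtain ⟨P, Q, R, hr, hJ⟩ := h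
  exact ⟨P, Q, R, hr, fun p x hx => (he p x hx).trans (hJ p x hx)⟩

theorem UJet.zero : UJet δ fun _ _ => 0 :=
  ⟨fun _ _ _ => 0, fun _ _ _ => 0, fun _ _ _ => 0,
    fun _ => ⟨UReg.const 0, UReg.const 0, UReg.const 0⟩, fun p x _ => by simp [jet1]⟩

theorem UJet.val (i : Fin 3) : UJet δ fun p x => δ p i x := by
  refine ⟨fun j _ _ => if j = i then 1 else 0, fun _ _ _ => 0, fun _ _ _ => 0,
    fun j => ⟨UReg.const _, UReg.const 0, UReg.const 0⟩, fun p x _ => ?_⟩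
  simp [jet1]

theorem UJet.dfst (i : Fin 3) : UJet δ fun p x => d1 (δ p i) x := by
  refine ⟨fun _ _ _ => 0, fun j _ _ => if j = i then 1 else 0, fun _ _ _ => 0,
    fun j => ⟨UReg.const 0, UReg.const _, UReg.const 0⟩, fun p x _ => ?_⟩
  simp [jet1]

theorem UJet.dsnd (i : Fin 3) : UJet δ fun p x => d2 (δ p i) x := by
  refine ⟨fun _ _ _ => 0, fun _ _ _ => 0, fun j _ _ => if j = i then 1 else 0,
    fun j => ⟨UReg.const 0, UReg.const 0, UReg.const _⟩, fun p x _ => ?_⟩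
  simp [jet1]

theorem UJet.add (h : UJet δ J) (h' : UJet δ J') : UJet δ fun p x => J p x + J' p x := by
  obtain ⟨P, Q, R, hr, hJ⟩ := h
  obtain ⟨P', Q', R', hr', hJ'⟩ := h'
  refine ⟨fun i p x => P i p x + P' i p x, fun i p x => Q i p x + Q' i p x,
    fun i p x => R i p x + R' i p x,
    fun i => ⟨(hr i).1.add (hr' i).1, (hr i).2.1.add (hr' i).2.1, (hr i).2.2.add (hr' i).2.2⟩,
    fun p x hx => ?_⟩
  show J p x + J' p x = _
  rw [hJ p x hx, hJ' p x hx]
  simp only [jet1, ← Finset.sum_add_distrib]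
  exact Finset.sum_congr rfl fun i _ => by ring

theorem UJet.mul (hf : UReg f) (h : UJet δ J) : UJet δ fun p x => f p x * J p x := by
  obtain ⟨P, Q, R, hr, hJ⟩ := h
  refine ⟨fun i p x => f p x * P i p x, fun i p x => f p x * Q i p x,
    fun i p x => f p x * R i p x,
    fun i => ⟨hf.mul (hr i).1, hf.mul (hr i).2.1, hf.mul (hr i).2.2⟩, fun p x hx => ?_⟩
  show f p x * J p x = _
  rw [hJ p x hx]
  simp only [jet1, Finset.mul_sum]
  exact Finset.sum_congr rfl fun i _ => by ring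

theorem UJet.neg (h : UJet δ J) : UJet δ fun p x => -J p x :=
  (UJet.mul (UReg.const (-1)) h).congr fun p x _ => by ring

theorem UJet.sub (h : UJet δ J) (h' : UJet δ J') : UJet δ fun p x => J p x - J' p x :=
  (h.add h'.neg).congr fun p x _ => by ring

theorem UD.same (h : UReg f) : UD δ t f f :=
  ⟨h, h, _, UJet.zero, fun p x _ => by simp⟩

theorem UD.const (c : ℝ) : UD δ t (fun _ _ => c) (fun _ _ => c) := UD.same (UReg.const c)

theorem UD.add (h : UD δ t a a') (h' : UD δ t b b') :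
    UD δ t (fun p x => a p x + b p x) (fun p x => a' p x + b' p x) := by
  obtain ⟨ha, ha', J, hJ, he⟩ := h
  obtain ⟨hb, hb', K, hK, he'⟩ := h'
  exact ⟨ha.add hb, ha'.add hb', _, hJ.add hK, fun p x hx => by
    linear_combination he p x hx + he' p x hx⟩

theorem UD.sub (h : UD δ t a a') (h' : UD δ t b b') :
    UD δ t (fun p x => a p x - b p x) (fun p x => a' p x - b' p x) := by
  obtain ⟨ha, ha', J, hJ, he⟩ := h
  obtain ⟨hb, hb', K, hK, he'⟩ := h'
  exact ⟨ha.sub hb, ha'.sub hb', _, hJ.sub hK, fun p x hx => by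
    linear_combination he p x hx - he' p x hx⟩

theorem UD.mul (h : UD δ t a a') (h' : UD δ t b b') :
    UD δ t (fun p x => a p x * b p x) (fun p x => a' p x * b' p x) := by
  obtain ⟨ha, ha', J, hJ, he⟩ := h
  obtain ⟨hb, hb', K, hK, he'⟩ := h'
  exact ⟨ha.mul hb, ha'.mul hb', _, (UJet.mul hb hJ).add (UJet.mul ha' hK), fun p x hx => by
    linear_combination b p x * he p x hx + a' p x * he' p x hx⟩

theorem UD.sq (h : UD δ t a a') : UD δ t (fun p x => a p x ^ 2) (fun p x => a' p x ^ 2) := by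
  simpa only [pow_two] using h.mul h

theorem UD.inv (h : UD δ t a a') {c : ℝ} (hc : 0 < c) (hl : ∀ p, ∀ x ∈ disc 3, c ≤ a p x)
    (hl' : ∀ p, ∀ x ∈ disc 3, c ≤ a' p x) :
    UD δ t (fun p x => (a p x)⁻¹) (fun p x => (a' p x)⁻¹) := by
  obtain ⟨ha, ha', J, hJ, he⟩ := h
  have hi := ha.inv hc hl
  have hi' := ha'.inv hc hl'
  refine ⟨hi, hi', _, UJet.mul (hi.mul hi') hJ.neg, fun p x hx => ?_⟩
  have h1 : a p x ≠ 0 := (hc.trans_le (hl p x (disc23 hx))).ne'
  have h2 : a' p x ≠ 0 := (hc.trans_le (hl' p x (disc23 hx))).ne'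
  have := he p x hx
  field_simp
  linear_combination -this

theorem UD.div (h' : UD δ t b b') (h : UD δ t a a') {c : ℝ} (hc : 0 < c)
    (hl : ∀ p, ∀ x ∈ disc 3, c ≤ a p x) (hl' : ∀ p, ∀ x ∈ disc 3, c ≤ a' p x) :
    UD δ t (fun p x => b p x / a p x) (fun p x => b' p x / a' p x) := by
  simpa only [div_eq_mul_inv] using h'.mul (h.inv hc hl hl')

end Calculus

section Island

variable {k : ℕ} {M a0 B s1 : ℝ}

/-- `δ = π - π'`. -/
def SrcPar.dpi (p : SrcPar k M a0 B s1) : Pert := fun i x => p.π i x - p.π' i x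

/-- `s²`. -/
def SrcPar.t (p : SrcPar k M a0 B s1) : ℝ := p.s ^ 2

/-- The metric. -/
noncomputable def SrcPar.m (p : SrcPar k M a0 B s1) : Met := islandMet p.s p.β p.π

/-- The changed metric. -/
noncomputable def SrcPar.m' (p : SrcPar k M a0 B s1) : Met := islandMet p.s p.β p.π'

/-- The height. -/
noncomputable def SrcPar.z (p : SrcPar k M a0 B s1) : Pl → ℝ := zOf p.s p.G p.e

theorem SrcPar.smooth_m {s β : ℝ} {π : Pert} (h : PertOK π) :
    ContDiff ℝ ∞ (islandMet s β π).e ∧ ContDiff ℝ ∞ (islandMet s β π).f ∧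
      ContDiff ℝ ∞ (islandMet s β π).g :=
  ⟨contDiff_const.add (contDiff_const.mul ((contDiff_const.mul contDiff_psi).add (h 0).1)),
    contDiff_const.mul (h 1).1,
    contDiff_const.add (contDiff_const.mul ((contDiff_const.mul contDiff_psi).add (h 2).1))⟩

theorem SrcPar.smooth_dpi (p : SrcPar k M a0 B s1) (i : Fin 3) : ContDiff ℝ ∞ (p.dpi i) :=
  (p.ok i).1.sub (p.ok' i).1

variable (hs1 : s1 ≤ 1)
include hs1

theorem SrcPar.t_le (p : SrcPar k M a0 B s1) : |p.t| ≤ 1 := by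
  rw [SrcPar.t, abs_of_nonneg (sq_nonneg _)]
  exact pow_le_one₀ p.s_pos.le (p.s_le.trans hs1)

theorem SrcPar.β_le_one (p : SrcPar k M a0 B s1) : p.β ≤ 1 :=
  p.β_le.trans (pow_le_one₀ p.s_pos.le (p.s_le.trans hs1))

/-- The coefficients of the metric are uniformly bounded in `C⁸`. -/
theorem coef_bound : ∃ C : ℝ, ∀ (s β : ℝ) (π : Pert), 0 < s → s ≤ s1 → 0 < β → β ≤ s ^ 2 →
    PertOK π → (∀ i, BdOn univ 8 (β ^ 2) (π i)) →
      BdOn univ 8 C (islandMet s β π).e ∧ BdOn univ 8 C (islandMet s β π).f ∧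
        BdOn univ 8 C (islandMet s β π).g := by
  obtain ⟨Cp, hCp, hp⟩ := exists_bdOn_univ (k := 8) (contDiff_psi.of_le (WithTop.coe_le_coe.2 le_top))
    hasCompactSupport_psi
  refine ⟨1 + (2 * Cp + 1), fun s β π hs hs' hβ hβ' hπ hπb => ?_⟩
  have hs2 : |s ^ 2| ≤ 1 := by
    rw [abs_of_nonneg (sq_nonneg _)]
    exact pow_le_one₀ hs.le (hs'.trans hs1)
  have hβ1 : β ≤ 1 := hβ'.trans ((le_abs_self _).trans hs2)
  have hπ8 : ∀ i, ContDiffOn ℝ 8 (π i) univ := fun i =>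
    ((hπ i).1.of_le (WithTop.coe_le_coe.2 le_top)).contDiffOn
  have hψ8 : ContDiffOn ℝ 8 psi univ :=
    (contDiff_psi.of_le (WithTop.coe_le_coe.2 le_top)).contDiffOn
  have hβ2 : β ^ 2 ≤ 1 := pow_le_one₀ hβ.le hβ1
  have hd : ∀ i, BdOn univ 8 (1 + (2 * Cp + 1))
      (fun x => 1 + s ^ 2 * (2 * β * psi x + π i x)) := by
    intro i
    have h1 := (hp.const_mul isOpen_univ (2 * β) hψ8).mono_const (C' := 2 * Cp)
      (mul_le_mul_of_nonneg_right (by rw [abs_of_pos (by linarith)]; linarith) hCp)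
    have h2 := h1.add isOpen_univ (contDiffOn_const.mul hψ8) (hπ8 i) ((hπb i).mono_const hβ2)
    have h3 := (h2.const_mul isOpen_univ (s ^ 2) ((contDiffOn_const.mul hψ8).add (hπ8 i))).mono_const
      (mul_le_of_le_one_left (by linarith) hs2)
    exact ((bdOn_const univ 8 (1 : ℝ)).mono_const (C' := 1) (by simp)).add isOpen_univ
      contDiffOn_const (contDiffOn_const.mul ((contDiffOn_const.mul hψ8).add (hπ8 i))) h3
  refine ⟨hd 0, ?_, hd 2⟩
  exact ((hπb 1).const_mul isOpen_univ (s ^ 2) (hπ8 1)).mono_const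
    ((mul_le_of_le_one_left (sq_nonneg _) hs2).trans (by linarith))

omit hs1 in
theorem ureg_of_univ {ι : Type} {f : ι → Pl → ℝ} {C : ℝ} {n : ℕ} (hn : 3 ≤ n)
    (hf : ∀ p, ContDiff ℝ ∞ (f p)) (hb : ∀ p, BdOn univ n C (f p)) : UReg f :=
  ⟨C, fun p => ⟨((hf p).of_le (WithTop.coe_le_coe.2 le_top)).contDiffOn,
    ((hb p).mono_order hn).mono_set (subset_univ _)⟩⟩

omit hs1 in
theorem bd_d1_univ {n : ℕ} {C : ℝ} {f : Pl → ℝ} (hf : ContDiff ℝ ∞ f) (h : BdOn univ (n + 1) C f) :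
    BdOn univ n C (d1 f) :=
  h.d1 isOpen_univ ((hf.of_le (WithTop.coe_le_coe.2 le_top)).contDiffOn)

omit hs1 in
theorem bd_d2_univ {n : ℕ} {C : ℝ} {f : Pl → ℝ} (hf : ContDiff ℝ ∞ f) (h : BdOn univ (n + 1) C f) :
    BdOn univ n C (d2 f) :=
  h.d2 isOpen_univ ((hf.of_le (WithTop.coe_le_coe.2 le_top)).contDiffOn)


omit hs1 in
/-- `UD` for island parameters. -/
def SD (a a' : SrcPar k M a0 B s1 → Pl → ℝ) : Prop :=
  UD (fun p => p.dpi) (fun p => p.t) a a'

theorem SrcPar.ureg_t : UReg fun (p : SrcPar k M a0 B s1) (_ : Pl) => p.t :=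
  UReg.param fun p => p.t_le hs1

theorem ud_coef :
    SD (k := k) (M := M) (a0 := a0) (B := B) (s1 := s1) (fun p => p.m.e) (fun p => p.m'.e) ∧
    SD (k := k) (M := M) (a0 := a0) (B := B) (s1 := s1) (fun p => p.m.f) (fun p => p.m'.f) ∧
    SD (k := k) (M := M) (a0 := a0) (B := B) (s1 := s1) (fun p => p.m.g) (fun p => p.m'.g) := by
  obtain ⟨C, hC⟩ := coef_bound hs1
  have h := fun p : SrcPar k M a0 B s1 => hC p.s p.β p.π p.s_pos p.s_le p.β_pos p.β_le p.ok p.bd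
  have h' := fun p : SrcPar k M a0 B s1 => hC p.s p.β p.π' p.s_pos p.s_le p.β_pos p.β_le p.ok' p.bd'
  refine ⟨⟨ureg_of_univ (n := 8) (by norm_num) (fun p => (SrcPar.smooth_m p.ok).1) fun p => (h p).1,
      ureg_of_univ (n := 8) (by norm_num) (fun p => (SrcPar.smooth_m p.ok').1) fun p => (h' p).1,
      _, UJet.val 0, fun p x _ => ?_⟩,
    ⟨ureg_of_univ (n := 8) (by norm_num) (fun p => (SrcPar.smooth_m p.ok).2.1) fun p => (h p).2.1,
      ureg_of_univ (n := 8) (by norm_num) (fun p => (SrcPar.smooth_m p.ok').2.1) fun p => (h' p).2.1,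
      _, UJet.val 1, fun p x _ => ?_⟩,
    ⟨ureg_of_univ (n := 8) (by norm_num) (fun p => (SrcPar.smooth_m p.ok).2.2) fun p => (h p).2.2,
      ureg_of_univ (n := 8) (by norm_num) (fun p => (SrcPar.smooth_m p.ok').2.2) fun p => (h' p).2.2,
      _, UJet.val 2, fun p x _ => ?_⟩⟩
  all_goals simp only [SrcPar.m, SrcPar.m', SrcPar.t, SrcPar.dpi, islandMet]; ring

omit hs1 in
theorem coef_diff (p : SrcPar k M a0 B s1) :
    (∀ x, p.m.e x - p.m'.e x = p.t * p.dpi 0 x) ∧ (∀ x, p.m.f x - p.m'.f x = p.t * p.dpi 1 x) ∧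
      ∀ x, p.m.g x - p.m'.g x = p.t * p.dpi 2 x := by
  refine ⟨fun x => ?_, fun x => ?_, fun x => ?_⟩ <;>
    simp only [SrcPar.m, SrcPar.m', SrcPar.t, SrcPar.dpi, islandMet] <;> ring

omit hs1 in
/-- The first derivatives of one coefficient. -/
theorem ud_partials {u u' : SrcPar k M a0 B s1 → Pl → ℝ} (i : Fin 3) {C : ℝ}
    (hu : ∀ p, ContDiff ℝ ∞ (u p) ∧ BdOn univ 8 C (u p))
    (hu' : ∀ p, ContDiff ℝ ∞ (u' p) ∧ BdOn univ 8 C (u' p))
    (he : ∀ p x, u p x - u' p x = p.t * p.dpi i x) :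
    SD (fun p => d1 (u p)) (fun p => d1 (u' p)) ∧ SD (fun p => d2 (u p)) (fun p => d2 (u' p)) := by
  refine ⟨⟨ureg_of_univ (n := 7) (by norm_num) (fun p => smooth_d1 (hu p).1)
      fun p => bd_d1_univ (hu p).1 (hu p).2,
    ureg_of_univ (n := 7) (by norm_num) (fun p => smooth_d1 (hu' p).1)
      fun p => bd_d1_univ (hu' p).1 (hu' p).2,
    _, UJet.dfst i, fun p x _ => ?_⟩,
    ⟨ureg_of_univ (n := 7) (by norm_num) (fun p => smooth_d2 (hu p).1)
      fun p => bd_d2_univ (hu p).1 (hu p).2,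
    ureg_of_univ (n := 7) (by norm_num) (fun p => smooth_d2 (hu' p).1)
      fun p => bd_d2_univ (hu' p).1 (hu' p).2,
    _, UJet.dsnd i, fun p x _ => ?_⟩⟩
  · exact d1_affine (smooth_diff (hu p).1) (smooth_diff (hu' p).1)
      (smooth_diff (p.smooth_dpi i)) (he p) x
  · exact d2_affine (smooth_diff (hu p).1) (smooth_diff (hu' p).1)
      (smooth_diff (p.smooth_dpi i)) (he p) x

theorem coef_partials :
    SD (k := k) (M := M) (a0 := a0) (B := B) (s1 := s1) (fun p => d1 p.m.e) (fun p => d1 p.m'.e) ∧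
    SD (k := k) (M := M) (a0 := a0) (B := B) (s1 := s1) (fun p => d2 p.m.e) (fun p => d2 p.m'.e) ∧
    SD (k := k) (M := M) (a0 := a0) (B := B) (s1 := s1) (fun p => d1 p.m.f) (fun p => d1 p.m'.f) ∧
    SD (k := k) (M := M) (a0 := a0) (B := B) (s1 := s1) (fun p => d2 p.m.f) (fun p => d2 p.m'.f) ∧
    SD (k := k) (M := M) (a0 := a0) (B := B) (s1 := s1) (fun p => d1 p.m.g) (fun p => d1 p.m'.g) ∧
    SD (k := k) (M := M) (a0 := a0) (B := B) (s1 := s1) (fun p => d2 p.m.g) (fun p => d2 p.m'.g) := by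
  obtain ⟨C, hC⟩ := coef_bound hs1
  have h := fun p : SrcPar k M a0 B s1 => hC p.s p.β p.π p.s_pos p.s_le p.β_pos p.β_le p.ok p.bd
  have h' := fun p : SrcPar k M a0 B s1 => hC p.s p.β p.π' p.s_pos p.s_le p.β_pos p.β_le p.ok' p.bd'
  obtain ⟨a, b⟩ := ud_partials (u := fun p => p.m.e) (u' := fun p => p.m'.e) 0
    (fun p => ⟨(SrcPar.smooth_m p.ok).1, (h p).1⟩) (fun p => ⟨(SrcPar.smooth_m p.ok').1, (h' p).1⟩)
    fun p => (coef_diff p).1
  obtain ⟨c, d⟩ := ud_partials (u := fun p => p.m.f) (u' := fun p => p.m'.f) 1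
    (fun p => ⟨(SrcPar.smooth_m p.ok).2.1, (h p).2.1⟩)
    (fun p => ⟨(SrcPar.smooth_m p.ok').2.1, (h' p).2.1⟩) fun p => (coef_diff p).2.1
  obtain ⟨e, f⟩ := ud_partials (u := fun p => p.m.g) (u' := fun p => p.m'.g) 2
    (fun p => ⟨(SrcPar.smooth_m p.ok).2.2, (h p).2.2⟩)
    (fun p => ⟨(SrcPar.smooth_m p.ok').2.2, (h' p).2.2⟩) fun p => (coef_diff p).2.2
  exact ⟨a, b, c, d, e, f⟩

/-- The second order part of `rcur`. -/
noncomputable def secondPart (m : Met) (x : Pl) : ℝ :=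
  -(1 / 2) * (d2 (d2 m.e) x - 2 * d1 (d2 m.f) x + d1 (d1 m.g) x)

theorem second_part :
    (UReg fun (p : SrcPar k M a0 B s1) x => secondPart p.m' x) ∧
    ∀ (p : SrcPar k M a0 B s1) x,
      secondPart p.m x - secondPart p.m' x = p.t * lin2 p.dpi x := by
  obtain ⟨C, hC⟩ := coef_bound hs1
  have h' := fun p : SrcPar k M a0 B s1 => hC p.s p.β p.π' p.s_pos p.s_le p.β_pos p.β_le p.ok' p.bd'
  have s' := fun p : SrcPar k M a0 B s1 => SrcPar.smooth_m (s := p.s) (β := p.β) p.ok'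
  have r1 : UReg fun (p : SrcPar k M a0 B s1) x => d2 (d2 p.m'.e) x :=
    ureg_of_univ (n := 6) (by norm_num) (fun p => smooth_d2 (smooth_d2 (s' p).1))
      fun p => bd_d2_univ (smooth_d2 (s' p).1) (bd_d2_univ (s' p).1 (h' p).1)
  have r2 : UReg fun (p : SrcPar k M a0 B s1) x => d1 (d2 p.m'.f) x :=
    ureg_of_univ (n := 6) (by norm_num) (fun p => smooth_d1 (smooth_d2 (s' p).2.1))
      fun p => bd_d1_univ (smooth_d2 (s' p).2.1) (bd_d2_univ (s' p).2.1 (h' p).2.1)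
  have r3 : UReg fun (p : SrcPar k M a0 B s1) x => d1 (d1 p.m'.g) x :=
    ureg_of_univ (n := 6) (by norm_num) (fun p => smooth_d1 (smooth_d1 (s' p).2.2))
      fun p => bd_d1_univ (smooth_d1 (s' p).2.2) (bd_d1_univ (s' p).2.2 (h' p).2.2)
  refine ⟨(UReg.const (-(1 / 2))).mul ((r1.sub ((UReg.const 2).mul r2)).add r3), fun p x => ?_⟩
  have sm := SrcPar.smooth_m (s := p.s) (β := p.β) p.ok
  have sm' := s' p
  have e1 := d2_affine (smooth_diff (smooth_d2 sm.1)) (smooth_diff (smooth_d2 sm'.1))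
    (smooth_diff (smooth_d2 (p.smooth_dpi 0)))
    (d2_affine (smooth_diff sm.1) (smooth_diff sm'.1) (smooth_diff (p.smooth_dpi 0))
      (coef_diff p).1) x
  have e2 := d1_affine (smooth_diff (smooth_d2 sm.2.1)) (smooth_diff (smooth_d2 sm'.2.1))
    (smooth_diff (smooth_d2 (p.smooth_dpi 1)))
    (d2_affine (smooth_diff sm.2.1) (smooth_diff sm'.2.1) (smooth_diff (p.smooth_dpi 1))
      (coef_diff p).2.1) x
  have e3 := d1_affine (smooth_diff (smooth_d1 sm.2.2)) (smooth_diff (smooth_d1 sm'.2.2))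
    (smooth_diff (smooth_d1 (p.smooth_dpi 2)))
    (d1_affine (smooth_diff sm.2.2) (smooth_diff sm'.2.2) (smooth_diff (p.smooth_dpi 2))
      (coef_diff p).2.2) x
  simp only [secondPart, lin2, SrcPar.m, SrcPar.m']
  linear_combination -(1 / 2 : ℝ) * (e1 - 2 * e2 + e3)

/-- The coefficients stay near those of the plane. -/
theorem det_bound : ∃ s2 : ℝ, 0 < s2 ∧ ∀ (s β : ℝ) (π : Pert), 0 < s → s ≤ s1 → s ≤ s2 →
    0 < β → β ≤ s ^ 2 → (∀ i, BdOn univ 8 (β ^ 2) (π i)) →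
      ∀ x, 1 / 2 ≤ (islandMet s β π).det x := by
  obtain ⟨Cp, hCp, hp⟩ := exists_bdOn_univ (k := 0) (contDiff_psi.of_le (WithTop.coe_le_coe.2 le_top))
    hasCompactSupport_psi
  refine ⟨1 / (8 * (2 * Cp + 1)), by positivity, fun s β π hs hs' hs2 hβ hβ' hπ x => ?_⟩
  have hs1' : s ≤ 1 := hs'.trans hs1
  have hβ1 : β ≤ 1 := hβ'.trans (pow_le_one₀ hs.le hs1')
  have hsC : s * (2 * Cp + 1) ≤ 1 / 8 := by
    have := (le_div_iff₀ (by positivity : (0 : ℝ) < 8 * (2 * Cp + 1))).1 hs2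
    linarith
  have hψ : |psi x| ≤ Cp := hp.norm_le (mem_univ x)
  have hb : ∀ i, |π i x| ≤ 1 := fun i =>
    ((hπ i).norm_le (mem_univ x)).trans (pow_le_one₀ hβ.le hβ1)
  have hψ' : |2 * β * psi x| ≤ 2 * Cp := by
    rw [abs_mul, abs_of_pos (by positivity : (0 : ℝ) < 2 * β)]
    calc 2 * β * |psi x| ≤ 2 * 1 * Cp := by gcongr
      _ = 2 * Cp := by ring
  have hsm : ∀ v : ℝ, |v| ≤ 2 * Cp + 1 → |s ^ 2 * v| ≤ 1 / 8 := fun v hv => by
    rw [abs_mul, abs_of_nonneg (sq_nonneg s)]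
    calc s ^ 2 * |v| ≤ s ^ 1 * (2 * Cp + 1) :=
          mul_le_mul (pow_le_pow_of_le_one hs.le hs1' (by norm_num)) hv (abs_nonneg _)
            (by positivity)
      _ ≤ 1 / 8 := by rwa [pow_one]
  have h0 := abs_le.1 (hsm _ ((abs_add_le _ _).trans (add_le_add hψ' (hb 0))))
  have h2 := abs_le.1 (hsm _ ((abs_add_le _ _).trans (add_le_add hψ' (hb 2))))
  have h1 := abs_le.1 (hsm _ ((hb 1).trans (by linarith)))
  show _ ≤ (1 + s ^ 2 * (2 * β * psi x + π 0 x)) * (1 + s ^ 2 * (2 * β * psi x + π 2 x))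
    - (s ^ 2 * π 1 x) ^ 2
  nlinarith

omit hs1 in
/-- The height is bounded in `C⁵` on the disc of radius three. -/
theorem height_bound (hk : 5 ≤ k) (hs1 : s1 ≤ 1) : ∃ C : ℝ, ∀ p : SrcPar k M a0 B s1,
    ContDiffOn ℝ 5 p.z (disc 3) ∧ BdOn (disc 3) 5 C p.z := by
  refine ⟨18 * |M| + |M|, fun p => ?_⟩
  obtain ⟨hG, -, hG0, hGb, he, he1, he2, -⟩ := p.sol
  have hG5 : ContDiffOn ℝ 5 p.G (disc 4) := hG.of_le (mod_cast hk)
  have hU := isOpen_disc 4
  have hs := p.s_pos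
  have hsle : p.s ≤ 1 := p.s_le.trans hs1
  have hz : ContDiffOn ℝ 5 p.z (disc 4) := (hG5.inner ℝ contDiffOn_const).div_const _
  have hzeq : p.z = fun x => (p.s⁻¹ • innerSL ℝ p.e) (p.G x) := by
    funext x
    simp [SrcPar.z, zOf, real_inner_comm, div_eq_inv_mul]
  have hnorm : ‖p.s⁻¹ • (innerSL ℝ p.e : R3 →L[ℝ] ℝ)‖ ≤ p.s⁻¹ := by
    rw [norm_smul, Real.norm_of_nonneg (inv_nonneg.2 hs.le), innerSL_apply_norm, he, mul_one]
  have high : ∀ j, 2 ≤ j → j ≤ 5 → ∀ x ∈ disc 4, ‖iteratedFDeriv ℝ j p.z x‖ ≤ |M| := by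
    intro j h2 h5 x hx
    rw [hzeq]
    refine ((p.s⁻¹ • (innerSL ℝ p.e : R3 →L[ℝ] ℝ)).norm_iteratedFDeriv_comp_left
      (hG5.contDiffAt (hU.mem_nhds hx)) (mod_cast h5)).trans ?_
    calc _ ≤ p.s⁻¹ * (|M| * p.s ^ (j - 1)) :=
          mul_le_mul hnorm ((hGb j h2 (h5.trans hk) x hx).trans
            (mul_le_mul_of_nonneg_right (le_abs_self M) (by positivity))) (norm_nonneg _)
            (inv_nonneg.2 hs.le)
      _ = |M| * p.s ^ (j - 2) := by
          rw [show j - 1 = j - 2 + 1 by omega, pow_succ]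
          field_simp
      _ ≤ |M| := mul_le_of_le_one_right (abs_nonneg _) (pow_le_one₀ hs.le hsle)
  have h0 : (0 : Pl) ∈ disc 4 := zero_mem_disc (by norm_num)
  have hD0 : fderiv ℝ p.z 0 = 0 := by
    have hd : DifferentiableAt ℝ p.G 0 := diffAt_of_open hU hG5 (by norm_num) h0
    rw [hzeq]
    have hc := ((p.s⁻¹ • (innerSL ℝ p.e : R3 →L[ℝ] ℝ)).hasFDerivAt.comp (0 : Pl)
      hd.hasFDerivAt).fderiv
    refine hc.trans (ContinuousLinearMap.ext fun v => ?_)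
    simp only [ContinuousLinearMap.comp_apply, zero_apply]
    rw [clm_apply_eq_d (fderiv ℝ p.G 0) v]
    rw [real_inner_comm] at he1 he2
    have k1 : ⟪p.e, fderiv ℝ p.G 0 (1, 0)⟫ = 0 := he1
    have k2 : ⟪p.e, fderiv ℝ p.G 0 (0, 1)⟫ = 0 := he2
    simp [inner_add_right, real_inner_smul_right, k1, k2]
  have hdiffz : ∀ y ∈ disc 4, DifferentiableAt ℝ p.z y := fun y hy =>
    diffAt_of_open hU hz (by norm_num) hy
  have hdiffDz : ∀ y ∈ disc 4, DifferentiableAt ℝ (fderiv ℝ p.z) y := fun y hy =>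
    diffAt_of_open hU (ContDiffOn.fderivPl (k := 4) hU hz) (by norm_num) hy
  have hDz : ∀ x ∈ disc 3, ‖fderiv ℝ p.z x‖ ≤ 3 * |M| := by
    intro x hx
    have hsub : disc 3 ⊆ disc 4 := disc_mono (by norm_num) (by norm_num)
    have h := (convex_disc 3).norm_image_sub_le_of_norm_fderiv_le
      (fun y hy => hdiffDz y (hsub hy)) (C := |M|) (fun y hy => ?_)
      (zero_mem_disc (by norm_num)) hx
    · rw [hD0, sub_zero, sub_zero] at h
      refine h.trans ?_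
      rw [mul_comm 3]
      exact mul_le_mul_of_nonneg_left (norm_lt_of_mem_disc (by norm_num) hx).le (abs_nonneg _)
    · rw [← norm_iteratedFDeriv_one, norm_iteratedFDeriv_fderiv]
      exact high 2 le_rfl (by norm_num) y (hsub hy)
  have hsub : disc 3 ⊆ disc 4 := disc_mono (by norm_num) (by norm_num)
  refine ⟨hz.mono hsub, fun j hj x hx => ?_⟩
  rcases j with _ | _ | j
  · rw [norm_iteratedFDeriv_zero]
    have h := (convex_disc 3).norm_image_sub_le_of_norm_fderiv_le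
      (fun y hy => hdiffz y (hsub hy)) hDz (zero_mem_disc (by norm_num)) hx
    have hz0 : p.z 0 = 0 := by simp [SrcPar.z, zOf, hG0]
    rw [hz0, sub_zero, sub_zero] at h
    have := norm_lt_of_mem_disc (by norm_num) hx
    nlinarith [abs_nonneg M, norm_nonneg x]
  · rw [norm_iteratedFDeriv_one]
    linarith [hDz x hx, abs_nonneg M]
  · exact (high (j + 2) (by omega) hj x (hsub hx)).trans (by linarith [abs_nonneg M])

omit hs1 in
theorem height_reg (hk : 5 ≤ k) (hs1 : s1 ≤ 1) :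
    (UReg fun (p : SrcPar k M a0 B s1) => d1 p.z) ∧
    (UReg fun (p : SrcPar k M a0 B s1) => d2 p.z) ∧
    (UReg fun (p : SrcPar k M a0 B s1) => d1 (d1 p.z)) ∧
    (UReg fun (p : SrcPar k M a0 B s1) => d1 (d2 p.z)) ∧
    (UReg fun (p : SrcPar k M a0 B s1) => d2 (d2 p.z)) := by
  obtain ⟨C, hC⟩ := height_bound (M := M) (a0 := a0) (B := B) hk hs1
  have hU := isOpen_disc 3
  have a1 := fun p => contDiffOn_d1 (k := 4) hU (hC p).1
  have a2 := fun p => contDiffOn_d2 (k := 4) hU (hC p).1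
  have b1 := fun p => (hC p).2.d1 (k := 4) hU (hC p).1
  have b2 := fun p => (hC p).2.d2 (k := 4) hU (hC p).1
  exact ⟨⟨C, fun p => ⟨(a1 p).of_le (by norm_num), ((b1 p).mono_order (by norm_num)).mono_set disc23⟩⟩,
    ⟨C, fun p => ⟨(a2 p).of_le (by norm_num), ((b2 p).mono_order (by norm_num)).mono_set disc23⟩⟩,
    ⟨C, fun p => ⟨contDiffOn_d1 (k := 3) hU (a1 p), ((b1 p).d1 (k := 3) hU (a1 p)).mono_set disc23⟩⟩,
    ⟨C, fun p => ⟨contDiffOn_d1 (k := 3) hU (a2 p), ((b2 p).d1 (k := 3) hU (a2 p)).mono_set disc23⟩⟩,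
    ⟨C, fun p => ⟨contDiffOn_d2 (k := 3) hU (a2 p), ((b2 p).d2 (k := 3) hU (a2 p)).mono_set disc23⟩⟩⟩

end Island

/-- The exact decomposition of the source. -/
theorem srcSpec {k : ℕ} (hk : 40 ≤ k) : SrcSpec k := by
  intro M a0 B _
  obtain ⟨s2, hs2, hdet⟩ := det_bound (s1 := (1 : ℝ)) le_rfl
  set s1 := min 1 s2 with hs1def
  have hs1 : s1 ≤ 1 := min_le_left _ _
  have hs1pos : 0 < s1 := lt_min one_pos hs2
  let Q := SrcPar k M a0 B s1
  have hm : ∀ (p : Q), ∀ x ∈ disc 3, (1 : ℝ) ≤ 2 * p.m.det x := fun p x _ => by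
    linarith [show 1 / 2 ≤ p.m.det x from hdet p.s p.β p.π p.s_pos (p.s_le.trans hs1)
      (p.s_le.trans (min_le_right _ _)) p.β_pos p.β_le p.bd x]
  have hm' : ∀ (p : Q), ∀ x ∈ disc 3, (1 : ℝ) ≤ 2 * p.m'.det x := fun p x _ => by
    linarith [show 1 / 2 ≤ p.m'.det x from hdet p.s p.β p.π' p.s_pos (p.s_le.trans hs1)
      (p.s_le.trans (min_le_right _ _)) p.β_pos p.β_le p.bd' x]
  obtain ⟨he, hf, hg⟩ := ud_coef (k := k) (M := M) (a0 := a0) (B := B) hs1
  obtain ⟨he1, he2, hf1, hf2, hg1, hg2⟩ := coef_partials (k := k) (M := M) (a0 := a0) (B := B) hs1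
  obtain ⟨hsec, hsec'⟩ := second_part (k := k) (M := M) (a0 := a0) (B := B) hs1
  obtain ⟨z1, z2, z11, z12, z22⟩ := height_reg (M := M) (a0 := a0) (B := B) (by omega : 5 ≤ k) hs1
  have hD : SD (fun (p : Q) x => p.m.det x) (fun p x => p.m'.det x) := (he.mul hg).sub hf.sq
  have hD2 : SD (fun (p : Q) x => 2 * p.m.det x) (fun p x => 2 * p.m'.det x) := (UD.const 2).mul hD
  have two : SD (fun (_ : Q) (_ : Pl) => (2 : ℝ)) (fun _ _ => 2) := UD.const 2
  have h111 : SD (fun (p : Q) x => p.m.c111 x) (fun p x => p.m'.c111 x) :=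
    (((hg.mul he1).sub ((two.mul hf).mul hf1)).add (hf.mul he2)).div hD2 one_pos hm hm'
  have h211 : SD (fun (p : Q) x => p.m.c211 x) (fun p x => p.m'.c211 x) :=
    ((((two.mul he).mul hf1).sub (he.mul he2)).sub (hf.mul he1)).div hD2 one_pos hm hm'
  have h112 : SD (fun (p : Q) x => p.m.c112 x) (fun p x => p.m'.c112 x) :=
    ((hg.mul he2).sub (hf.mul hg1)).div hD2 one_pos hm hm'
  have h212 : SD (fun (p : Q) x => p.m.c212 x) (fun p x => p.m'.c212 x) :=
    ((he.mul hg1).sub (hf.mul he2)).div hD2 one_pos hm hm'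
  have h122 : SD (fun (p : Q) x => p.m.c122 x) (fun p x => p.m'.c122 x) :=
    ((((two.mul hg).mul hf2).sub (hg.mul hg1)).sub (hf.mul hg2)).div hD2 one_pos hm hm'
  have h222 : SD (fun (p : Q) x => p.m.c222 x) (fun p x => p.m'.c222 x) :=
    (((he.mul hg2).sub ((two.mul hf).mul hf2)).add (hf.mul hg1)).div hD2 one_pos hm hm'
  let quad : Met → Pl → ℝ := fun m x => m.e x * (m.c112 x ^ 2 - m.c111 x * m.c122 x)
    + m.f x * (2 * m.c112 x * m.c212 x - m.c111 x * m.c222 x - m.c211 x * m.c122 x)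
    + m.g x * (m.c212 x ^ 2 - m.c211 x * m.c222 x)
  have hrc : ∀ (m : Met) x, m.rcur x = secondPart m x + quad m x := fun m x => by
    simp only [Met.rcur, secondPart, quad]; ring
  obtain ⟨-, hq', Jq, hJq, hqe⟩ : SD (fun (p : Q) x => quad p.m x) (fun p x => quad p.m' x) :=
    ((he.mul (h112.sq.sub (h111.mul h122))).add
      (hf.mul ((((two.mul h112).mul h212).sub (h111.mul h222)).sub (h211.mul h122)))).add
      (hg.mul (h212.sq.sub (h211.mul h222)))
  have hrc' : UReg fun (p : Q) x => p.m'.rcur x := by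
    simpa only [hrc] using hsec.add hq'
  have hz1 : SD (fun (p : Q) x => d1 p.z x) (fun p x => d1 p.z x) := UD.same z1
  have hz2 : SD (fun (p : Q) x => d2 p.z x) (fun p x => d2 p.z x) := UD.same z2
  obtain ⟨hgs, -, Jg, hJg, hge⟩ :
      SD (fun (p : Q) x => p.m.gradSq p.z x) (fun p x => p.m'.gradSq p.z x) :=
    (((hg.mul hz1.sq).sub (((two.mul hf).mul hz1).mul hz2)).add (he.mul hz2.sq)).div hD
      (c := 1 / 2) (by norm_num) (fun p x hx => by linarith [hm p x hx])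
      (fun p x hx => by linarith [hm' p x hx])
  obtain ⟨-, -, J11, hJ11, e11⟩ :
      SD (fun (p : Q) x => p.m.h11 p.z x) (fun p x => p.m'.h11 p.z x) :=
    ((UD.same z11).sub (h111.mul hz1)).sub (h211.mul hz2)
  obtain ⟨-, -, J12, hJ12, e12⟩ :
      SD (fun (p : Q) x => p.m.h12 p.z x) (fun p x => p.m'.h12 p.z x) :=
    ((UD.same z12).sub (h112.mul hz1)).sub (h212.mul hz2)
  obtain ⟨-, -, J22, hJ22, e22⟩ :
      SD (fun (p : Q) x => p.m.h22 p.z x) (fun p x => p.m'.h22 p.z x) :=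
    ((UD.same z22).sub (h122.mul hz1)).sub (h222.mul hz2)
  let cL : Q → Pl → ℝ := fun p x => 1 - p.t * p.m.gradSq p.z x
  have hcL : UReg cL := (UReg.const 1).sub ((SrcPar.ureg_t hs1).mul hgs)
  have hA : (UReg fun p : Q => p.A1) ∧ (UReg fun p : Q => p.A2) ∧ UReg fun p : Q => p.A3 :=
    ⟨⟨B, fun p => ⟨p.cA1, p.bA1⟩⟩, ⟨B, fun p => ⟨p.cA2, p.bA2⟩⟩, ⟨B, fun p => ⟨p.cA3, p.bA3⟩⟩⟩
  obtain ⟨P, P', P'', hP, hJ⟩ := ((UJet.mul hcL hJq).sub
    (UJet.mul ((SrcPar.ureg_t hs1).mul hrc') hJg)).sub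
    (UJet.mul (SrcPar.ureg_t hs1) (((UJet.mul hA.1 hJ11).add
      (UJet.mul ((UReg.const 2).mul hA.2.1) hJ12)).add (UJet.mul hA.2.2 hJ22)))
  obtain ⟨CL, hCL⟩ := hcL
  obtain ⟨Cg, hCg⟩ := hgs
  choose CP hCP using fun i => (hP i).1
  choose CQ hCQ using fun i => (hP i).2.1
  choose CR hCR using fun i => (hP i).2.2
  refine ⟨1 + |CL| + ∑ i, (|CP i| + |CQ i| + |CR i|), min s1 (1 / (2 * (|Cg| + 1))),
    le_add_of_le_of_nonneg (le_add_of_nonneg_right (abs_nonneg _)) (by positivity),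
    lt_min hs1pos (by positivity), ?_⟩
  intro s hs hs' β hβ hβ' π π' G e A1 A2 A3 hπ hπ' hπb hπb' hsol hc1 hc2 hc3 hb1 hb2 hb3
  let p : Q := ⟨s, β, π, π', G, e, A1, A2, A3, hs, hs'.trans (min_le_left _ _), hβ, hβ', hπ, hπ',
    hπb, hπb', hsol, hc1, hc2, hc3, hb1, hb2, hb3⟩
  have hbig : ∀ i, CP i ≤ 1 + |CL| + ∑ i, (|CP i| + |CQ i| + |CR i|) ∧
      CQ i ≤ 1 + |CL| + ∑ i, (|CP i| + |CQ i| + |CR i|) ∧
      CR i ≤ 1 + |CL| + ∑ i, (|CP i| + |CQ i| + |CR i|) := by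
    intro i
    have := Finset.single_le_sum (f := fun i => |CP i| + |CQ i| + |CR i|)
      (fun j _ => by positivity) (Finset.mem_univ i)
    have e1 := le_abs_self (CP i)
    have e2 := le_abs_self (CQ i)
    have e3 := le_abs_self (CR i)
    have := abs_nonneg (CP i)
    have := abs_nonneg (CQ i)
    have := abs_nonneg (CR i)
    have := abs_nonneg CL
    refine ⟨?_, ?_, ?_⟩ <;> linarith
  refine ⟨cL p, fun i => P i p, fun i => P' i p, fun i => P'' i p, (hCL p).1,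
    (hCL p).2.mono_const ?_, fun i => ⟨(hCP i p).1, (hCQ i p).1, (hCR i p).1,
      (hCP i p).2.mono_const (hbig i).1, (hCQ i p).2.mono_const (hbig i).2.1,
      (hCR i p).2.mono_const (hbig i).2.2⟩, fun x hx => ⟨?_, ?_⟩⟩
  · have : (0 : ℝ) ≤ ∑ i, (|CP i| + |CQ i| + |CR i|) := by positivity
    linarith [le_abs_self CL]
  · have hg : |p.m.gradSq p.z x| ≤ |Cg| := ((hCg p).2.norm_le hx).trans (le_abs_self _)
    have hs2' : s ≤ 1 / (2 * (|Cg| + 1)) := hs'.trans (min_le_right _ _)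
    rw [le_div_iff₀ (by positivity)] at hs2'
    have hs1' : s ≤ 1 := (hs'.trans (min_le_left _ _)).trans hs1
    have h : s ^ 2 * |p.m.gradSq p.z x| ≤ 1 / 2 := by
      calc s ^ 2 * |p.m.gradSq p.z x| ≤ s ^ 1 * (|Cg| + 1) :=
            mul_le_mul (pow_le_pow_of_le_one hs.le hs1' (by norm_num)) (by linarith) (abs_nonneg _)
              (by positivity)
        _ ≤ 1 / 2 := by linarith [pow_one s]
    show 1 / 2 ≤ 1 - s ^ 2 * p.m.gradSq p.z x
    nlinarith [le_abs_self (p.m.gradSq p.z x), sq_nonneg s]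
  · show srcTerm p.s p.m p.m' p.A1 p.A2 p.A3 p.z x
      = cL p x * lin2 p.dpi x + jet1 (fun i => P i p) (fun i => P' i p) (fun i => P'' i p) p.dpi x
    rw [← hJ p x hx]
    have hr : (p.m.rcur x - p.m'.rcur x) / p.s ^ 2 = lin2 p.dpi x + Jq p x := by
      rw [hrc, hrc, div_eq_iff (pow_ne_zero 2 p.s_pos.ne')]
      have := hsec' p x
      have := hqe p x hx
      simp only [SrcPar.t] at *
      linarith
    have q1 := hge p x hx
    have q2 := e11 p x hx
    have q3 := e12 p x hx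
    have q4 := e22 p x hx
    have hsplit : rho p.s p.m p.z x - rho p.s p.m' p.z x
        = cL p x * ((p.m.rcur x - p.m'.rcur x) / p.s ^ 2)
          - p.m'.rcur x * (p.m.gradSq p.z x - p.m'.gradSq p.z x) := by
      have key : p.m'.rcur x / p.s ^ 2 * p.s ^ 2 = p.m'.rcur x :=
        div_mul_cancel₀ _ (pow_ne_zero 2 p.s_pos.ne')
      simp only [rho, cL, SrcPar.t]
      linear_combination (p.m'.gradSq p.z x - p.m.gradSq p.z x) * key
    rw [srcTerm, hsplit, hr, q1, q2, q3, q4]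
    simp only [cL, SrcPar.t]
    ring

end Vale.Agent.P229
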