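import Vale.Agent.P229.Core.Defs
import Vale.Agent.P229.Bd

/-!
# P229, Core: the targets in the coordinates of a chart

`Chart.prof` is a target written in the coordinates `(p, y)`; `Chart.tgt` is `prof ∘ Xi` on the disc
of radius `2` and zero outside.
-/

open scoped ContDiff Topology
open Set Filter

namespace Vale.Agent.P229

theorem contDiff_eta0 : ContDiff ℝ ∞ eta0 :=
  (⟨1 / 2, 1, by norm_num, by norm_num⟩ : ContDiffBump (0 : ℝ)).contDiff

theorem eta0_eq_zero {u : ℝ} (h : 1 ≤ |u|) : eta0 u = 0 :=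
  (⟨1 / 2, 1, by norm_num, by norm_num⟩ : ContDiffBump (0 : ℝ)).zero_of_le_dist
    (by simpa [Real.dist_eq] using h)

theorem hasCompactSupport_eta0 : HasCompactSupport eta0 :=
  (⟨1 / 2, 1, by norm_num, by norm_num⟩ : ContDiffBump (0 : ℝ)).hasCompactSupport

theorem contDiff_zeta0_profile : ContDiff ℝ ∞ zeta0 :=
  (⟨1 / 10, 1 / 5, by norm_num, by norm_num⟩ : ContDiffBump (0 : ℝ)).contDiff

theorem zeta0_profile_eq_zero {u : ℝ} (h : 1 / 5 ≤ |u|) : zeta0 u = 0 :=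
  (⟨1 / 10, 1 / 5, by norm_num, by norm_num⟩ : ContDiffBump (0 : ℝ)).zero_of_le_dist
    (by simpa [Real.dist_eq] using h)

theorem hasCompactSupport_zeta0_profile : HasCompactSupport zeta0 :=
  (⟨1 / 10, 1 / 5, by norm_num, by norm_num⟩ : ContDiffBump (0 : ℝ)).hasCompactSupport

theorem abs_waveCtr_le (N : ℕ) (j : Fin N) : |waveCtr N j| ≤ 1 / 4 := by
  have hN : (0 : ℝ) < N := Nat.cast_pos.2 j.pos
  have hj : (j : ℝ) ≤ N := Nat.cast_le.2 j.is_le'
  have h1 : (j : ℝ) / (2 * N) ≤ 1 / 2 := by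
    rw [div_le_iff₀ (by linarith)]
    linarith
  have h2 : 0 ≤ (j : ℝ) / (2 * N) := by positivity
  rw [waveCtr, abs_le]
  constructor <;> linarith

theorem wave1_ne_zero {N : ℕ} (hN : 11 ≤ N) {j : Fin N} {y : ℝ} (h : wave1 N j y ≠ 0) :
    |y| < 27 / 100 := by
  by_contra hy
  rw [not_lt] at hy
  refine h ?_
  have hN' : (11 : ℝ) ≤ N := by exact_mod_cast hN
  have hc := abs_waveCtr_le N j
  have h3 : 1 / 5 ≤ |(N : ℝ) * (y - waveCtr N j)| := by
    rw [abs_mul, Nat.abs_cast]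
    have h4 := abs_sub_abs_le_abs_sub y (waveCtr N j)
    nlinarith
  simp [wave1, zeta0_profile_eq_zero h3]

namespace Chart

variable {ch : Chart} {s C : ℝ} {G : Pl → R3} {e : R3}

theorem OK.contDiffOn_Lam (h : ch.OK s C G e) : ContDiffOn ℝ 35 ch.Lam (disc (5 / 2)) := by
  obtain ⟨-, -, -, -, -, -, -, -, -, -, -, -, -, hΦc, -, hΘc, -, -, -, -, -, -, -, hΘm, -, -, -, -, -⟩ := h
  exact (hΦc.of_le (by norm_num)).comp hΘc fun q hq =>
    disc_mono (by norm_num) (by norm_num) (hΘm q hq).1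

theorem OK.bdOn_Lam (h : ch.OK s C G e) : BdOn (disc (5 / 2)) 35 C ch.Lam := by
  obtain ⟨-, -, -, -, -, -, -, -, -, -, -, -, -, -, -, -, -, -, -, -, hb, -, -, -, -, -, -, -, -⟩ := h
  exact hb

theorem OK.contDiffOn_Xi (h : ch.OK s C G e) : ContDiffOn ℝ 35 (ch.Xi s G e) (disc (12 / 5)) := by
  obtain ⟨-, -, -, -, -, -, -, -, -, -, -, -, -, -, -, -, -, -, -, -, -, -, -, -, -, -, -, -, hX⟩ := h
  exact hX

theorem OK.bdOn_Xi (h : ch.OK s C G e) : BdOn (disc (12 / 5)) 35 C (ch.Xi s G e) := by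
  obtain ⟨-, -, -, -, -, -, -, -, -, -, -, -, -, -, -, -, -, -, -, hb, -, -, -, -, -, -, -, -, -⟩ := h
  exact hb

theorem OK.const_nonneg (h : ch.OK s C G e) : 0 ≤ C :=
  h.bdOn_Lam.nonneg (zero_mem_disc (by norm_num))

theorem OK.mapsTo_Xi (h : ch.OK s C G e) : MapsTo (ch.Xi s G e) (disc 2) (disc (5 / 2)) := by
  obtain ⟨-, -, -, -, -, -, -, -, -, -, -, -, -, -, -, -, -, -, -, -, -, -, -, -, hPsi, hproj2, -, -, -⟩ := h
  exact fun x hx => (hPsi _ (disc_mono (by norm_num) (by norm_num) (hproj2 x hx))).1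

theorem OK.Lam_Xi (h : ch.OK s C G e) {x : Pl} (hx : x ∈ disc 2) :
    ch.Lam (ch.Xi s G e x) = x := by
  obtain ⟨-, -, -, -, -, -, -, -, -, -, -, -, -, -, -, -, -, -, -, -, -, -, hproj, -, hPsi, hproj2, -, -, -⟩ := h
  rw [Chart.Lam, Chart.Xi, (hPsi _ (disc_mono (by norm_num) (by norm_num) (hproj2 x hx))).2]
  exact (hproj x (disc_mono (by norm_num) (by norm_num) hx)).2

theorem OK.Xi_Lam (h : ch.OK s C G e) {q : Pl} (hq : q ∈ disc (5 / 2)) :
    ch.Xi s G e (ch.Lam q) = q := by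
  obtain ⟨-, -, -, -, -, -, -, -, -, -, -, -, -, -, -, -, -, -, -, -, -, hΦm, -, hΘm, -, -, -, -, -⟩ := h
  rw [Chart.Xi, Chart.Lam, (hΦm _ (disc_mono (by norm_num) (by norm_num) (hΘm q hq).1)).2]
  exact (hΘm q hq).2

theorem OK.abs_nsq_Lam (h : ch.OK s C G e) {q : Pl} (hq : q ∈ disc (5 / 2)) :
    |nsq (ch.Lam q) - nsq q| ≤ C * s := by
  obtain ⟨-, -, -, -, -, -, -, -, -, -, -, -, -, -, -, -, -, -, -, -, -, -, -, -, -, -, -, hb, -⟩ := h
  exact hb.norm_le hq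

/-- A target in the coordinates `(p, y)`. -/
noncomputable def prof (ch : Chart) (N : ℕ) (j : Fin N) (i : Fin 3) (q : Pl) : ℝ :=
  ch.tens i q * eta0 ((N : ℝ) ^ 4 * q.1) * wave1 N j q.2

theorem tgt_eq_prof {N : ℕ} {j : Fin N} {i : Fin 3} {x : Pl} (hx : x ∈ disc 2) :
    ch.tgt s G e N j i x = ch.prof N j i (ch.Xi s G e x) :=
  if_pos hx

theorem OK.contDiffOn_tens (h : ch.OK s C G e) (i : Fin 3) :
    ContDiffOn ℝ 34 (ch.tens i) (disc (5 / 2)) := by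
  have hd := contDiffOn_d2 (k := 34) (isOpen_disc _) h.contDiffOn_Lam
  fin_cases i
  · exact (contDiffOn_const (c := (-2 : ℝ))).mul (hd.snd.pow 2)
  · exact ((contDiffOn_const (c := (2 : ℝ))).mul hd.fst).mul hd.snd
  · exact (contDiffOn_const (c := (-2 : ℝ))).mul (hd.fst.pow 2)

theorem OK.contDiffOn_prof (h : ch.OK s C G e) (N : ℕ) (j : Fin N) (i : Fin 3) :
    ContDiffOn ℝ 34 (ch.prof N j i) (disc (5 / 2)) := by
  have h1 : ContDiff ℝ 34 fun q : Pl => eta0 ((N : ℝ) ^ 4 * q.1) :=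
    (contDiff_infty.1 contDiff_eta0 34).comp (contDiff_const.mul contDiff_fst)
  have h2 : ContDiff ℝ 34 fun q : Pl => wave1 N j q.2 :=
    ((contDiff_infty.1 contDiff_zeta0_profile 34).comp
      (contDiff_const.mul (contDiff_snd.sub contDiff_const))).div_const _
  exact ((h.contDiffOn_tens i).mul h1.contDiffOn).mul h2.contDiffOn

/-- Where a target does not vanish. -/
theorem OK.nsq_le_of_tgt_ne_zero (h : ch.OK s C G e) {N : ℕ} (hN : 11 ≤ N) {j : Fin N} {i : Fin 3}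
    {x : Pl} (hx : ch.tgt s G e N j i x ≠ 0) : nsq x ≤ 1 / 9 + C * s := by
  have hx2 : x ∈ disc 2 := by
    by_contra hx2
    exact hx (if_neg hx2)
  rw [tgt_eq_prof hx2, prof] at hx
  obtain ⟨h12, h3⟩ := mul_ne_zero_iff.1 hx
  obtain ⟨-, h2⟩ := mul_ne_zero_iff.1 h12
  have hy := wave1_ne_zero hN h3
  have hp : |(N : ℝ) ^ 4 * (ch.Xi s G e x).1| < 1 := by
    by_contra hp
    exact h2 (eta0_eq_zero (not_lt.1 hp))
  have hN' : (10 : ℝ) ≤ (N : ℝ) ^ 4 := by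
    have : (11 : ℝ) ≤ N := by exact_mod_cast hN
    calc (10 : ℝ) ≤ (11 : ℝ) ^ 4 := by norm_num
      _ ≤ _ := by gcongr
  rw [abs_mul, abs_of_nonneg (by positivity : (0 : ℝ) ≤ (N : ℝ) ^ 4)] at hp
  have hp' : |(ch.Xi s G e x).1| ≤ 1 / 10 := by
    nlinarith [abs_nonneg (ch.Xi s G e x).1]
  have hq : nsq (ch.Xi s G e x) ≤ 1 / 9 := by
    have a := abs_le.1 hp'
    have b := abs_le.1 hy.le
    unfold nsq
    nlinarith [a.1, a.2, b.1, b.2]
  have hb := h.abs_nsq_Lam (h.mapsTo_Xi hx2)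
  rw [h.Lam_Xi hx2, abs_le] at hb
  linarith [hb.2]

end Chart

end Vale.Agent.P229
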