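import Vale.Agent.P229.Core.Spec
import Vale.Agent.P229.Core.TgtBasic

/-!
# P229, Core: the targets are admissible

A target is smooth, supported in the disc of radius `9/10` and its derivatives up to order `31` are
bounded by a fixed power of `N`.
-/

open scoped ContDiff Topology Nat
open Set Filter

namespace Vale.Agent.P229

/-- A compactly supported smooth function on the line has bounded derivatives. -/
theorem exists_line_bound {h : ℝ → ℝ} (hh : ContDiff ℝ ∞ h) (hs : HasCompactSupport h) (k : ℕ) :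
    ∃ K, 0 ≤ K ∧ ∀ j ≤ k, ∀ y : ℝ, ‖iteratedFDeriv ℝ j h y‖ ≤ K := by
  have hb : ∀ j : ℕ, ∃ B, ∀ y : ℝ, ‖iteratedFDeriv ℝ j h y‖ ≤ B := fun j =>
    ((contDiff_infty.1 hh j).continuous_iteratedFDeriv le_rfl).bounded_above_of_compact_support
      (hs.iteratedFDeriv j)
  choose B hB using hb
  exact ⟨∑ j ∈ Finset.range (k + 1), |B j|, Finset.sum_nonneg fun j _ => abs_nonneg _,
    fun j hj y => ((hB j y).trans (le_abs_self _)).trans
      (Finset.single_le_sum (f := fun j => |B j|) (fun i _ => abs_nonneg _)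
        (Finset.mem_range.2 (Nat.lt_succ_of_le hj)))⟩

theorem max_one_mul_pow_le {a x : ℝ} (ha : 0 ≤ a) (ha3 : a ≤ 4) (hx : 1 ≤ x) (m : ℕ) :
    max 1 (x * a) ^ m ≤ 4 ^ m * x ^ m := by
  rw [← mul_pow]
  refine pow_le_pow_left₀ (le_max_of_le_left zero_le_one) (max_le ?_ ?_) m
  · nlinarith
  · nlinarith

namespace Chart

variable {ch : Chart} {s C : ℝ} {G : Pl → R3} {e : R3}

theorem OK.bdOn_tens (h : ch.OK s C G e) (i : Fin 3) :
    BdOn (disc (5 / 2)) 31 (2 * (2 ^ 31 * C) ^ 2) (ch.tens i) := by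
  have hU := isOpen_disc (5 / 2)
  have hL := h.contDiffOn_Lam
  have hd : ContDiffOn ℝ 31 (d2 ch.Lam) (disc (5 / 2)) :=
    contDiffOn_d2 (k := 31) hU (hL.of_le (by norm_num))
  have hb : BdOn (disc (5 / 2)) 31 C (d2 ch.Lam) :=
    (h.bdOn_Lam.mono_order (by norm_num : 32 ≤ 35)).d2 (k := 31) hU (hL.of_le (by norm_num))
  have ha := hb.fst hU hd
  have hb' := hb.snd hU hd
  have hC := h.const_nonneg
  have h2 : (1 : ℝ) ≤ 2 ^ 31 := by norm_num
  fin_cases i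
  · exact ((hb'.pow hU hd.snd 2).const_mul hU (-2) (hd.snd.pow 2)).mono_const
      (le_of_eq (by norm_num))
  · refine (((ha.mul hU hd.fst hd.snd hb').const_mul hU 2 (hd.fst.mul hd.snd)).mono_const
      (C' := 2 * (2 ^ 31 * C) ^ 2) ?_).congr hU fun q _ => ?_
    · rw [show |(2 : ℝ)| = 2 by norm_num]
      nlinarith [mul_nonneg hC hC, mul_nonneg (sub_nonneg.2 h2) (mul_nonneg hC hC)]
    · simp [Chart.tens, mul_assoc]
  · exact ((ha.pow hU hd.fst 2).const_mul hU (-2) (hd.fst.pow 2)).mono_const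
      (le_of_eq (by norm_num))

theorem bdOn_eta_factor {K : ℝ} (hK : ∀ j ≤ 31, ∀ y : ℝ, ‖iteratedFDeriv ℝ j eta0 y‖ ≤ K)
    (N : ℕ) : BdOn (disc (5 / 2)) 31 (31 ! * K * max 1 ((N : ℝ) ^ 4 * (5 / 2)) ^ 31)
      (fun q : Pl => eta0 ((N : ℝ) ^ 4 * q.1)) := by
  have hU := isOpen_disc (5 / 2)
  have hg : BdOn (disc (5 / 2)) 31 ((N : ℝ) ^ 4 * (5 / 2)) (fun q : Pl => (N : ℝ) ^ 4 * q.1) :=
    ((bdOn_fst_disc (by norm_num : (0 : ℝ) ≤ 5 / 2) 31).const_mul hU _ contDiffOn_fst).mono_const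
      (le_of_eq (by norm_num))
  exact bdOn_comp hU isOpen_univ (mapsTo_univ _ _)
    (contDiff_infty.1 contDiff_eta0 31).contDiffOn
    (contDiff_const.mul contDiff_fst).contDiffOn (fun j hj y _ => hK j hj y)
    (fun j _ hj x hx => hg j hj x hx)

theorem bdOn_wave_factor {K : ℝ} (hK : ∀ j ≤ 31, ∀ y : ℝ, ‖iteratedFDeriv ℝ j zeta0 y‖ ≤ K)
    {N : ℕ} (j : Fin N) :
    BdOn (disc (5 / 2)) 31 (31 ! * K * max 1 ((N : ℝ) * (11 / 4)) ^ 31)
      (fun q : Pl => wave1 N j q.2) := by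
  have hU := isOpen_disc (5 / 2)
  have hN : (1 : ℝ) ≤ N := Nat.one_le_cast.2 j.pos
  have hK0 : 0 ≤ K := (norm_nonneg _).trans (hK 0 (Nat.zero_le _) 0)
  have h0 : BdOn (disc (5 / 2)) 31 (11 / 4) (fun q : Pl => q.2 - waveCtr N j) :=
    ((bdOn_snd_disc (by norm_num : (0 : ℝ) ≤ 5 / 2) 31).sub hU contDiffOn_snd contDiffOn_const
      (bdOn_const _ _ (waveCtr N j))).mono_const
      (by norm_num; linarith [abs_waveCtr_le N j])
  have hg : BdOn (disc (5 / 2)) 31 ((N : ℝ) * (11 / 4))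
      (fun q : Pl => (N : ℝ) * (q.2 - waveCtr N j)) :=
    (h0.const_mul hU _ (contDiffOn_snd.sub contDiffOn_const)).mono_const (by simp)
  have hz : ContDiffOn ℝ 31 (fun q : Pl => zeta0 ((N : ℝ) * (q.2 - waveCtr N j)))
      (disc (5 / 2)) :=
    ((contDiff_infty.1 contDiff_zeta0_profile 31).comp
      (contDiff_const.mul (contDiff_snd.sub contDiff_const))).contDiffOn
  have hb := bdOn_comp hU isOpen_univ (mapsTo_univ _ _)
    (contDiff_infty.1 contDiff_zeta0_profile 31).contDiffOn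
    (contDiff_const.mul (contDiff_snd.sub contDiff_const)).contDiffOn
    (fun l hl y _ => hK l hl y) (fun l _ hl x hx => hg l hl x hx)
  refine ((hb.const_mul hU ((N : ℝ) ^ 2)⁻¹ hz).mono_const ?_).congr hU fun q _ => ?_
  · refine mul_le_of_le_one_left (by positivity) ?_
    rw [abs_of_nonneg (by positivity)]
    exact inv_le_one_of_one_le₀ (one_le_pow₀ hN)
  · simp [wave1, div_eq_inv_mul]

/-- The bound for one target on the disc of radius `2`. -/
theorem OK.bdOn_tgt {K K' : ℝ} (hK : ∀ j ≤ 31, ∀ y : ℝ, ‖iteratedFDeriv ℝ j eta0 y‖ ≤ K)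
    (hK' : ∀ j ≤ 31, ∀ y : ℝ, ‖iteratedFDeriv ℝ j zeta0 y‖ ≤ K') (h : ch.OK s C G e)
    (hX : ContDiffOn ℝ 35 (ch.Xi s G e) (disc 2)) {N : ℕ} (j : Fin N) (i : Fin 3) :
    BdOn (disc 2) 31
      (31 ! * (2 ^ 31 * (2 ^ 31 * (2 * (2 ^ 31 * C) ^ 2) * (31 ! * K * 4 ^ 31))
        * (31 ! * K' * 4 ^ 31)) * max 1 C ^ 31 * ((N : ℝ) ^ 124 * (N : ℝ) ^ 31))
      (ch.tgt s G e N j i) := by
  have hU := isOpen_disc (5 / 2)
  have hN : (1 : ℝ) ≤ N := Nat.one_le_cast.2 j.pos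
  have hC := h.const_nonneg
  have hK0 : 0 ≤ K := (norm_nonneg _).trans (hK 0 (Nat.zero_le _) 0)
  have hK0' : 0 ≤ K' := (norm_nonneg _).trans (hK' 0 (Nat.zero_le _) 0)
  have hT : ContDiffOn ℝ 31 (ch.tens i) (disc (5 / 2)) := (h.contDiffOn_tens i).of_le (by norm_num)
  have he : ContDiff ℝ 31 fun q : Pl => eta0 ((N : ℝ) ^ 4 * q.1) :=
    (contDiff_infty.1 contDiff_eta0 31).comp (contDiff_const.mul contDiff_fst)
  have hw : ContDiff ℝ 31 fun q : Pl => wave1 N j q.2 :=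
    ((contDiff_infty.1 contDiff_zeta0_profile 31).comp
      (contDiff_const.mul (contDiff_snd.sub contDiff_const))).div_const _
  have hprof := ((h.bdOn_tens i).mul hU hT he.contDiffOn (bdOn_eta_factor hK N)).mul hU
    (hT.mul he.contDiffOn) hw.contDiffOn (bdOn_wave_factor hK' j)
  have hcomp := hprof.comp (isOpen_disc 2) hU h.mapsTo_Xi ((hT.mul he.contDiffOn).mul hw.contDiffOn)
    (hX.of_le (by norm_num))
    ((h.bdOn_Xi.mono_order (by norm_num : 31 ≤ 35)).mono_set (disc_mono (by norm_num) (by norm_num)))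
  refine (hcomp.mono_const ?_).congr (isOpen_disc 2) fun x hx => (tgt_eq_prof hx).symm
  have e1 : max 1 ((N : ℝ) ^ 4 * (5 / 2)) ^ 31 ≤ 4 ^ 31 * (N : ℝ) ^ 124 := by
    have := max_one_mul_pow_le (a := 5 / 2) (by norm_num) (by norm_num) (one_le_pow₀ (n := 4) hN) 31
    rwa [← pow_mul] at this
  have e2 : max 1 ((N : ℝ) * (11 / 4)) ^ 31 ≤ 4 ^ 31 * (N : ℝ) ^ 31 :=
    max_one_mul_pow_le (by norm_num) (by norm_num) hN 31
  have p1 : (0 : ℝ) ≤ max 1 ((N : ℝ) ^ 4 * (5 / 2)) ^ 31 := by positivity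
  have p2 : (0 : ℝ) ≤ max 1 C ^ 31 := by positivity
  calc _ ≤ 31 ! * (2 ^ 31 * (2 ^ 31 * (2 * (2 ^ 31 * C) ^ 2) *
          (31 ! * K * (4 ^ 31 * (N : ℝ) ^ 124))) * (31 ! * K' * (4 ^ 31 * (N : ℝ) ^ 31))) *
          max 1 C ^ 31 := by gcongr
    _ = _ := by ring

/-- A target is smooth, small support, bounded derivatives. -/
theorem OK.tgt_ok {K K' : ℝ} (hK : ∀ j ≤ 31, ∀ y : ℝ, ‖iteratedFDeriv ℝ j eta0 y‖ ≤ K)
    (hK' : ∀ j ≤ 31, ∀ y : ℝ, ‖iteratedFDeriv ℝ j zeta0 y‖ ≤ K') (h : ch.OK s C G e)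
    (hX : ContDiffOn ℝ 35 (ch.Xi s G e) (disc 2)) (hCs : C * s ≤ 1 / 10) {N : ℕ} (hN : 11 ≤ N)
    (hN' : 31 ! * (2 ^ 31 * (2 ^ 31 * (2 * (2 ^ 31 * C) ^ 2) * (31 ! * K * 4 ^ 31))
      * (31 ! * K' * 4 ^ 31)) * max 1 C ^ 31 ≤ N) (j : Fin N) (i : Fin 3) :
    ContDiff ℝ 31 (ch.tgt s G e N j i) ∧ tsupport (ch.tgt s G e N j i) ⊆ disc (9 / 10) ∧
      BdOn univ 31 ((N : ℝ) ^ 156) (ch.tgt s G e N j i) := by
  set f := ch.tgt s G e N j i with hf
  have hsub : tsupport f ⊆ {x : Pl | nsq x ≤ 1 / 2} := by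
    refine closure_minimal (fun x hx => ?_) (isClosed_le (by unfold nsq; fun_prop) continuous_const)
    have := h.nsq_le_of_tgt_ne_zero hN (Function.mem_support.1 hx)
    show nsq x ≤ 1 / 2
    linarith
  have hsub' : tsupport f ⊆ disc 2 := fun x hx => by
    have h1 : nsq x ≤ 1 / 2 := hsub hx
    show nsq x < 2 ^ 2
    linarith
  have hcd : ContDiff ℝ 31 f := by
    rw [contDiff_iff_contDiffAt]
    intro x
    by_cases hx : x ∈ disc 2
    · have hg : ContDiffOn ℝ 31 (fun y => ch.prof N j i (ch.Xi s G e y)) (disc 2) :=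
        ((h.contDiffOn_prof N j i).of_le (by norm_num)).comp (hX.of_le (by norm_num)) h.mapsTo_Xi
      exact (hg.contDiffAt ((isOpen_disc 2).mem_nhds hx)).congr_of_eventuallyEq
        (eventually_of_mem ((isOpen_disc 2).mem_nhds hx) fun y hy => tgt_eq_prof hy)
    · have h0 : f =ᶠ[𝓝 x] fun _ => 0 :=
        notMem_tsupport_iff_eventuallyEq.1 fun hx' => hx (hsub' hx')
      exact contDiffAt_const.congr_of_eventuallyEq h0
  refine ⟨hcd, fun x hx => ?_, fun l hl x _ => ?_⟩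
  · have h1 : nsq x ≤ 1 / 2 := hsub hx
    show nsq x < (9 / 10) ^ 2
    norm_num
    linarith
  by_cases hx : x ∈ disc 2
  · refine (h.bdOn_tgt hK hK' hX j i l hl x hx).trans ?_
    calc _ ≤ (N : ℝ) * ((N : ℝ) ^ 124 * (N : ℝ) ^ 31) := by gcongr
      _ = _ := by ring
  · have h0 : iteratedFDeriv ℝ l f x = 0 := by
      by_contra hne
      exact hx (hsub' (support_iteratedFDeriv_subset l hne))
    rw [h0, norm_zero]
    positivity

end Chart

/-- The targets are admissible. -/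
theorem tgtSpec : TgtSpec := by
  obtain ⟨K, -, hK⟩ := exists_line_bound contDiff_eta0 hasCompactSupport_eta0 31
  obtain ⟨K', -, hK'⟩ := exists_line_bound contDiff_zeta0_profile hasCompactSupport_zeta0_profile 31
  refine ⟨156, fun C => ⟨1 / (10 * (|C| + 1)), by positivity, ?_⟩⟩
  obtain ⟨n, hn⟩ := exists_nat_ge (31 ! * (2 ^ 31 * (2 ^ 31 * (2 * (2 ^ 31 * C) ^ 2) *
    (31 ! * K * 4 ^ 31)) * (31 ! * K' * 4 ^ 31)) * max 1 C ^ 31)
  refine ⟨max n 11, fun s hs hs0 N hN G e ch h j i => ?_⟩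
  have hC := h.const_nonneg
  refine h.tgt_ok hK hK' (h.contDiffOn_Xi.mono (disc_mono (by norm_num) (by norm_num))) ?_ ((le_max_right _ _).trans hN)
    (hn.trans (Nat.cast_le.2 ((le_max_left _ _).trans hN))) j i
  rw [le_div_iff₀ (by positivity), abs_of_nonneg hC] at hs0
  nlinarith

end Vale.Agent.P229
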