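import Vale.Agent.P229.Core.Spec2
import Vale.Agent.P229.IslandBasic

/-!
# P229, Core: an operator close to the linearisation, in the chart of the representative
(owner: helper23)

`lop` of `V ∘ Xi` is a combination of the five derivatives of `V`; its coefficients are polynomial
in the jets of `A`, `Z`, the metric and `Xi`.  Bounds are carried by families indexed by all
admissible data: `TrO` (uniformly bounded) and `TrN` (two bounded families within `O(γ)`), both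
closed under the operations that occur, so no constant is ever computed.
-/

open scoped ContDiff RealInnerProductSpace
open Set

namespace Vale.Agent.P229

/-! ### Families with uniform bounds -/

section Families

variable {ι κ' : Type*} {F : Type*} [NormedAddCommGroup F] [NormedSpace ℝ F] {U W : Set Pl}
  {n m : ℕ}

/-- A family bounded in `C^n` on `U`. -/
def TrO (U : Set Pl) (n : ℕ) (f : ι → Pl → F) : Prop :=
  ∃ C : ℝ, 0 ≤ C ∧ ∀ i, ContDiffOn ℝ n (f i) U ∧ BdOn U n C (f i)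

/-- Two bounded families within `O(γ)` of one another. -/
def TrN (γ : ι → ℝ) (U : Set Pl) (n : ℕ) (f f0 : ι → Pl → ℝ) : Prop :=
  TrO U n f ∧ TrO U n f0 ∧
    ∃ C : ℝ, 0 ≤ C ∧ ∀ i, BdOn U n (C * γ i) fun x => f i x - f0 i x

theorem tr_contDiffAt (hU : IsOpen U) {f : Pl → F} (hf : ContDiffOn ℝ n f U) {j : ℕ} (hj : j ≤ n)
    {x : Pl} (hx : x ∈ U) : ContDiffAt ℝ j f x :=
  (hf.of_le (mod_cast hj)).contDiffAt (hU.mem_nhds hx)

theorem tr_bdOn_congr (hU : IsOpen U) {C : ℝ} {f g : Pl → F} (h : EqOn f g U)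
    (hf : BdOn U n C f) : BdOn U n C g := fun j hj x hx => by
  rw [((h.symm.eventuallyEq_of_mem (hU.mem_nhds hx)).iteratedFDeriv ℝ j).eq_of_nhds]
  exact hf j hj x hx

theorem tr_bdOn_mono {C C' : ℝ} {f : Pl → F} (hWU : W ⊆ U) (hmn : m ≤ n) (hC : C ≤ C')
    (h : BdOn U n C f) : BdOn W m C' f :=
  fun j hj x hx => (h j (hj.trans hmn) x (hWU hx)).trans hC

theorem tr_bdOn_mul (hU : IsOpen U) {C D : ℝ} (hC : 0 ≤ C) {f g : Pl → ℝ}
    (hf : ContDiffOn ℝ n f U) (hg : ContDiffOn ℝ n g U) (bf : BdOn U n C f) (bg : BdOn U n D g) :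
    BdOn U n (2 ^ n * (C * D)) fun x => f x * g x := by
  intro j hj x hx
  have hD : 0 ≤ D := (norm_nonneg _).trans (bg 0 (Nat.zero_le _) x hx)
  rw [← iteratedFDerivWithin_of_isOpen j hU hx]
  refine (norm_iteratedFDerivWithin_mul_le hf hg hU.uniqueDiffOn hx
    (n := j) (mod_cast hj)).trans ?_
  calc ∑ i ∈ Finset.range (j + 1), (j.choose i : ℝ) * ‖iteratedFDerivWithin ℝ i f U x‖ *
        ‖iteratedFDerivWithin ℝ (j - i) g U x‖
      ≤ ∑ i ∈ Finset.range (j + 1), (j.choose i : ℝ) * C * D := by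
        refine Finset.sum_le_sum fun i hi => ?_
        have hij : i ≤ j := Nat.lt_succ_iff.1 (Finset.mem_range.1 hi)
        rw [iteratedFDerivWithin_of_isOpen i hU hx, iteratedFDerivWithin_of_isOpen (j - i) hU hx]
        exact mul_le_mul (mul_le_mul_of_nonneg_left (bf i (hij.trans hj) x hx) (Nat.cast_nonneg _))
          (bg _ ((Nat.sub_le _ _).trans hj) x hx) (norm_nonneg _) (by positivity)
    _ = 2 ^ j * (C * D) := by
        rw [← Finset.sum_mul, ← Finset.sum_mul, mul_assoc]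
        congr 1
        exact_mod_cast Nat.sum_range_choose j
    _ ≤ 2 ^ n * (C * D) :=
        mul_le_mul_of_nonneg_right (pow_le_pow_right₀ one_le_two hj) (mul_nonneg hC hD)

theorem TrO.congr (hU : IsOpen U) {f g : ι → Pl → F} (h : TrO U n f)
    (he : ∀ i, EqOn (f i) (g i) U) : TrO U n g := by
  obtain ⟨C, hC, h⟩ := h
  exact ⟨C, hC, fun i => ⟨(h i).1.congr (he i).symm, tr_bdOn_congr hU (he i) (h i).2⟩⟩

theorem TrO.mono {f : ι → Pl → F} (h : TrO U n f) (hmn : m ≤ n) (hWU : W ⊆ U) : TrO W m f := by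
  obtain ⟨C, hC, h⟩ := h
  exact ⟨C, hC, fun i => ⟨((h i).1.of_le (mod_cast hmn)).mono hWU,
    tr_bdOn_mono hWU hmn le_rfl (h i).2⟩⟩

theorem TrO.comap {f : ι → Pl → F} (h : TrO U n f) (e : κ' → ι) :
    TrO U n fun i => f (e i) := by
  obtain ⟨C, hC, h⟩ := h
  exact ⟨C, hC, fun i => h (e i)⟩

theorem TrO.const {c : ι → ℝ} {C : ℝ} (hc : ∀ i, |c i| ≤ C) :
    TrO U n fun i (_ : Pl) => c i := by
  refine ⟨max C 0, le_max_right _ _, fun i => ⟨contDiffOn_const, fun j _ x _ => ?_⟩⟩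
  rcases j with _ | j
  · simpa using (hc i).trans (le_max_left C 0)
  · simp [iteratedFDeriv_const_of_ne (Nat.succ_ne_zero j)]

theorem TrO.add (hU : IsOpen U) {f g : ι → Pl → ℝ} (hf : TrO U n f) (hg : TrO U n g) :
    TrO U n fun i x => f i x + g i x := by
  obtain ⟨C, hC, hf⟩ := hf
  obtain ⟨D, hD, hg⟩ := hg
  refine ⟨C + D, by positivity, fun i => ⟨(hf i).1.add (hg i).1, fun j hj x hx => ?_⟩⟩
  beta_reduce
  rw [show (fun x => f i x + g i x) = f i + g i from rfl,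
    iteratedFDeriv_add_apply (tr_contDiffAt hU (hf i).1 hj hx) (tr_contDiffAt hU (hg i).1 hj hx)]
  exact (norm_add_le _ _).trans (add_le_add ((hf i).2 j hj x hx) ((hg i).2 j hj x hx))

theorem TrO.mul (hU : IsOpen U) {f g : ι → Pl → ℝ} (hf : TrO U n f) (hg : TrO U n g) :
    TrO U n fun i x => f i x * g i x := by
  obtain ⟨C, hC, hf⟩ := hf
  obtain ⟨D, hD, hg⟩ := hg
  exact ⟨2 ^ n * (C * D), by positivity, fun i =>
    ⟨(hf i).1.mul (hg i).1, tr_bdOn_mul hU hC (hf i).1 (hg i).1 (hf i).2 (hg i).2⟩⟩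

theorem TrO.neg (hU : IsOpen U) {f : ι → Pl → ℝ} (hf : TrO U n f) :
    TrO U n fun i x => -f i x :=
  ((TrO.const (c := fun _ => -1) (C := 1) fun _ => by simp).mul hU hf).congr hU
    fun i x _ => by simp

theorem TrO.sub (hU : IsOpen U) {f g : ι → Pl → ℝ} (hf : TrO U n f) (hg : TrO U n g) :
    TrO U n fun i x => f i x - g i x :=
  (hf.add hU (hg.neg hU)).congr hU fun i x _ => by ring

theorem TrO.comp (hU : IsOpen U) (hW : IsOpen W) {f : ι → Pl → F} {L : ι → Pl → Pl}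
    (hf : TrO U n f) (hL : TrO W n L) (hmap : ∀ i, MapsTo (L i) W U) :
    TrO W n fun i x => f i (L i x) := by
  obtain ⟨C, hC, hf⟩ := hf
  obtain ⟨D, -, hL⟩ := hL
  set E : ℝ := max 1 D with hE
  refine ⟨n.factorial * C * E ^ n, by positivity, fun i => ⟨(hf i).1.comp (hL i).1 (hmap i),
    fun j hj x hx => ?_⟩⟩
  rw [← iteratedFDerivWithin_of_isOpen j hW hx]
  refine (norm_iteratedFDerivWithin_comp_le (hf i).1 (hL i).1 (n := j) (mod_cast hj)
    hU.uniqueDiffOn hW.uniqueDiffOn (hmap i) hx (C := C) (D := E) (fun l hl => ?_)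
    fun l h1 hl => ?_).trans ?_
  · rw [iteratedFDerivWithin_of_isOpen l hU (hmap i hx)]
    exact (hf i).2 l (hl.trans hj) _ (hmap i hx)
  · rw [iteratedFDerivWithin_of_isOpen l hW hx]
    exact ((hL i).2 l (hl.trans hj) x hx).trans
      ((le_max_right 1 D).trans (le_self_pow₀ (le_max_left _ _) (Nat.one_le_iff_ne_zero.1 h1)))
  · have h1 : (j.factorial : ℝ) ≤ n.factorial := by exact_mod_cast Nat.factorial_le hj
    gcongr
    exact le_max_left _ _

theorem TrO.inv (hU : IsOpen U) {f : ι → Pl → ℝ} (hf : TrO U n f)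
    (hlow : ∃ c > (0 : ℝ), ∀ i, ∀ x ∈ U, c ≤ f i x) : TrO U n fun i x => (f i x)⁻¹ := by
  obtain ⟨C, hC, hf⟩ := hf
  obtain ⟨c, hc, hlow⟩ := hlow
  have hg : ContDiffOn ℝ n (fun t : ℝ => t⁻¹) (Ioi 0) :=
    contDiffOn_id.inv fun t ht => (mem_Ioi.1 ht).ne'
  have hKj : ∀ j : ℕ, ∃ K, ∀ t ∈ Icc c (max c C), j ≤ n →
      ‖iteratedFDerivWithin ℝ j (fun t : ℝ => t⁻¹) (Ioi 0) t‖ ≤ K := fun j => by
    by_cases hj : j ≤ n
    · obtain ⟨K, hK⟩ := isCompact_Icc.exists_bound_of_continuousOn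
        ((hg.continuousOn_iteratedFDerivWithin (mod_cast hj) (uniqueDiffOn_Ioi 0)).mono
          fun t ht => mem_Ioi.2 (hc.trans_le ht.1))
      exact ⟨K, fun t ht _ => hK t ht⟩
    · exact ⟨0, fun t _ h => absurd h hj⟩
  choose K hK using hKj
  set S : ℝ := ∑ j ∈ Finset.range (n + 1), |K j|
  set E : ℝ := max 1 C
  refine ⟨n.factorial * S * E ^ n, by positivity, fun i => ⟨(hf i).1.inv fun x hx =>
    (hc.trans_le (hlow i x hx)).ne', fun j hj x hx => ?_⟩⟩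
  have hfx : f i x ∈ Icc c (max c C) := ⟨hlow i x hx, le_max_of_le_right
    ((le_abs_self _).trans (by simpa using (hf i).2 0 (Nat.zero_le _) x hx))⟩
  rw [← iteratedFDerivWithin_of_isOpen j hU hx]
  refine (norm_iteratedFDerivWithin_comp_le (g := fun t : ℝ => t⁻¹) (f := f i) hg (hf i).1
    (n := j) (mod_cast hj) (uniqueDiffOn_Ioi 0) hU.uniqueDiffOn
    (fun y hy => mem_Ioi.2 (hc.trans_le (hlow i y hy))) hx (C := S) (D := E)
    (fun l hl => ?_) fun l h1 hl => ?_).trans ?_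
  · exact ((hK l _ hfx (hl.trans hj)).trans (le_abs_self _)).trans
      (Finset.single_le_sum (f := fun j => |K j|) (fun _ _ => abs_nonneg _)
        (Finset.mem_range.2 (by omega)))
  · rw [iteratedFDerivWithin_of_isOpen l hU hx]
    exact ((hf i).2 l (hl.trans hj) x hx).trans
      ((le_max_right 1 C).trans (le_self_pow₀ (le_max_left _ _) (Nat.one_le_iff_ne_zero.1 h1)))
  · have h1 : (j.factorial : ℝ) ≤ n.factorial := by exact_mod_cast Nat.factorial_le hj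
    gcongr
    exact le_max_left _ _

/-- The directional derivative. -/
noncomputable def trD (v : Pl) (f : Pl → ℝ) (x : Pl) : ℝ := fderiv ℝ f x v

theorem trD_def (v : Pl) (f : Pl → ℝ) : trD v f = fun y => fderiv ℝ f y v := rfl

theorem tr_norm_apply_le {v : Pl} (hv : ‖v‖ ≤ 1) :
    ‖ContinuousLinearMap.apply ℝ ℝ v‖ ≤ 1 := by
  refine ContinuousLinearMap.opNorm_le_bound _ zero_le_one fun φ => ?_
  rw [one_mul]
  exact (φ.le_opNorm v).trans (mul_le_of_le_one_right (norm_nonneg _) hv)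

theorem TrO.deriv (hU : IsOpen U) {f : ι → Pl → ℝ} (hf : TrO U (n + 1) f) {v : Pl}
    (hv : ‖v‖ ≤ 1) : TrO U n fun i => trD v (f i) := by
  obtain ⟨C, hC, hf⟩ := hf
  refine ⟨C, hC, fun i => ?_⟩
  have h1 : ContDiffOn ℝ n (fun x => fderiv ℝ (f i) x) U :=
    (hf i).1.fderiv_of_isOpen hU (by exact_mod_cast le_rfl)
  refine ⟨h1.clm_apply contDiffOn_const, fun j hj x hx => ?_⟩
  beta_reduce
  rw [show trD v (f i) = ContinuousLinearMap.apply ℝ ℝ v ∘ fderiv ℝ (f i) from rfl]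
  refine ((ContinuousLinearMap.apply ℝ ℝ v).norm_iteratedFDeriv_comp_left
    (tr_contDiffAt hU h1 hj hx) le_rfl).trans ?_
  rw [norm_iteratedFDeriv_fderiv]
  exact (mul_le_of_le_one_left (norm_nonneg _) (tr_norm_apply_le hv)).trans
    ((hf i).2 (j + 1) (by omega) x hx)

theorem TrO.d1 (hU : IsOpen U) {f : ι → Pl → ℝ} (hf : TrO U (n + 1) f) :
    TrO U n fun i => P229.d1 (f i) :=
  hf.deriv hU (v := (1, 0)) (by simp [Prod.norm_def])

theorem TrO.d2 (hU : IsOpen U) {f : ι → Pl → ℝ} (hf : TrO U (n + 1) f) :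
    TrO U n fun i => P229.d2 (f i) :=
  hf.deriv hU (v := (0, 1)) (by simp [Prod.norm_def])

/-- A fixed smooth function is bounded on a bounded open set. -/
theorem TrO.of_contDiff {R : ℝ} (hUR : U ⊆ Metric.closedBall 0 R) {g : Pl → ℝ}
    (hg : ContDiff ℝ n g) : TrO U n fun (_ : ι) => g := by
  have hKj : ∀ j : ℕ, ∃ K, ∀ x ∈ Metric.closedBall (0 : Pl) R, j ≤ n →
      ‖iteratedFDeriv ℝ j g x‖ ≤ K := fun j => by
    by_cases hj : j ≤ n
    · obtain ⟨K, hK⟩ := (isCompact_closedBall (0 : Pl) R).exists_bound_of_continuousOn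
        (hg.continuous_iteratedFDeriv (mod_cast hj)).continuousOn
      exact ⟨K, fun t ht _ => hK t ht⟩
    · exact ⟨0, fun t _ h => absurd h hj⟩
  choose K hK using hKj
  refine ⟨∑ j ∈ Finset.range (n + 1), |K j|, by positivity, fun _ =>
    ⟨hg.contDiffOn, fun j hj x hx => ?_⟩⟩
  exact ((hK j x (hUR hx) hj).trans (le_abs_self _)).trans
    (Finset.single_le_sum (f := fun j => |K j|) (fun _ _ => abs_nonneg _)
      (Finset.mem_range.2 (by omega)))

variable {γ : ι → ℝ}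

theorem TrN.congr (hU : IsOpen U) {f f0 g g0 : ι → Pl → ℝ} (h : TrN γ U n f f0)
    (he : ∀ i, EqOn (f i) (g i) U) (he0 : ∀ i, EqOn (f0 i) (g0 i) U) : TrN γ U n g g0 := by
  obtain ⟨h1, h2, C, hC, h3⟩ := h
  exact ⟨h1.congr hU he, h2.congr hU he0, C, hC, fun i =>
    tr_bdOn_congr hU (fun x hx => by simp only [he i hx, he0 i hx]) (h3 i)⟩

theorem TrN.mono (_hγ : ∀ i, 0 ≤ γ i) {f f0 : ι → Pl → ℝ} (h : TrN γ U n f f0) (hmn : m ≤ n)
    (hWU : W ⊆ U) : TrN γ W m f f0 := by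
  obtain ⟨h1, h2, C, hC, h3⟩ := h
  exact ⟨h1.mono hmn hWU, h2.mono hmn hWU, C, hC, fun i => tr_bdOn_mono hWU hmn le_rfl (h3 i)⟩

theorem TrN.refl (_hγ : ∀ i, 0 ≤ γ i) {f : ι → Pl → ℝ} (h : TrO U n f) : TrN γ U n f f :=
  ⟨h, h, 0, le_rfl, fun i j _ x _ => by simp⟩

/-- A family within `O(γ)` of a bounded one. -/
theorem TrN.of_diff (hU : IsOpen U) (hγ1 : ∀ i, γ i ≤ 1) (hγ : ∀ i, 0 ≤ γ i) {f f0 : ι → Pl → ℝ}
    (h0 : TrO U n f0) (hf : ∀ i, ContDiffOn ℝ n (f i) U) {B : ℝ}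
    (hd : ∀ i, BdOn U n (B * γ i) fun x => f i x - f0 i x) : TrN γ U n f f0 := by
  obtain ⟨C, hC, h0'⟩ := id h0
  have hd' : ∀ i, BdOn U n (max B 0 * γ i) fun x => f i x - f0 i x := fun i =>
    tr_bdOn_mono subset_rfl le_rfl (mul_le_mul_of_nonneg_right (le_max_left _ _) (hγ i)) (hd i)
  refine ⟨(TrO.add hU (f := fun i x => f i x - f0 i x) (g := f0) ⟨max B 0, le_max_right _ _,
    fun i => ⟨(hf i).sub (h0' i).1, tr_bdOn_mono subset_rfl le_rfl
      (mul_le_of_le_one_right (le_max_right B 0) (hγ1 i)) (hd' i)⟩⟩ h0).congr hU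
      fun i x _ => by simp, h0, max B 0, le_max_right _ _, hd'⟩

theorem TrN.add (hU : IsOpen U) {f f0 g g0 : ι → Pl → ℝ} (hf : TrN γ U n f f0)
    (hg : TrN γ U n g g0) :
    TrN γ U n (fun i x => f i x + g i x) (fun i x => f0 i x + g0 i x) := by
  obtain ⟨f1, f2, C, hC, f3⟩ := hf
  obtain ⟨g1, g2, D, hD, g3⟩ := hg
  refine ⟨f1.add hU g1, f2.add hU g2, C + D, by positivity, fun i j hj x hx => ?_⟩
  obtain ⟨_, _, hf'⟩ := f1.sub hU f2
  obtain ⟨_, _, hg'⟩ := g1.sub hU g2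
  rw [show (fun x => f i x + g i x - (f0 i x + g0 i x)) =
      (fun x => f i x - f0 i x) + fun x => g i x - g0 i x by
    funext y; simp only [Pi.add_apply]; ring,
    iteratedFDeriv_add_apply (tr_contDiffAt hU (hf' i).1 hj hx)
      (tr_contDiffAt hU (hg' i).1 hj hx), add_mul]
  exact (norm_add_le _ _).trans (add_le_add (f3 i j hj x hx) (g3 i j hj x hx))

theorem TrN.mul (hU : IsOpen U) (hγ : ∀ i, 0 ≤ γ i) {f f0 g g0 : ι → Pl → ℝ}
    (hf : TrN γ U n f f0) (hg : TrN γ U n g g0) :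
    TrN γ U n (fun i x => f i x * g i x) (fun i x => f0 i x * g0 i x) := by
  obtain ⟨f1, f2, C, hC, f3⟩ := hf
  obtain ⟨g1, g2, D, hD, g3⟩ := hg
  obtain ⟨G, hG, g1'⟩ := id g1
  obtain ⟨F0, hF0, f2'⟩ := id f2
  obtain ⟨_, _, hf'⟩ := f1.sub hU f2
  obtain ⟨_, _, hg'⟩ := g1.sub hU g2
  refine ⟨f1.mul hU g1, f2.mul hU g2, 2 ^ n * (C * G) + 2 ^ n * (F0 * D), by positivity,
    fun i j hj x hx => ?_⟩
  have a1 := tr_bdOn_mul hU (mul_nonneg hC (hγ i)) (hf' i).1 (g1' i).1 (f3 i) (g1' i).2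
  have a2 := tr_bdOn_mul hU hF0 (f2' i).1 (hg' i).1 (f2' i).2 (g3 i)
  rw [show (fun x => f i x * g i x - f0 i x * g0 i x) =
      (fun x => (f i x - f0 i x) * g i x) + fun x => f0 i x * (g i x - g0 i x) by
    funext y; simp only [Pi.add_apply]; ring,
    iteratedFDeriv_add_apply (tr_contDiffAt hU ((hf' i).1.mul (g1' i).1) hj hx)
      (tr_contDiffAt hU ((f2' i).1.mul (hg' i).1) hj hx)]
  refine ((norm_add_le _ _).trans (add_le_add (a1 j hj x hx) (a2 j hj x hx))).trans (le_of_eq ?_)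
  ring

theorem TrN.neg (hU : IsOpen U) (hγ : ∀ i, 0 ≤ γ i) {f f0 : ι → Pl → ℝ} (hf : TrN γ U n f f0) :
    TrN γ U n (fun i x => -f i x) (fun i x => -f0 i x) :=
  ((TrN.refl hγ (TrO.const (c := fun _ : ι => (-1 : ℝ)) (C := 1) fun _ => by simp)).mul hU hγ hf
    ).congr hU (fun i x _ => by simp) fun i x _ => by simp

theorem TrN.sub (hU : IsOpen U) (hγ : ∀ i, 0 ≤ γ i) {f f0 g g0 : ι → Pl → ℝ}
    (hf : TrN γ U n f f0) (hg : TrN γ U n g g0) :
    TrN γ U n (fun i x => f i x - g i x) (fun i x => f0 i x - g0 i x) :=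
  (hf.add hU (hg.neg hU hγ)).congr hU (fun i x _ => by ring) fun i x _ => by ring

theorem TrN.cmul (hU : IsOpen U) (hγ : ∀ i, 0 ≤ γ i) (c : ℝ) {f f0 : ι → Pl → ℝ}
    (hf : TrN γ U n f f0) : TrN γ U n (fun i x => c * f i x) (fun i x => c * f0 i x) :=
  (TrN.refl hγ (TrO.const (c := fun _ : ι => c) (C := |c|) fun _ => le_rfl)).mul hU hγ hf

theorem TrN.inv (hU : IsOpen U) (hγ : ∀ i, 0 ≤ γ i) {f f0 : ι → Pl → ℝ} (hf : TrN γ U n f f0)
    (h : ∃ c > (0 : ℝ), ∀ i, ∀ x ∈ U, c ≤ f i x ∧ c ≤ f0 i x) :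
    TrN γ U n (fun i x => (f i x)⁻¹) (fun i x => (f0 i x)⁻¹) := by
  obtain ⟨c, hc, hl⟩ := h
  obtain ⟨f1, f2, C, hC, f3⟩ := hf
  have i1 := f1.inv hU ⟨c, hc, fun i x hx => (hl i x hx).1⟩
  have i2 := f2.inv hU ⟨c, hc, fun i x hx => (hl i x hx).2⟩
  obtain ⟨P, hP, hprod⟩ := (i1.mul hU i2).neg hU
  obtain ⟨_, _, hf'⟩ := f1.sub hU f2
  refine ⟨i1, i2, 2 ^ n * (C * P), by positivity, fun i => ?_⟩
  refine tr_bdOn_congr hU (fun x hx => ?_) (tr_bdOn_mono subset_rfl le_rfl (le_of_eq (by ring))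
    (tr_bdOn_mul hU (mul_nonneg hC (hγ i)) (hf' i).1 (hprod i).1 (f3 i) (hprod i).2))
  have h1 : f i x ≠ 0 := (hc.trans_le (hl i x hx).1).ne'
  have h2 : f0 i x ≠ 0 := (hc.trans_le (hl i x hx).2).ne'
  simp only
  field_simp
  ring

theorem TrN.deriv (hU : IsOpen U) {f f0 : ι → Pl → ℝ} (hf : TrN γ U (n + 1) f f0)
    {v : Pl} (hv : ‖v‖ ≤ 1) : TrN γ U n (fun i => trD v (f i)) (fun i => trD v (f0 i)) := by
  obtain ⟨f1, f2, C, hC, f3⟩ := hf
  refine ⟨f1.deriv hU hv, f2.deriv hU hv, C, hC, fun i => ?_⟩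
  obtain ⟨_, _, hf'⟩ := f1.sub hU f2
  obtain ⟨_, _, hf1⟩ := f1
  obtain ⟨_, _, hf2⟩ := f2
  have h1 : ContDiffOn ℝ n (fun x => fderiv ℝ (fun y => f i y - f0 i y) x) U :=
    (hf' i).1.fderiv_of_isOpen hU (by exact_mod_cast le_rfl)
  have e : EqOn (fun x => fderiv ℝ (fun y => f i y - f0 i y) x v)
      (fun x => trD v (f i) x - trD v (f0 i) x) U := fun x hx => by
    have d : ∀ {g : Pl → ℝ}, ContDiffOn ℝ (n + 1 : ℕ) g U → DifferentiableAt ℝ g x := fun hg =>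
      (tr_contDiffAt hU hg le_rfl hx).differentiableAt (by exact_mod_cast Nat.succ_ne_zero n)
    simp only [trD]
    rw [fderiv_fun_sub (d (hf1 i).1) (d (hf2 i).1)]
    rfl
  refine tr_bdOn_congr hU e fun j hj x hx => ?_
  refine ((ContinuousLinearMap.apply ℝ ℝ v).norm_iteratedFDeriv_comp_left
    (tr_contDiffAt hU h1 hj hx) le_rfl).trans ?_
  rw [norm_iteratedFDeriv_fderiv]
  exact (mul_le_of_le_one_left (norm_nonneg _) (tr_norm_apply_le hv)).trans
    (f3 i (j + 1) (by omega) x hx)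

theorem TrN.d1 (hU : IsOpen U) {f f0 : ι → Pl → ℝ} (hf : TrN γ U (n + 1) f f0) :
    TrN γ U n (fun i => P229.d1 (f i)) (fun i => P229.d1 (f0 i)) :=
  hf.deriv hU (v := (1, 0)) (by simp [Prod.norm_def])

theorem TrN.d2 (hU : IsOpen U) {f f0 : ι → Pl → ℝ} (hf : TrN γ U (n + 1) f f0) :
    TrN γ U n (fun i => P229.d2 (f i)) (fun i => P229.d2 (f0 i)) :=
  hf.deriv hU (v := (0, 1)) (by simp [Prod.norm_def])

theorem TrN.comp (hU : IsOpen U) (hW : IsOpen W) (hγ : ∀ i, 0 ≤ γ i) {f f0 : ι → Pl → ℝ}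
    {L : ι → Pl → Pl} (hf : TrN γ U n f f0) (hL : TrO W n L) (hmap : ∀ i, MapsTo (L i) W U) :
    TrN γ W n (fun i x => f i (L i x)) (fun i x => f0 i (L i x)) := by
  obtain ⟨f1, f2, C, hC, f3⟩ := hf
  obtain ⟨_, _, hf'⟩ := f1.sub hU f2
  -- scale the difference to a bounded family
  have hs : TrO U n fun (i : {i // 0 < γ i}) x => (γ i.1)⁻¹ * (f i.1 x - f0 i.1 x) := by
    refine ⟨2 ^ n * (1 * C), by positivity, fun i => ⟨contDiffOn_const.mul (hf' i.1).1, ?_⟩⟩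
    intro j hj x hx
    have hd : ContDiffAt ℝ j (fun y => f i.1 y - f0 i.1 y) x := tr_contDiffAt hU (hf' i.1).1 hj hx
    beta_reduce
    rw [show (fun y => (γ i.1)⁻¹ * (f i.1 y - f0 i.1 y)) =
      (γ i.1)⁻¹ • fun y => f i.1 y - f0 i.1 y from rfl, iteratedFDeriv_const_smul_apply hd,
      norm_smul, norm_inv, Real.norm_of_nonneg (hγ i.1), inv_mul_le_iff₀ i.2]
    refine (f3 i.1 j hj x hx).trans ?_
    have : C * γ i.1 ≤ 2 ^ n * (C * γ i.1) :=
      le_mul_of_one_le_left (mul_nonneg hC (hγ i.1)) (one_le_pow₀ one_le_two)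
    linarith
  obtain ⟨K, hK, hKb⟩ := hs.comp hU hW (hL.comap Subtype.val) fun i => hmap i.1
  refine ⟨f1.comp hU hW hL hmap, f2.comp hU hW hL hmap, K, hK, fun i => ?_⟩
  rcases (hγ i).eq_or_lt with h0 | hpos
  · have hz : EqOn (fun _ => (0 : ℝ)) (fun x => f i (L i x) - f0 i (L i x)) W := fun x hx => by
      have h := f3 i 0 (Nat.zero_le _) _ (hmap i hx)
      rw [← h0, mul_zero, norm_iteratedFDeriv_zero, norm_le_zero_iff] at h
      exact h.symm
    refine tr_bdOn_congr hW hz fun j _ x _ => ?_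
    rw [← h0, mul_zero]
    simp
  · intro j hj x hx
    obtain ⟨hc, hb⟩ := hKb ⟨i, hpos⟩
    have hcat : ContDiffAt ℝ j (fun y => (γ i)⁻¹ * (f i (L i y) - f0 i (L i y))) x :=
      tr_contDiffAt hW hc hj hx
    have he : (fun y => f i (L i y) - f0 i (L i y)) =
        γ i • fun y => (γ i)⁻¹ * (f i (L i y) - f0 i (L i y)) := by
      funext y
      simp [Pi.smul_apply, ← mul_assoc, mul_inv_cancel₀ hpos.ne']
    rw [he, iteratedFDeriv_const_smul_apply hcat, norm_smul, Real.norm_of_nonneg hpos.le,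
      mul_comm K]
    exact mul_le_mul_of_nonneg_left (hb j hj x hx) hpos.le

theorem TrN.comap {f f0 : ι → Pl → ℝ} (h : TrN γ U n f f0) (e : κ' → ι) :
    TrN (fun i => γ (e i)) U n (fun i => f (e i)) (fun i => f0 (e i)) := by
  obtain ⟨h1, h2, C, hC, h3⟩ := h
  exact ⟨h1.comap e, h2.comap e, C, hC, fun i => h3 (e i)⟩

end Families

/-! ### The coefficients of `lop` -/

/-- The symmetric form of the coefficients at two gradients. -/
noncomputable def trQ (A1 A2 A3 f g : Pl → ℝ) (x : Pl) : ℝ :=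
  A1 x * (d1 f x * d1 g x) + A2 x * (d1 f x * d2 g x + d2 f x * d1 g x) +
    A3 x * (d2 f x * d2 g x)

/-- First partial derivatives of a function of `X`. -/
theorem tr_chain {V : Pl → ℝ} {X : Pl → Pl} {y : Pl} (hV : DifferentiableAt ℝ V (X y))
    (hX : DifferentiableAt ℝ X y) (v : Pl) :
    trD v (fun z => V (X z)) y = d1 V (X y) * trD v (fun z => (X z).1) y +
      d2 V (X y) * trD v (fun z => (X z).2) y := by
  simp only [trD, d1, d2]
  rw [show (fun z => V (X z)) = V ∘ X from rfl, fderiv_comp y hV hX,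
    fderiv.fst hX, fderiv.snd hX]
  simp only [ContinuousLinearMap.comp_apply, ContinuousLinearMap.coe_fst',
    ContinuousLinearMap.coe_snd']
  set w := fderiv ℝ X y v
  conv_lhs => rw [show w = w.1 • ((1 : ℝ), (0 : ℝ)) + w.2 • ((0 : ℝ), (1 : ℝ)) by ext <;> simp]
  rw [map_add, map_smul, map_smul, smul_eq_mul, smul_eq_mul]
  ring

/-- Second partial derivatives of a function of `X`. -/
theorem tr_chain2 {V : Pl → ℝ} {X : Pl → Pl} {x : Pl} (hV : ContDiffAt ℝ 2 V (X x))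
    (hX : ContDiffAt ℝ 2 X x) (u v : Pl) :
    trD u (trD v (fun z => V (X z))) x =
      d1 (d1 V) (X x) * (trD u (fun z => (X z).1) x * trD v (fun z => (X z).1) x) +
      d1 (d2 V) (X x) * (trD u (fun z => (X z).1) x * trD v (fun z => (X z).2) x +
        trD u (fun z => (X z).2) x * trD v (fun z => (X z).1) x) +
      d2 (d2 V) (X x) * (trD u (fun z => (X z).2) x * trD v (fun z => (X z).2) x) +
      d1 V (X x) * trD u (trD v fun z => (X z).1) x +
      d2 V (X x) * trD u (trD v fun z => (X z).2) x := by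
  have hev : trD v (fun z => V (X z)) =ᶠ[nhds x] fun y =>
      d1 V (X y) * trD v (fun z => (X z).1) y + d2 V (X y) * trD v (fun z => (X z).2) y := by
    filter_upwards [hX.continuousAt.eventually (hV.eventually (by simp)),
      hX.eventually (by simp)] with y hy hy'
    exact tr_chain (hy.differentiableAt (by simp)) (hy'.differentiableAt (by simp)) v
  have hcd : ∀ {g : Pl → ℝ} {y : Pl}, ContDiffAt ℝ 2 g y → ∀ w,
      DifferentiableAt ℝ (trD w g) y := fun hg w =>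
    ((hg.fderiv_right (m := 1) (by norm_num)).differentiableAt (by simp)).clm_apply
      (differentiableAt_const w)
  have hXd : DifferentiableAt ℝ X x := hX.differentiableAt (by simp)
  have p1 : DifferentiableAt ℝ (fun y => d1 V (X y)) x := (hcd hV (1, 0)).comp x hXd
  have p2 : DifferentiableAt ℝ (fun y => d2 V (X y)) x := (hcd hV (0, 1)).comp x hXd
  have q1 : DifferentiableAt ℝ (fun y => trD v (fun z => (X z).1) y) x := hcd hX.fst v
  have q2 : DifferentiableAt ℝ (fun y => trD v (fun z => (X z).2) y) x := hcd hX.snd v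
  have sym : d2 (d1 V) (X x) = d1 (d2 V) (X x) := by
    have hs := hV.isSymmSndFDerivAt (by simp)
    have hd := (hV.fderiv_right (m := 1) (by norm_num)).differentiableAt one_ne_zero
    show fderiv ℝ (fun z => fderiv ℝ V z (1, 0)) (X x) (0, 1) =
      fderiv ℝ (fun z => fderiv ℝ V z (0, 1)) (X x) (1, 0)
    simp only [fderiv_clm_apply hd (differentiableAt_const _), fderiv_fun_const, Pi.zero_apply,
      ContinuousLinearMap.comp_zero, zero_add, ContinuousLinearMap.flip_apply]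
    exact hs _ _
  have e1 : trD u (fun y => d1 V (X y)) x = d1 (d1 V) (X x) * trD u (fun z => (X z).1) x +
      d1 (d2 V) (X x) * trD u (fun z => (X z).2) x := by
    refine (tr_chain (V := d1 V) (hcd hV (1, 0)) hXd u).trans ?_
    rw [sym]
  have e2 : trD u (fun y => d2 V (X y)) x = d1 (d2 V) (X x) * trD u (fun z => (X z).1) x +
      d2 (d2 V) (X x) * trD u (fun z => (X z).2) x := tr_chain (hcd hV (0, 1)) hXd u
  simp only [trD] at e1 e2
  show fderiv ℝ (trD v (fun z => V (X z))) x u = _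
  rw [hev.fderiv_eq, fderiv_fun_add (p1.fun_mul q1) (p2.fun_mul q2), fderiv_fun_mul p1 q1,
    fderiv_fun_mul p2 q2]
  simp only [trD_def, add_apply, FunLike.coe_smul, Pi.smul_apply, smul_eq_mul, e1, e2]
  ring

/-- `lop` in the variables of `X`. -/
theorem lop_comp (m : Met) (A1 A2 A3 Z : Pl → ℝ) {V : Pl → ℝ} {X : Pl → Pl} {x : Pl}
    (hV : ContDiffAt ℝ 2 V (X x)) (hX : ContDiffAt ℝ 2 X x) :
    lop m A1 A2 A3 Z (fun z => V (X z)) x =
      trQ A1 A2 A3 (fun z => (X z).2) (fun z => (X z).2) x * d2 (d2 V) (X x) +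
      2 * trQ A1 A2 A3 (fun z => (X z).1) (fun z => (X z).2) x * d1 (d2 V) (X x) +
      trQ A1 A2 A3 (fun z => (X z).1) (fun z => (X z).1) x * d1 (d1 V) (X x) +
      lop m A1 A2 A3 Z (fun z => (X z).1) x * d1 V (X x) +
      lop m A1 A2 A3 Z (fun z => (X z).2) x * d2 V (X x) := by
  have h1 : ∀ v, trD v (fun z => V (X z)) x = _ := fun v =>
    tr_chain (hV.differentiableAt (by simp)) (hX.differentiableAt (by simp)) v
  have h2 : ∀ u v, trD u (trD v (fun z => V (X z))) x = _ := fun u v => tr_chain2 hV hX u v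
  simp only [lop, Met.h11, Met.h12, Met.h22, Met.gradIP, trQ]
  simp only [show ∀ f : Pl → ℝ, d1 f = trD (1, 0) f from fun _ => rfl,
    show ∀ f : Pl → ℝ, d2 f = trD (0, 1) f from fun _ => rfl] at *
  simp only [h1, h2]
  ring

/-- A quadratic test function centred at `q`. -/
noncomputable def trQuad (q : Pl) (c0 c1 c2 c3 c4 : ℝ) (x : Pl) : ℝ :=
  c0 * (x.1 - q.1) + c1 * (x.2 - q.2) + c2 / 2 * ((x.1 - q.1) * (x.1 - q.1)) +
    c3 * ((x.1 - q.1) * (x.2 - q.2)) + c4 / 2 * ((x.2 - q.2) * (x.2 - q.2))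

theorem trQuad_d (q : Pl) (c0 c1 c2 c3 c4 : ℝ) :
    ContDiffAt ℝ 2 (trQuad q c0 c1 c2 c3 c4) q ∧
      d1 (trQuad q c0 c1 c2 c3 c4) q = c0 ∧ d2 (trQuad q c0 c1 c2 c3 c4) q = c1 ∧
      d1 (d1 (trQuad q c0 c1 c2 c3 c4)) q = c2 ∧ d1 (d2 (trQuad q c0 c1 c2 c3 c4)) q = c3 ∧
      d2 (d2 (trQuad q c0 c1 c2 c3 c4)) q = c4 := by
  have hf : ∀ (a : ℝ) (x : Pl), HasFDerivAt (fun y : Pl => y.1 - a)
      (ContinuousLinearMap.fst ℝ ℝ ℝ) x := fun a x => hasFDerivAt_fst.sub_const a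
  have hg : ∀ (a : ℝ) (x : Pl), HasFDerivAt (fun y : Pl => y.2 - a)
      (ContinuousLinearMap.snd ℝ ℝ ℝ) x := fun a x => hasFDerivAt_snd.sub_const a
  have key : ∀ (x : Pl), d1 (trQuad q c0 c1 c2 c3 c4) x =
        c0 + c2 * (x.1 - q.1) + c3 * (x.2 - q.2) ∧
      d2 (trQuad q c0 c1 c2 c3 c4) x = c1 + c3 * (x.1 - q.1) + c4 * (x.2 - q.2) := fun x => by
    have h := (((((hf q.1 x).const_mul c0).add ((hg q.2 x).const_mul c1)).add
      (((hf q.1 x).mul (hf q.1 x)).const_mul (c2 / 2))).add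
      (((hf q.1 x).mul (hg q.2 x)).const_mul c3)).add
      (((hg q.2 x).mul (hg q.2 x)).const_mul (c4 / 2))
    have he : fderiv ℝ (trQuad q c0 c1 c2 c3 c4) x = _ := h.fderiv
    simp only [d1, d2]
    rw [he]
    constructor <;> simp <;> ring
  have lin : ∀ (a b c : ℝ), HasFDerivAt (fun x : Pl => a + b * (x.1 - q.1) + c * (x.2 - q.2))
      (b • ContinuousLinearMap.fst ℝ ℝ ℝ + c • ContinuousLinearMap.snd ℝ ℝ ℝ) q := fun a b c => by
    exact ((((hf q.1 q).const_mul b).const_add a).add ((hg q.2 q).const_mul c))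
  have e1 : d1 (trQuad q c0 c1 c2 c3 c4) = fun x => c0 + c2 * (x.1 - q.1) + c3 * (x.2 - q.2) :=
    funext fun x => (key x).1
  have e2 : d2 (trQuad q c0 c1 c2 c3 c4) = fun x => c1 + c3 * (x.1 - q.1) + c4 * (x.2 - q.2) :=
    funext fun x => (key x).2
  refine ⟨by unfold trQuad; fun_prop, by simp [e1], by simp [e2], ?_, ?_, ?_⟩
  · rw [e1]; simp only [d1]; rw [(lin c0 c2 c3).fderiv]; simp
  · rw [e2]; simp only [d1]; rw [(lin c1 c3 c4).fderiv]; simp
  · rw [e2]; simp only [d2]; rw [(lin c1 c3 c4).fderiv]; simp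

/-! ### The metric families -/

section Metrics

variable {ι : Type*} {γ : ι → ℝ} {U : Set Pl} {n : ℕ}

/-- Three bounded coefficient pairs with a determinant bounded below. -/
structure TrMet (γ : ι → ℝ) (U : Set Pl) (m m0 : ι → Met) : Prop where
  e : TrN γ U 5 (fun i => (m i).e) fun i => (m0 i).e
  f : TrN γ U 5 (fun i => (m i).f) fun i => (m0 i).f
  g : TrN γ U 5 (fun i => (m i).g) fun i => (m0 i).g
  low : ∃ c > (0 : ℝ), ∀ i, ∀ x ∈ U, c ≤ (m i).det x ∧ c ≤ (m0 i).det x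

theorem TrMet.det_inv {m m0 : ι → Met} (h : TrMet γ U m m0) (hU : IsOpen U)
    (hγ : ∀ i, 0 ≤ γ i) :
    TrN γ U 5 (fun i x => ((m i).det x)⁻¹) fun i x => ((m0 i).det x)⁻¹ :=
  (((h.e.mul hU hγ h.g).sub hU hγ (h.f.mul hU hγ h.f)).congr hU
    (g := fun i => (m i).det) (g0 := fun i => (m0 i).det)
    (fun i x _ => by simp [Met.det, sq]) fun i x _ => by simp [Met.det, sq]).inv hU hγ h.low

theorem TrMet.symbols {m m0 : ι → Met} (h : TrMet γ U m m0) (hU : IsOpen U)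
    (hγ : ∀ i, 0 ≤ γ i) :
    TrN γ U 4 (fun i => (m i).c111) (fun i => (m0 i).c111) ∧
    TrN γ U 4 (fun i => (m i).c211) (fun i => (m0 i).c211) ∧
    TrN γ U 4 (fun i => (m i).c112) (fun i => (m0 i).c112) ∧
    TrN γ U 4 (fun i => (m i).c212) (fun i => (m0 i).c212) ∧
    TrN γ U 4 (fun i => (m i).c122) (fun i => (m0 i).c122) ∧
    TrN γ U 4 (fun i => (m i).c222) (fun i => (m0 i).c222) := by
  have e1 := h.e.d1 hU
  have e2 := h.e.d2 hU
  have f1 := h.f.d1 hU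
  have f2 := h.f.d2 hU
  have g1 := h.g.d1 hU
  have g2 := h.g.d2 hU
  have e := h.e.mono hγ (Nat.le_succ 4) subset_rfl
  have f := h.f.mono hγ (Nat.le_succ 4) subset_rfl
  have g := h.g.mono hγ (Nat.le_succ 4) subset_rfl
  have d := ((h.det_inv hU hγ).mono hγ (Nat.le_succ 4) subset_rfl).cmul hU hγ (1 / 2)
  refine ⟨?_, ?_, ?_, ?_, ?_, ?_⟩
  · exact ((((g.mul hU hγ e1).sub hU hγ ((f.mul hU hγ f1).cmul hU hγ 2)).add hU
      (f.mul hU hγ e2)).mul hU hγ d).congr hU (fun i x _ => by simp [Met.c111]; ring)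
      fun i x _ => by simp [Met.c111]; ring
  · exact (((((e.mul hU hγ f1).cmul hU hγ 2).sub hU hγ (e.mul hU hγ e2)).sub hU hγ
      (f.mul hU hγ e1)).mul hU hγ d).congr hU (fun i x _ => by simp [Met.c211]; ring)
      fun i x _ => by simp [Met.c211]; ring
  · exact (((g.mul hU hγ e2).sub hU hγ (f.mul hU hγ g1)).mul hU hγ d).congr hU
      (fun i x _ => by simp [Met.c112]; ring) fun i x _ => by simp [Met.c112]; ring
  · exact (((e.mul hU hγ g1).sub hU hγ (f.mul hU hγ e2)).mul hU hγ d).congr hU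
      (fun i x _ => by simp [Met.c212]; ring) fun i x _ => by simp [Met.c212]; ring
  · exact (((((g.mul hU hγ f2).cmul hU hγ 2).sub hU hγ (g.mul hU hγ g1)).sub hU hγ
      (f.mul hU hγ g2)).mul hU hγ d).congr hU (fun i x _ => by simp [Met.c122]; ring)
      fun i x _ => by simp [Met.c122]; ring
  · exact ((((e.mul hU hγ g2).sub hU hγ ((f.mul hU hγ f2).cmul hU hγ 2)).add hU
      (f.mul hU hγ g1)).mul hU hγ d).congr hU (fun i x _ => by simp [Met.c222]; ring)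
      fun i x _ => by simp [Met.c222]; ring

theorem TrMet.rcur {m m0 : ι → Met} (h : TrMet γ U m m0) (hU : IsOpen U)
    (hγ : ∀ i, 0 ≤ γ i) : TrN γ U 3 (fun i => (m i).rcur) fun i => (m0 i).rcur := by
  obtain ⟨a, b, c, d, p, q⟩ := h.symbols hU hγ
  have dd := (((h.e.d2 hU).d2 hU).sub hU hγ (((h.f.d2 hU).d1 hU).cmul hU hγ 2)).add hU
    ((h.g.d1 hU).d1 hU)
  have t1 := (h.e.mono hγ (by norm_num : 4 ≤ 5) subset_rfl).mul hU hγ
    ((c.mul hU hγ c).sub hU hγ (a.mul hU hγ p))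
  have t2 := (h.f.mono hγ (by norm_num : 4 ≤ 5) subset_rfl).mul hU hγ
    ((((c.mul hU hγ d).cmul hU hγ 2).sub hU hγ (a.mul hU hγ q)).sub hU hγ (b.mul hU hγ p))
  have t3 := (h.g.mono hγ (by norm_num : 4 ≤ 5) subset_rfl).mul hU hγ
    ((d.mul hU hγ d).sub hU hγ (b.mul hU hγ q))
  exact ((dd.cmul hU hγ (-(1 / 2))).add hU
    (((t1.add hU t2).add hU t3).mono hγ (by norm_num : 3 ≤ 4) subset_rfl)).congr hU
    (fun i x _ => by simp [Met.rcur]; ring) fun i x _ => by simp [Met.rcur]; ring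

theorem TrMet.hess {m m0 : ι → Met} (h : TrMet γ U m m0) (hU : IsOpen U) (hγ : ∀ i, 0 ≤ γ i)
    (hn : n ≤ 4) {w w0 : ι → Pl → ℝ} (hw : TrN γ U (n + 2) w w0) :
    TrN γ U n (fun i => (m i).h11 (w i)) (fun i => (m0 i).h11 (w0 i)) ∧
    TrN γ U n (fun i => (m i).h12 (w i)) (fun i => (m0 i).h12 (w0 i)) ∧
    TrN γ U n (fun i => (m i).h22 (w i)) (fun i => (m0 i).h22 (w0 i)) := by
  obtain ⟨a, b, c, d, p, q⟩ := h.symbols hU hγ
  have lo := fun {f f0 : ι → Pl → ℝ} (hf : TrN γ U 4 f f0) => hf.mono hγ hn subset_rfl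
  have w1 := (hw.d1 hU).mono hγ (Nat.le_succ n) subset_rfl
  have w2 := (hw.d2 hU).mono hγ (Nat.le_succ n) subset_rfl
  refine ⟨?_, ?_, ?_⟩
  · exact ((((hw.d1 hU).d1 hU).sub hU hγ ((lo a).mul hU hγ w1)).sub hU hγ
      ((lo b).mul hU hγ w2)).congr hU (fun i x _ => rfl) fun i x _ => rfl
  · exact ((((hw.d2 hU).d1 hU).sub hU hγ ((lo c).mul hU hγ w1)).sub hU hγ
      ((lo d).mul hU hγ w2)).congr hU (fun i x _ => rfl) fun i x _ => rfl
  · exact ((((hw.d2 hU).d2 hU).sub hU hγ ((lo p).mul hU hγ w1)).sub hU hγ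
      ((lo q).mul hU hγ w2)).congr hU (fun i x _ => rfl) fun i x _ => rfl

theorem TrMet.lop {m m0 : ι → Met} (h : TrMet γ U m m0) (hU : IsOpen U) (hγ : ∀ i, 0 ≤ γ i)
    {A1 B1 A2 B2 A3 B3 Z Z0 w w0 : ι → Pl → ℝ} (h1 : TrN γ U 3 A1 B1) (h2 : TrN γ U 3 A2 B2)
    (h3 : TrN γ U 3 A3 B3) (hZ : TrN γ U 4 Z Z0) (hw : TrN γ U 5 w w0) :
    TrN γ U 3 (fun i => P229.lop (m i) (A1 i) (A2 i) (A3 i) (Z i) (w i))
      fun i => P229.lop (m0 i) (B1 i) (B2 i) (B3 i) (Z0 i) (w0 i) := by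
  obtain ⟨a, b, c⟩ := h.hess hU hγ (n := 3) (by norm_num) hw
  have lo := fun {f f0 : ι → Pl → ℝ} (hf : TrN γ U 5 f f0) =>
    hf.mono hγ (by norm_num : 3 ≤ 5) subset_rfl
  have w1 := (hw.d1 hU).mono hγ (by norm_num : 3 ≤ 4) subset_rfl
  have w2 := (hw.d2 hU).mono hγ (by norm_num : 3 ≤ 4) subset_rfl
  have z1 := hZ.d1 hU
  have z2 := hZ.d2 hU
  have ip := ((((lo h.g).mul hU hγ z1).mul hU hγ w1).sub hU hγ
    ((lo h.f).mul hU hγ ((z1.mul hU hγ w2).add hU (z2.mul hU hγ w1)))).add hU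
    (((lo h.e).mul hU hγ z2).mul hU hγ w2)
  exact ((((h1.mul hU hγ a).add hU ((h2.cmul hU hγ 2).mul hU hγ b)).add hU (h3.mul hU hγ c)).add
    hU ((h.rcur hU hγ).mul hU hγ (ip.mul hU hγ (lo (h.det_inv hU hγ))))).congr hU
    (fun i x _ => by simp [P229.lop, Met.gradIP, div_eq_mul_inv])
    fun i x _ => by simp [P229.lop, Met.gradIP, div_eq_mul_inv]

theorem trN_trQ (hU : IsOpen U) (hγ : ∀ i, 0 ≤ γ i) {A1 B1 A2 B2 A3 B3 a b : ι → Pl → ℝ}
    (h1 : TrN γ U 3 A1 B1) (h2 : TrN γ U 3 A2 B2) (h3 : TrN γ U 3 A3 B3)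
    (ha : TrO U 4 a) (hb : TrO U 4 b) :
    TrN γ U 3 (fun i => trQ (A1 i) (A2 i) (A3 i) (a i) (b i))
      fun i => trQ (B1 i) (B2 i) (B3 i) (a i) (b i) := by
  have a1 := TrN.refl hγ (ha.d1 hU)
  have a2 := TrN.refl hγ (ha.d2 hU)
  have b1 := TrN.refl hγ (hb.d1 hU)
  have b2 := TrN.refl hγ (hb.d2 hU)
  exact (((h1.mul hU hγ (a1.mul hU hγ b1)).add hU
    (h2.mul hU hγ ((a1.mul hU hγ b2).add hU (a2.mul hU hγ b1)))).add hU
    (h3.mul hU hγ (a2.mul hU hγ b2))).congr hU (fun i x _ => rfl) fun i x _ => rfl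

end Metrics

/-! ### The data of the specification -/

/-- All data admitted by `TransSpec` below the threshold `s1`. -/
structure TrData (k : ℕ) (M a0 C B s1 : ℝ) where
  s : ℝ
  β : ℝ
  γ : ℝ
  π' : Pert
  πr : Pert
  Gr : Pl → R3
  er : R3
  ch : Chart
  A1 : Pl → ℝ
  A2 : Pl → ℝ
  A3 : Pl → ℝ
  Z : Pl → ℝ
  hs : 0 < s
  hs1 : s ≤ s1
  hβ : 0 < β
  hβs : β ≤ s ^ 2
  hγ : 0 < γ
  hγβ : γ ≤ β ^ 2
  hπ' : PertOK π'
  hπr : PertOK πr
  bπ' : ∀ i, BdOn univ 8 γ (π' i)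
  bπr : ∀ i, BdOn univ 8 γ (πr i)
  sol : IslandSol k s β M a0 πr Gr er
  ok : ch.OK s C Gr er
  cA1 : ContDiffOn ℝ 4 A1 (disc 3)
  cA2 : ContDiffOn ℝ 4 A2 (disc 3)
  cA3 : ContDiffOn ℝ 4 A3 (disc 3)
  cZ : ContDiffOn ℝ 5 Z (disc 3)
  bA1 : BdOn (disc 2) 4 (B * γ) fun x =>
    A1 x - (islandMet s β πr).h22 (zOf s Gr er) x
  bA2 : BdOn (disc 2) 4 (B * γ) fun x =>
    A2 x + (islandMet s β πr).h12 (zOf s Gr er) x
  bA3 : BdOn (disc 2) 4 (B * γ) fun x =>
    A3 x - (islandMet s β πr).h11 (zOf s Gr er) x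
  bZ : BdOn (disc 2) 4 (B * γ) fun x => Z x - 2 * zOf s Gr er x

/-- The metric of the pair. -/
noncomputable def TrData.m {k : ℕ} {M a0 C B s1 : ℝ} (D : TrData k M a0 C B s1) : Met :=
  islandMet D.s D.β D.π'

/-- The metric of the representative. -/
noncomputable def TrData.mr {k : ℕ} {M a0 C B s1 : ℝ} (D : TrData k M a0 C B s1) : Met :=
  islandMet D.s D.β D.πr

/-- The height of the representative. -/
noncomputable def TrData.z {k : ℕ} {M a0 C B s1 : ℝ} (D : TrData k M a0 C B s1) : Pl → ℝ :=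
  zOf D.s D.Gr D.er

private theorem contDiff_psi {n : ℕ} : ContDiff ℝ n psi := by
  have h1 : ContDiff ℝ n fun x : Pl => (8 - nsq x) / 3 := by unfold nsq; fun_prop
  have h2 : ContDiff ℝ n fun x : Pl => nsq x / 4 - nsq x ^ 2 / 16 := by unfold nsq; fun_prop
  exact h2.mul (Real.smoothTransition.contDiff.comp h1)

/-- The metrics of all data below a suitable threshold form a family. -/
theorem trMet_data (k : ℕ) (M a0 C B : ℝ) : ∃ s1 : ℝ, 0 < s1 ∧ s1 ≤ 1 ∧ ∀ s2 ≤ s1,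
    TrMet (fun D : TrData k M a0 C B s2 => D.γ) (disc 2) TrData.m TrData.mr := by
  have hball : disc 2 ⊆ Metric.closedBall (0 : Pl) 2 := fun x hx =>
    mem_closedBall_zero_iff.2 (norm_le_of_mem_disc (by norm_num) hx)
  obtain ⟨P, hP, hψ⟩ := TrO.of_contDiff (ι := Unit) hball (contDiff_psi (n := 5))
  refine ⟨min 1 (1 / (10 * (2 * P + 1))), by positivity, min_le_left _ _, fun s2 hs2 => ?_⟩
  have h2s : s2 ≤ 1 := hs2.trans (min_le_left _ _)
  have hsm : ∀ D : TrData k M a0 C B s2, D.s ≤ 1 ∧ D.β ≤ 1 ∧ D.γ ≤ 1 := fun D => by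
    have a1 := D.hs1.trans h2s
    have a2 : D.β ≤ 1 := D.hβs.trans (pow_le_one₀ D.hs.le a1)
    exact ⟨a1, a2, D.hγβ.trans (pow_le_one₀ D.hβ.le a2)⟩
  have hU := isOpen_disc 2
  set γ := fun D : TrData k M a0 C B s2 => D.γ
  have hγ : ∀ D, 0 ≤ γ D := fun D => D.hγ.le
  have hγ1 : ∀ D, γ D ≤ 1 := fun D => (hsm D).2.2
  -- the increments
  have hinc : ∀ i : Fin 3, TrN γ (disc 2) 5 (fun D x => D.π' i x) fun D x => D.πr i x := fun i => by
    refine TrN.of_diff hU hγ1 hγ ⟨1, zero_le_one, fun D => ⟨((D.hπr i).1.of_le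
      (WithTop.coe_le_coe.2 le_top)).contDiffOn,
      tr_bdOn_mono (subset_univ _) (by norm_num) (hγ1 D) (D.bπr i)⟩⟩
      (fun D => ((D.hπ' i).1.of_le (WithTop.coe_le_coe.2 le_top)).contDiffOn) (B := 2) fun D => ?_
    intro j hj x hx
    rw [show (fun x => D.π' i x - D.πr i x) = D.π' i + -(D.πr i) from
      funext fun y => sub_eq_add_neg _ _,
      iteratedFDeriv_add_apply (f := D.π' i) (g := -D.πr i)
        ((D.hπ' i).1.contDiffAt.of_le (WithTop.coe_le_coe.2 le_top))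
        ((D.hπr i).1.contDiffAt.of_le (WithTop.coe_le_coe.2 le_top)).neg, iteratedFDeriv_neg_apply]
    refine (norm_add_le _ _).trans ?_
    rw [norm_neg, two_mul]
    exact add_le_add (D.bπ' i j (by omega) x (mem_univ x)) (D.bπr i j (by omega) x (mem_univ x))
  have hsq : TrN γ (disc 2) 5 (fun D (_ : Pl) => D.s ^ 2) fun D (_ : Pl) => D.s ^ 2 :=
    TrN.refl hγ (TrO.const (C := 1) fun D => by
      rw [abs_of_nonneg (sq_nonneg _)]; exact pow_le_one₀ D.hs.le (hsm D).1)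
  have hbψ : TrN γ (disc 2) 5 (fun D x => 2 * D.β * psi x) fun D x => 2 * D.β * psi x :=
    TrN.refl hγ ((TrO.const (c := fun D : TrData k M a0 C B s2 => 2 * D.β) (C := 2) fun D => by
      rw [abs_of_nonneg (by linarith [D.hβ])]; linarith [(hsm D).2.1]).mul hU
      (TrO.of_contDiff hball contDiff_psi))
  have hone : TrN γ (disc 2) 5 (fun _ _ => (1 : ℝ)) fun _ _ => (1 : ℝ) :=
    TrN.refl hγ (TrO.const (C := 1) fun _ => by simp)
  refine ⟨?_, ?_, ?_, 1 / 2, by norm_num, fun D x hx => ?_⟩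
  · exact (hone.add hU (hsq.mul hU hγ (hbψ.add hU (hinc 0)))).congr hU (fun D x _ => rfl)
      fun D x _ => rfl
  · exact (hsq.mul hU hγ (hinc 1)).congr hU (fun D x _ => rfl) fun D x _ => rfl
  · exact (hone.add hU (hsq.mul hU hγ (hbψ.add hU (hinc 2)))).congr hU (fun D x _ => rfl)
      fun D x _ => rfl
  · have hψx : |psi x| ≤ P := by simpa using (hψ ()).2 0 (Nat.zero_le _) x hx
    obtain ⟨ds, dβ, dγ⟩ := hsm D
    have key : ∀ {π : Pert}, (∀ i, BdOn univ 8 D.γ (π i)) →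
        1 / 2 ≤ (islandMet D.s D.β π).det x := by
      intro π hb
      have hπ : ∀ i, |π i x| ≤ 1 := fun i => by
        have h := hb i 0 (by norm_num) x (mem_univ x)
        simp only [norm_iteratedFDeriv_zero, Real.norm_eq_abs] at h
        linarith
      have hs10 : D.s ^ 2 * (2 * P + 1) ≤ 1 / 10 := by
        have h1 : D.s ≤ 1 / (10 * (2 * P + 1)) := D.hs1.trans (hs2.trans (min_le_right _ _))
        rw [le_div_iff₀ (by positivity)] at h1
        have : D.s ^ 2 * (2 * P + 1) ≤ D.s * (2 * P + 1) := by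
          refine mul_le_mul_of_nonneg_right ?_ (by positivity)
          rw [sq]; exact mul_le_of_le_one_left D.hs.le ds
        linarith
      have hb' : ∀ i, |D.s ^ 2 * (2 * D.β * psi x + π i x)| ≤ 1 / 10 := fun i => by
        rw [abs_mul, abs_of_nonneg (sq_nonneg D.s)]
        refine (mul_le_mul_of_nonneg_left ?_ (sq_nonneg _)).trans hs10
        refine (abs_add_le _ _).trans (add_le_add ?_ (hπ i))
        rw [abs_mul, abs_of_nonneg (by linarith [D.hβ] : 0 ≤ 2 * D.β)]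
        exact mul_le_mul (by linarith) hψx (abs_nonneg _) (by norm_num)
      have hf : |D.s ^ 2 * π 1 x| ≤ 1 / 10 := by
        rw [abs_mul, abs_of_nonneg (sq_nonneg D.s)]
        exact (mul_le_mul_of_nonneg_left ((hπ 1).trans (by linarith)) (sq_nonneg _)).trans hs10
      obtain ⟨a1, -⟩ := abs_le.1 (hb' 0)
      obtain ⟨b1, -⟩ := abs_le.1 (hb' 2)
      have hf2 : (D.s ^ 2 * π 1 x) ^ 2 ≤ (1 / 10) ^ 2 := by
        rw [← sq_abs]; exact pow_le_pow_left₀ (abs_nonneg _) hf 2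
      have hmul : (9 / 10 : ℝ) * (9 / 10) ≤ (1 + D.s ^ 2 * (2 * D.β * psi x + π 0 x)) *
          (1 + D.s ^ 2 * (2 * D.β * psi x + π 2 x)) :=
        mul_le_mul (by linarith) (by linarith) (by norm_num) (by linarith)
      simp only [Met.det, islandMet]
      linarith
    exact ⟨key D.bπ', key D.bπr⟩

/-- An operator `γ`-close to the linearisation, in the chart. -/
theorem transSpec {k : ℕ} (hI : ChartIdSpec k) (hA : AHatSpec k) (hk : 40 ≤ k) : TransSpec k := by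
  intro M a0 C B ha0
  obtain ⟨sI, hsI, hI⟩ := hI M a0 C ha0
  obtain ⟨CA, sA, hCA, hsA, hA⟩ := hA M a0 C ha0
  obtain ⟨sm, hsm, hsm1, hmet⟩ := trMet_data k M a0 C B
  set s1 : ℝ := min (min sI sA) (min sm (1 / (2 * (|C| + 1)))) with hs1
  have hs1pos : 0 < s1 := lt_min (lt_min hsI hsA) (lt_min hsm (by positivity))
  have hM := hmet s1 ((min_le_right _ _).trans (min_le_left _ _))
  let ι := TrData k M a0 C B s1
  set γ := fun D : ι => D.γ
  have hU := isOpen_disc 2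
  have hW := isOpen_disc (9 / 5)
  have hγ : ∀ D, 0 ≤ γ D := fun D => D.hγ.le
  have hs1' : ∀ D : ι, D.s ≤ 1 := fun D =>
    D.hs1.trans (((min_le_right _ _).trans (min_le_left _ _)).trans hsm1)
  have hβ1 : ∀ D : ι, D.β ≤ 1 := fun D => D.hβs.trans (pow_le_one₀ D.hs.le (hs1' D))
  have hγ1 : ∀ D, γ D ≤ 1 := fun D => D.hγβ.trans (pow_le_one₀ D.hβ.le (hβ1 D))
  have h23 : disc 2 ⊆ disc 3 := disc_mono (by norm_num) (by norm_num)
  -- the height and the coefficients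
  have hz : TrO (disc 2) 7 fun D : ι => D.z := by
    refine ⟨9 * max M 0, by positivity, fun D => ?_⟩
    exact ⟨(D.sol.contDiffOn_zOf.of_le (mod_cast (by omega : 7 ≤ k))).mono
      (disc_mono (by norm_num) (by norm_num)),
      tr_bdOn_mono h23 (by omega : 7 ≤ k) (mul_le_mul_of_nonneg_left (le_max_left _ _) (by norm_num))
        (D.sol.bdOn_zOf D.hs (hs1' D) (by omega))⟩
  obtain ⟨r11, r12, r22⟩ := TrMet.hess (γ := γ) (m := TrData.mr) (m0 := TrData.mr)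
    ⟨TrN.refl hγ hM.e.2.1, TrN.refl hγ hM.f.2.1, TrN.refl hγ hM.g.2.1,
      by obtain ⟨c, hc, h⟩ := hM.low; exact ⟨c, hc, fun D x hx => ⟨(h D x hx).2, (h D x hx).2⟩⟩⟩
    hU hγ (n := 4) le_rfl ((TrN.refl hγ hz).mono hγ (by norm_num : 6 ≤ 7) subset_rfl)
  have hA1 : TrN γ (disc 2) 3 (fun D : ι => D.A1) fun D => D.mr.h22 D.z :=
    (TrN.of_diff hU hγ1 hγ r22.1 (fun D => D.cA1.mono h23) fun D => D.bA1).mono hγ
      (by norm_num) subset_rfl
  have hA2 : TrN γ (disc 2) 3 (fun D : ι => D.A2) fun D x => -D.mr.h12 D.z x :=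
    (TrN.of_diff hU hγ1 hγ (r12.1.neg hU) (fun D => D.cA2.mono h23) fun D =>
      tr_bdOn_congr hU (fun x _ => by simp [sub_neg_eq_add, TrData.mr, TrData.z]) (D.bA2)).mono hγ
      (by norm_num) subset_rfl
  have hA3 : TrN γ (disc 2) 3 (fun D : ι => D.A3) fun D => D.mr.h11 D.z :=
    (TrN.of_diff hU hγ1 hγ r11.1 (fun D => D.cA3.mono h23) fun D => D.bA3).mono hγ
      (by norm_num) subset_rfl
  have hZ : TrN γ (disc 2) 4 (fun D : ι => D.Z) fun D x => 2 * D.z x :=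
    TrN.of_diff hU hγ1 hγ (((TrN.refl hγ hz).cmul hU hγ 2).1.mono (by norm_num) subset_rfl)
      (fun D => (D.cZ.of_le (by norm_num)).mono h23) fun D => D.bZ
  -- the chart
  let X : ι → Pl → Pl := fun D => D.ch.Xi D.s D.Gr D.er
  let L : ι → Pl → Pl := fun D => D.ch.Lam
  have hX : TrO (disc 2) 5 X := by
    refine ⟨max C 0, le_max_right _ _, fun D => ?_⟩
    obtain ⟨-, -, -, -, -, -, -, -, -, -, -, -, -, -, -, -, -, -, -, hXi, -, -, -, -, -, -, -, -,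
      hXs⟩ := D.ok
    exact ⟨(hXs.of_le (by norm_num)).mono (disc_mono (by norm_num) (by norm_num)),
      tr_bdOn_mono (disc_mono (by norm_num) (by norm_num)) (by norm_num) (le_max_left _ _) hXi⟩
  have hXc : TrO (disc 2) 5 (fun D x => (X D x).1) ∧ TrO (disc 2) 5 (fun D x => (X D x).2) := by
    obtain ⟨K, hK, h⟩ := hX
    have aux : ∀ (l : Pl →L[ℝ] ℝ), ‖l‖ ≤ 1 → TrO (disc 2) 5 fun D x => l (X D x) := fun l hl =>
      ⟨K, hK, fun D => ⟨l.contDiff.comp_contDiffOn (h D).1, fun j hj x hx =>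
        ((l.norm_iteratedFDeriv_comp_left (tr_contDiffAt hU (h D).1 hj hx) le_rfl).trans
          (mul_le_of_le_one_left (norm_nonneg _) hl)).trans ((h D).2 j hj x hx)⟩⟩
    exact ⟨aux (ContinuousLinearMap.fst ℝ ℝ ℝ) (ContinuousLinearMap.norm_fst_le ℝ ℝ ℝ),
      aux (ContinuousLinearMap.snd ℝ ℝ ℝ) (ContinuousLinearMap.norm_snd_le ℝ ℝ ℝ)⟩
  have h95 : disc (9 / 5) ⊆ disc (5 / 2) := disc_mono (by norm_num) (by norm_num)
  have hLam : TrO (disc (9 / 5)) 3 L ∧ ∀ D, MapsTo (L D) (disc (9 / 5)) (disc 2) := by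
    refine ⟨⟨max C 0, le_max_right _ _, fun D => ?_⟩, fun D q hq => ?_⟩
    · obtain ⟨-, -, -, -, -, -, -, -, -, -, -, -, -, hΦ, -, hΘ, -, -, -, -, hL, -, -, hTh, -, -,
        -, -⟩ := D.ok
      refine ⟨(((hΦ.of_le (by norm_num)).comp (hΘ.of_le (by norm_num)) fun q hq =>
        disc_mono (by norm_num) (by norm_num) (hTh q hq).1).mono h95),
        tr_bdOn_mono h95 (by norm_num) (le_max_left _ _) hL⟩
    · obtain ⟨-, -, -, -, -, -, -, -, -, -, -, -, -, -, -, -, -, -, -, -, -, -, -, -, -, -, -,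
        hq2, -⟩ := D.ok
      have h := hq2 0 (Nat.zero_le _) q (h95 hq)
      simp only [norm_iteratedFDeriv_zero, Real.norm_eq_abs] at h
      have hs : D.s ≤ 1 / (2 * (|C| + 1)) :=
        D.hs1.trans ((min_le_right _ _).trans (min_le_right _ _))
      rw [le_div_iff₀ (by positivity)] at hs
      simp only [disc, mem_ofPred_eq] at hq ⊢
      change nsq (D.ch.Lam q) < 2 ^ 2
      nlinarith [(abs_le.1 h).2, mul_le_mul_of_nonneg_right (le_abs_self C) D.hs.le, D.hs]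
  obtain ⟨hLam, hmap⟩ := hLam
  have hX4 := fun {f : ι → Pl → ℝ} (h : TrO (disc 2) 5 f) => h.mono (by norm_num : 4 ≤ 5) subset_rfl
  have Kyy := (trN_trQ hU hγ hA1 hA2 hA3 (hX4 hXc.2) (hX4 hXc.2)).comp hU hW hγ hLam hmap
  have Kpy := (trN_trQ hU hγ hA1 hA2 hA3 (hX4 hXc.1) (hX4 hXc.2)).comp hU hW hγ hLam hmap
  have Kpp := (trN_trQ hU hγ hA1 hA2 hA3 (hX4 hXc.1) (hX4 hXc.1)).comp hU hW hγ hLam hmap
  have Kp := (hM.lop hU hγ hA1 hA2 hA3 hZ (TrN.refl hγ hXc.1)).comp hU hW hγ hLam hmap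
  have Ky := (hM.lop hU hγ hA1 hA2 hA3 hZ (TrN.refl hγ hXc.2)).comp hU hW hγ hLam hmap
  have hid : ∀ (D : ι), ∀ q ∈ disc (9 / 5),
      ContDiffAt ℝ 2 (X D) (L D q) ∧ X D (L D q) = q := fun D q hq => by
    refine ⟨?_, ?_⟩
    · obtain ⟨_, _, h⟩ := hX
      exact (((h D).1.of_le (by norm_num)).contDiffAt (hU.mem_nhds (hmap D hq)))
    · obtain ⟨-, -, -, -, -, -, -, -, -, -, -, -, -, -, -, -, -, -, -, -, -, hΦ, -, hTh, -, -, -,
        -⟩ := D.ok
      obtain ⟨h1, h2⟩ := hTh q (h95 hq)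
      show D.ch.Psi D.s D.Gr D.er (D.ch.proj D.Gr (D.ch.Φ (D.ch.Θ q))) = q
      rw [(hΦ _ (disc_mono (by norm_num) (by norm_num) h1)).2, h2]
  have hβγ : ∀ D : ι, ∀ i, BdOn univ 8 (D.β ^ 2) (D.πr i) := fun D i =>
    tr_bdOn_mono subset_rfl le_rfl D.hγβ (D.bπr i)
  let kh : ι → Pl → ℝ := fun D => D.ch.kHat D.s D.mr D.Gr D.er
  let ah : ι → Pl → ℝ := fun D => D.ch.aHat D.s D.Gr D.er
  let R1 : ι → Pl → ℝ := fun D => D.mr.h22 D.z
  let R2 : ι → Pl → ℝ := fun D x => -D.mr.h12 D.z x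
  let R3' : ι → Pl → ℝ := fun D => D.mr.h11 D.z
  have hrep : ∀ (D : ι), ∀ q ∈ disc (9 / 5),
      trQ (R1 D) (R2 D) (R3' D) (fun z => (X D z).2) (fun z => (X D z).2) (L D q) = kh D q ∧
      trQ (R1 D) (R2 D) (R3' D) (fun z => (X D z).1) (fun z => (X D z).2) (L D q) = 0 ∧
      trQ (R1 D) (R2 D) (R3' D) (fun z => (X D z).1) (fun z => (X D z).1) (L D q) =
        kh D q * ah D q ∧
      P229.lop D.mr (R1 D) (R2 D) (R3' D) (fun z => 2 * D.z z) (fun z => (X D z).1) (L D q) =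
        kh D q * d1 (ah D) q ∧
      P229.lop D.mr (R1 D) (R2 D) (R3' D) (fun z => 2 * D.z z) (fun z => (X D z).2) (L D q) =
        0 := by
    intro D q hq
    obtain ⟨hXd, hXq⟩ := hid D q hq
    have test : ∀ c0 c1 c2 c3 c4 : ℝ,
        trQ (R1 D) (R2 D) (R3' D) (fun z => (X D z).2) (fun z => (X D z).2) (L D q) * c4 +
        2 * trQ (R1 D) (R2 D) (R3' D) (fun z => (X D z).1) (fun z => (X D z).2) (L D q) * c3 +
        trQ (R1 D) (R2 D) (R3' D) (fun z => (X D z).1) (fun z => (X D z).1) (L D q) * c2 +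
        P229.lop D.mr (R1 D) (R2 D) (R3' D) (fun z => 2 * D.z z) (fun z => (X D z).1) (L D q)
          * c0 +
        P229.lop D.mr (R1 D) (R2 D) (R3' D) (fun z => 2 * D.z z) (fun z => (X D z).2) (L D q)
          * c1 = kh D q * (c4 + ah D q * c2 + d1 (ah D) q * c0) := by
      intro c0 c1 c2 c3 c4
      obtain ⟨hV, v1, v2, v11, v12, v22⟩ := trQuad_d q c0 c1 c2 c3 c4
      have h : P229.lop D.mr (R1 D) (R2 D) (R3' D) (fun z => 2 * D.z z)
          (fun z => trQuad q c0 c1 c2 c3 c4 (X D z)) (L D q) =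
          kh D q * (d2 (d2 (trQuad q c0 c1 c2 c3 c4)) q +
            ah D q * d1 (d1 (trQuad q c0 c1 c2 c3 c4)) q +
            d1 (ah D) q * d1 (trQuad q c0 c1 c2 c3 c4) q) :=
        hI D.s D.hs (D.hs1.trans ((min_le_left _ _).trans (min_le_left _ _))) D.β D.hβ D.hβs
          D.πr D.Gr D.er D.ch D.hπr (hβγ D) D.sol D.ok q
          (disc_mono (by norm_num) (by norm_num) hq) _ hV
      rw [lop_comp _ _ _ _ _ (hXq.symm ▸ hV) hXd, hXq, v1, v2, v11, v12, v22] at h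
      exact h
    have a := test 0 0 0 0 1
    have b := test 0 0 0 1 0
    have c := test 0 0 1 0 0
    have d := test 1 0 0 0 0
    have e := test 0 1 0 0 0
    simp only [mul_one, mul_zero, add_zero, zero_add] at a b c d e
    exact ⟨a, by linarith, c, d, e⟩
  have hAh : ∀ (D : ι), ∀ q ∈ disc (9 / 5), 1 / CA ≤ kh D q := fun D q hq =>
    ((hA D.s D.hs (D.hs1.trans ((min_le_left _ _).trans (min_le_right _ _))) D.β D.hβ D.hβs
      D.πr D.Gr D.er D.ch D.hπr (hβγ D) D.sol D.ok).2.2 q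
        (disc_mono (by norm_num) (by norm_num) hq)).1
  let κ : ι → Pl → ℝ := fun D q =>
    trQ D.A1 D.A2 D.A3 (fun z => (X D z).2) (fun z => (X D z).2) (L D q)
  have hκ : TrN γ (disc (9 / 5)) 3 κ kh :=
    Kyy.congr hW (fun D q _ => rfl) fun D q hq => (hrep D q hq).1
  obtain ⟨C0, hC0, hκd⟩ := hκ.2.2
  set K : ℝ := max 1 (2 * CA * C0) with hK
  let ι' := {D : ι // K * D.γ ≤ 1}
  let γ' : ι' → ℝ := fun D => D.1.γ
  have hγ' : ∀ D : ι', 0 ≤ γ' D := fun D => hγ D.1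
  have hlow : ∀ (D : ι'), ∀ q ∈ disc (9 / 5),
      1 / (2 * CA) ≤ κ D.1 q ∧ 1 / (2 * CA) ≤ kh D.1 q := fun D q hq => by
    have h1 := hAh D.1 q hq
    have h2 := hκd D.1 0 (Nat.zero_le _) q hq
    simp only [norm_iteratedFDeriv_zero, Real.norm_eq_abs] at h2
    have h3 : C0 * D.1.γ ≤ 1 / (2 * CA) := by
      rw [le_div_iff₀ (by linarith)]
      have := (mul_le_mul_of_nonneg_right (le_max_right 1 (2 * CA * C0)) D.1.hγ.le).trans D.2
      linarith
    have h4 : (1 : ℝ) / CA = 1 / (2 * CA) + 1 / (2 * CA) := by field_simp; ring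
    have := (abs_le.1 h2).1
    constructor
    · linarith [show C0 * γ D.1 = C0 * D.1.γ from rfl]
    · linarith [show (0 : ℝ) ≤ 1 / (2 * CA) by positivity]
  have hinv := (hκ.comap (κ' := ι') Subtype.val).inv hW hγ'
    ⟨1 / (2 * CA), by positivity, hlow⟩
  have hne : ∀ (D : ι'), ∀ q ∈ disc (9 / 5), kh D.1 q ≠ 0 := fun D q hq =>
    (lt_of_lt_of_le (by positivity) (hlow D q hq).2).ne'
  let cd : ι' → Pl → ℝ := fun D q =>
    trQ D.1.A1 D.1.A2 D.1.A3 (fun z => (X D.1 z).1) (fun z => (X D.1 z).2) (L D.1 q) *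
      (κ D.1 q)⁻¹
  let ca : ι' → Pl → ℝ := fun D q =>
    trQ D.1.A1 D.1.A2 D.1.A3 (fun z => (X D.1 z).1) (fun z => (X D.1 z).1) (L D.1 q) *
      (κ D.1 q)⁻¹
  let cb : ι' → Pl → ℝ := fun D q =>
    P229.lop D.1.m D.1.A1 D.1.A2 D.1.A3 D.1.Z (fun z => (X D.1 z).1) (L D.1 q) * (κ D.1 q)⁻¹
  let ce : ι' → Pl → ℝ := fun D q =>
    P229.lop D.1.m D.1.A1 D.1.A2 D.1.A3 D.1.Z (fun z => (X D.1 z).2) (L D.1 q) * (κ D.1 q)⁻¹
  have hd : TrN γ' (disc (9 / 5)) 3 cd fun _ _ => 0 :=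
    (((Kpy.comap (κ' := ι') Subtype.val).mul hW hγ' hinv)).congr hW (fun D q _ => rfl)
      fun D q hq => by simp [(hrep D.1 q hq).2.1, R1, R2, R3']
  have ha : TrN γ' (disc (9 / 5)) 3 ca fun D => ah D.1 :=
    (((Kpp.comap (κ' := ι') Subtype.val).mul hW hγ' hinv)).congr hW (fun D q _ => rfl)
      fun D q hq => by
        show trQ (R1 D.1) (R2 D.1) (R3' D.1) _ _ (L D.1 q) * (kh D.1 q)⁻¹ = ah D.1 q
        rw [(hrep D.1 q hq).2.2.1, mul_right_comm, mul_inv_cancel₀ (hne D q hq), one_mul]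
  have hb : TrN γ' (disc (9 / 5)) 3 cb fun D => d1 (ah D.1) :=
    (((Kp.comap (κ' := ι') Subtype.val).mul hW hγ' hinv)).congr hW (fun D q _ => rfl)
      fun D q hq => by
        show P229.lop D.1.mr (R1 D.1) (R2 D.1) (R3' D.1) (fun z => 2 * D.1.z z) _ (L D.1 q) *
          (kh D.1 q)⁻¹ = d1 (ah D.1) q
        rw [(hrep D.1 q hq).2.2.2.1, mul_right_comm, mul_inv_cancel₀ (hne D q hq), one_mul]
  have he : TrN γ' (disc (9 / 5)) 3 ce fun _ _ => 0 :=
    (((Ky.comap (κ' := ι') Subtype.val).mul hW hγ' hinv)).congr hW (fun D q _ => rfl)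
      fun D q hq => by simp [(hrep D.1 q hq).2.2.2.2, R1, R2, R3']
  obtain ⟨Cκ, hCκ, hκb⟩ := hκ.1
  obtain ⟨hdO, -, Cd, hCd, hdb⟩ := hd
  obtain ⟨haO, -, Ca, hCa, hab⟩ := ha
  obtain ⟨hbO, -, Cb, hCb, hbb⟩ := hb
  obtain ⟨heO, -, Ce, hCe, heb⟩ := he
  obtain ⟨_, _, hdO⟩ := hdO
  obtain ⟨_, _, haO⟩ := haO
  obtain ⟨_, _, hbO⟩ := hbO
  obtain ⟨_, _, heO⟩ := heO
  set C' : ℝ := K + 2 * CA + Cκ + Cd + Ca + Cb + Ce with hC'
  have hK1 : 1 ≤ K := le_max_left _ _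
  refine ⟨C', s1, by linarith, hs1pos, ?_⟩
  intro s hs hs1s β hβ hβs g hg hgβ hsmall π' πr Gr er ch A1 A2 A3 Z hπ' hπr bπ' bπr sol ok
    mr zr hmr hzr cA1 cA2 cA3 cZ bA1 bA2 bA3 bZ
  subst hmr hzr
  let D₀ : ι := ⟨s, β, g, π', πr, Gr, er, ch, A1, A2, A3, Z, hs, hs1s, hβ, hβs, hg, hgβ, hπ',
    hπr, bπ', bπr, sol, ok, cA1, cA2, cA3, cZ, bA1, bA2, bA3, bZ⟩
  let D : ι' := ⟨D₀, le_trans (mul_le_mul_of_nonneg_right (by linarith) hg.le) hsmall⟩
  have mg : ∀ c : ℝ, c ≤ C' → c * g ≤ C' * g := fun c hc => mul_le_mul_of_nonneg_right hc hg.le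
  refine ⟨κ D₀, ⟨cd D, ca D, cb D, ce D⟩, (hκb D₀).1, (hdO D).1, (haO D).1, (hbO D).1,
    (heO D).1, tr_bdOn_mono subset_rfl le_rfl (by linarith) (hκb D₀).2, fun q hq => ?_, ?_,
    tr_bdOn_mono subset_rfl le_rfl (mg Ca (by linarith)) (hab D),
    tr_bdOn_mono subset_rfl (by norm_num) (mg Cb (by linarith)) (hbb D), ?_, fun q hq V hV => ?_⟩
  · refine le_trans ?_ (hlow D q hq).1
    exact one_div_le_one_div_of_le (by linarith) (by linarith)
  · refine tr_bdOn_congr hW (fun x _ => ?_) (tr_bdOn_mono subset_rfl le_rfl (mg Cd (by linarith))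
      (hdb D))
    simp
  · refine tr_bdOn_congr hW (fun x _ => ?_) (tr_bdOn_mono subset_rfl le_rfl (mg Ce (by linarith))
      (heb D))
    simp
  · obtain ⟨hXd, hXq⟩ := hid D₀ q hq
    have hκ0 : κ D₀ q ≠ 0 := (lt_of_lt_of_le (by positivity) (hlow D q hq).1).ne'
    have hq' : X D₀ (L D₀ q) = q := hXq
    refine (lop_comp (islandMet s β π') A1 A2 A3 Z (X := X D₀) (x := L D₀ q)
      (hq'.symm ▸ hV) hXd).trans ?_
    rw [hq']
    have aux : ∀ a b c e f v22 v12 v11 v1 v2 : ℝ, a ≠ 0 →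
        a * v22 + 2 * b * v12 + c * v11 + e * v1 + f * v2 =
          a * (v22 + 2 * (b * a⁻¹) * v12 + c * a⁻¹ * v11 + e * a⁻¹ * v1 + f * a⁻¹ * v2) := by
      intro a b c e f v22 v12 v11 v1 v2 ha
      field_simp
    exact aux (κ D₀ q) _ _ _ _ _ _ _ _ _ hκ0

end Vale.Agent.P229
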