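import Vale.Agent.P229.Core.Spec

/-!
# P229, Core: the waves are admissible profiles

The waves have disjoint supports, so every integral in `WaveOK` is the sum of the rescaled integrals
of the fixed profile.
-/

open scoped ContDiff
open MeasureTheory Set Filter Topology

namespace Vale.Agent.P229

theorem contDiff_zeta0 : ContDiff ℝ ∞ zeta0 :=
  (⟨1 / 10, 1 / 5, by norm_num, by norm_num⟩ : ContDiffBump (0 : ℝ)).contDiff

theorem zeta0_eq_zero {u : ℝ} (h : 1 / 5 ≤ |u|) : zeta0 u = 0 :=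
  (⟨1 / 10, 1 / 5, by norm_num, by norm_num⟩ : ContDiffBump (0 : ℝ)).zero_of_le_dist
    (by simpa [Real.dist_eq] using h)

theorem zeta0_zero : zeta0 0 = 1 :=
  (⟨1 / 10, 1 / 5, by norm_num, by norm_num⟩ : ContDiffBump (0 : ℝ)).one_of_mem_closedBall
    (by simp)

theorem deriv_iter_zeta0_eq_zero (m : ℕ) {u : ℝ} (h : 1 / 5 < |u|) :
    deriv^[m] zeta0 u = 0 := by
  induction m generalizing u with
  | zero => exact zeta0_eq_zero h.le
  | succ m ih =>
    rw [Function.iterate_succ_apply']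
    have hev : deriv^[m] zeta0 =ᶠ[𝓝 u] fun _ => (0 : ℝ) :=
      eventually_of_mem ((isOpen_lt continuous_const continuous_abs).mem_nhds h) fun v hv => ih hv
    rw [hev.deriv_eq]
    simp

theorem contDiff_deriv_iter_zeta0 (m : ℕ) : ContDiff ℝ ∞ (deriv^[m] zeta0) :=
  contDiff_zeta0.iterate_deriv m

theorem contDiff_wave (N : ℕ) (δ : Fin N → ℤ) : ContDiff ℝ ∞ (wave N δ) := by
  refine ContDiff.sum fun j _ => contDiff_const.mul ?_
  exact (contDiff_zeta0.comp (contDiff_const.mul (contDiff_id.sub contDiff_const))).div_const _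

theorem deriv_iter_wave (N : ℕ) (δ : Fin N → ℤ) (m : ℕ) :
    deriv^[m] (wave N δ) = fun y => ∑ j, (δ j : ℝ) * ((N : ℝ) ^ m / (N : ℝ) ^ 2 *
      deriv^[m] zeta0 ((N : ℝ) * (y - waveCtr N j))) := by
  induction m with
  | zero =>
    funext y
    simp [wave, wave1, div_eq_inv_mul]
  | succ m ih =>
    rw [Function.iterate_succ_apply', ih]
    funext y
    refine HasDerivAt.deriv (HasDerivAt.fun_sum fun j _ => ?_)
    have h1 : HasDerivAt (fun z : ℝ => (N : ℝ) * (z - waveCtr N j)) ((N : ℝ) * 1) y :=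
      ((hasDerivAt_id y).sub_const _).const_mul _
    have h2 : HasDerivAt (deriv^[m] zeta0) (deriv^[m + 1] zeta0 ((N : ℝ) * (y - waveCtr N j)))
        ((N : ℝ) * (y - waveCtr N j)) := by
      rw [Function.iterate_succ_apply']
      exact ((contDiff_deriv_iter_zeta0 m).differentiable (by simp) _).hasDerivAt
    refine (((h2.comp y h1).const_mul ((N : ℝ) ^ m / (N : ℝ) ^ 2)).const_mul (δ j : ℝ)).congr_deriv
      ?_
    ring

theorem wave_eq_zero {N : ℕ} (hN : 11 ≤ N) (δ : Fin N → ℤ) {y : ℝ} (hy : 27 / 100 ≤ |y|) :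
    wave N δ y = 0 := by
  refine Finset.sum_eq_zero fun j _ => ?_
  have hN' : (11 : ℝ) ≤ N := by exact_mod_cast hN
  have hj : (j : ℝ) ≤ N := Nat.cast_le.2 j.is_le'
  have h1 : (j : ℝ) / (2 * N) ≤ 1 / 2 := by
    rw [div_le_iff₀ (by linarith)]
    linarith
  have h2 : 0 ≤ (j : ℝ) / (2 * N) := by positivity
  have hc : |waveCtr N j| ≤ 1 / 4 := by
    rw [waveCtr, abs_le]
    constructor <;> linarith
  have h3 : 1 / 5 ≤ |(N : ℝ) * (y - waveCtr N j)| := by
    rw [abs_mul, abs_of_nonneg (by linarith : (0 : ℝ) ≤ (N : ℝ))]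
    have h4 := abs_sub_abs_le_abs_sub y (waveCtr N j)
    nlinarith
  simp [wave1, zeta0_eq_zero h3]

/-- The supports of two waves are disjoint. -/
theorem wave_disjoint {N : ℕ} {i j : Fin N} (h : i ≠ j) (m : ℕ) (y : ℝ) :
    deriv^[m] zeta0 ((N : ℝ) * (y - waveCtr N i)) *
      deriv^[m] zeta0 ((N : ℝ) * (y - waveCtr N j)) = 0 := by
  by_contra hne
  obtain ⟨hi, hj⟩ := mul_ne_zero_iff.1 hne
  have hi' := not_lt.1 fun hlt => hi (deriv_iter_zeta0_eq_zero m hlt)
  have hj' := not_lt.1 fun hlt => hj (deriv_iter_zeta0_eq_zero m hlt)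
  have hN : (0 : ℝ) < N := Nat.cast_pos.2 i.pos
  have e : (N : ℝ) * (y - waveCtr N i) - (N : ℝ) * (y - waveCtr N j) = ((j : ℝ) - i) / 2 := by
    rw [waveCtr, waveCtr]
    field_simp
    ring
  have h1 : (1 : ℝ) ≤ |(j : ℝ) - i| := by
    have : (1 : ℤ) ≤ |((j : ℕ) : ℤ) - ((i : ℕ) : ℤ)| := Int.one_le_abs (by
      have := Fin.val_ne_of_ne h
      omega)
    exact_mod_cast this
  have h2 := abs_sub ((N : ℝ) * (y - waveCtr N i)) ((N : ℝ) * (y - waveCtr N j))
  rw [e, abs_div, abs_of_pos (by norm_num : (0 : ℝ) < 2)] at h2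
  linarith

/-- The basic integrals. -/
noncomputable def zetaInt (m : ℕ) : ℝ := ∫ u, deriv^[m] zeta0 u ^ 2

theorem integrable_zeta0_sq (m : ℕ) : Integrable fun u => deriv^[m] zeta0 u ^ 2 := by
  refine ((contDiff_deriv_iter_zeta0 m).continuous.pow 2).integrable_of_hasCompactSupport ?_
  refine HasCompactSupport.intro (isCompact_Icc (a := -(1 / 5 : ℝ)) (b := 1 / 5)) fun u hu => ?_
  have h : 1 / 5 < |u| := by
    by_contra hle
    exact hu (abs_le.1 (not_lt.1 hle))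
  simp [deriv_iter_zeta0_eq_zero m h]

theorem zetaInt_nonneg (m : ℕ) : 0 ≤ zetaInt m := integral_nonneg fun _ => sq_nonneg _

theorem zetaInt_two_pos : 0 < zetaInt 2 := by
  refine lt_of_le_of_ne (zetaInt_nonneg 2) fun h => ?_
  have hcont := contDiff_deriv_iter_zeta0 2
  have h0 : ∀ u, deriv^[2] zeta0 u = 0 := fun u => by
    by_contra hu
    exact absurd h.symm (integral_pos_of_integrable_nonneg_nonzero (hcont.continuous.pow 2)
      (integrable_zeta0_sq 2) (fun _ => sq_nonneg _) (pow_ne_zero 2 hu)).ne'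
  have h1 : ∀ u, deriv zeta0 u = 0 := fun u => by
    have hc := is_const_of_deriv_eq_zero ((contDiff_deriv_iter_zeta0 1).differentiable (by simp))
      (fun x => by
        have := h0 x
        rwa [Function.iterate_succ_apply'] at this) u 1
    exact hc.trans (deriv_iter_zeta0_eq_zero 1 (by norm_num))
  have h2 := is_const_of_deriv_eq_zero (contDiff_zeta0.differentiable (by simp)) h1 0 1
  rw [zeta0_zero, zeta0_eq_zero (by norm_num)] at h2
  norm_num at h2

theorem integral_deriv_iter_wave_sq {N : ℕ} (hN : 1 ≤ N) (δ : Fin N → ℤ) (m : ℕ) :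
    (∫ y, deriv^[m] (wave N δ) y ^ 2)
      = ((N : ℝ) ^ m / (N : ℝ) ^ 2) ^ 2 / N * zetaInt m * ∑ j, (δ j : ℝ) ^ 2 := by
  have hN0 : (N : ℝ) ≠ 0 := Nat.cast_ne_zero.2 (by omega)
  have hsq : ∀ y, deriv^[m] (wave N δ) y ^ 2 = ∑ j, (δ j : ℝ) ^ 2 * ((N : ℝ) ^ m / (N : ℝ) ^ 2) ^ 2
      * deriv^[m] zeta0 ((N : ℝ) * (y - waveCtr N j)) ^ 2 := fun y => by
    rw [deriv_iter_wave, sq, Finset.sum_mul_sum]
    refine Finset.sum_congr rfl fun i _ => ?_
    rw [Finset.sum_eq_single i]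
    · ring
    · intro j _ hij
      linear_combination (δ i : ℝ) * δ j * ((N : ℝ) ^ m / (N : ℝ) ^ 2) ^ 2 *
        wave_disjoint (Ne.symm hij) m y
    · simp
  simp only [hsq]
  have hint : ∀ j : Fin N,
      Integrable fun y => deriv^[m] zeta0 ((N : ℝ) * (y - waveCtr N j)) ^ 2 := fun j =>
    ((integrable_zeta0_sq m).comp_mul_left' hN0).comp_sub_right (waveCtr N j)
  rw [integral_finsetSum _ fun j _ => (hint j).const_mul _]
  have e : ∀ j : Fin N,
      (∫ y, deriv^[m] zeta0 ((N : ℝ) * (y - waveCtr N j)) ^ 2) = zetaInt m / N := fun j => by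
    rw [integral_sub_right_eq_self (fun y => deriv^[m] zeta0 ((N : ℝ) * y) ^ 2) (waveCtr N j),
      Measure.integral_comp_mul_left (fun y => deriv^[m] zeta0 y ^ 2) (N : ℝ), abs_inv,
      Nat.abs_cast, smul_eq_mul, zetaInt]
    ring
  simp only [integral_const_mul, e, Finset.mul_sum]
  refine Finset.sum_congr rfl fun j _ => ?_
  ring

theorem waveSpec : WaveSpec := by
  obtain ⟨C, hC⟩ := exists_nat_ge
    ((zetaInt 0 + zetaInt 1 + zetaInt 3 + zetaInt 4 + 1) / zetaInt 2)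
  refine ⟨C, 11, ?_, fun N hN δ hδ _ => ?_⟩
  · rw [div_le_iff₀ zetaInt_two_pos] at hC
    have hpos : (0 : ℝ) < (C : ℝ) * zetaInt 2 := by
      linarith [zetaInt_nonneg 0, zetaInt_nonneg 1, zetaInt_nonneg 3, zetaInt_nonneg 4]
    exact_mod_cast (pos_iff_pos_of_mul_pos hpos).2 zetaInt_two_pos
  have hN' : (11 : ℝ) ≤ N := by exact_mod_cast hN
  have hN0 : (0 : ℝ) < N := by linarith
  set S : ℝ := ∑ j, (δ j : ℝ) ^ 2 with hS
  have hS1 : 1 ≤ S := by
    obtain ⟨j, hj⟩ := Function.ne_iff.1 hδ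
    have h1 : (1 : ℤ) ≤ δ j ^ 2 := by
      have hp : (0 : ℤ) < δ j ^ 2 := sq_pos_of_ne_zero hj
      omega
    calc (1 : ℝ) ≤ ((δ j : ℝ)) ^ 2 := by exact_mod_cast h1
      _ ≤ S := Finset.single_le_sum (f := fun i => (δ i : ℝ) ^ 2) (fun i _ => sq_nonneg _)
          (Finset.mem_univ j)
  have h0 := zetaInt_nonneg 0
  have h1 := zetaInt_nonneg 1
  have h2 := zetaInt_two_pos
  have h3 := zetaInt_nonneg 3
  have h4 := zetaInt_nonneg 4
  rw [div_le_iff₀ h2] at hC
  have hI := integral_deriv_iter_wave_sq (by omega : 1 ≤ N) δ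
  have hC' : (0 : ℝ) < C := by nlinarith
  refine ⟨contDiff_wave N δ, fun y hy => wave_eq_zero hN δ hy, ?_, ?_, ?_, ?_, ?_⟩
  · have := hI 0
    simp only [Function.iterate_zero, id_eq] at this
    rw [this, hI 2, ← hS]
    calc ((N : ℝ) ^ 0 / (N : ℝ) ^ 2) ^ 2 / N * zetaInt 0 * S
        = 1 / (N : ℝ) ^ 5 * zetaInt 0 * S := by field_simp
      _ ≤ 1 / (N : ℝ) ^ 5 * (C * zetaInt 2) * S := by gcongr; linarith
      _ = _ := by field_simp
  · have := hI 1
    simp only [Function.iterate_one] at this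
    rw [this, hI 2, ← hS]
    calc ((N : ℝ) ^ 1 / (N : ℝ) ^ 2) ^ 2 / N * zetaInt 1 * S
        = 1 / (N : ℝ) ^ 3 * zetaInt 1 * S := by field_simp
      _ ≤ 1 / (N : ℝ) ^ 3 * (C * zetaInt 2) * S := by gcongr; linarith
      _ = _ := by field_simp
  · rw [hI 3, hI 2, ← hS]
    calc ((N : ℝ) ^ 3 / (N : ℝ) ^ 2) ^ 2 / N * zetaInt 3 * S
        = (N : ℝ) * zetaInt 3 * S := by field_simp
      _ ≤ (N : ℝ) * (C * zetaInt 2) * S := by gcongr; linarith
      _ = _ := by field_simp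
  · rw [hI 4, hI 2, ← hS]
    calc ((N : ℝ) ^ 4 / (N : ℝ) ^ 2) ^ 2 / N * zetaInt 4 * S
        = (N : ℝ) ^ 3 * zetaInt 4 * S := by field_simp
      _ ≤ (N : ℝ) ^ 3 * (C * zetaInt 2) * S := by gcongr; linarith
      _ = _ := by field_simp
  · rw [hI 2, ← hS]
    calc 1 / ((C : ℝ) * N) = 1 / (N : ℝ) * (1 / C) * 1 := by field_simp
      _ ≤ 1 / (N : ℝ) * zetaInt 2 * S := by
          have h5 : 1 / (C : ℝ) ≤ zetaInt 2 := by
            rw [div_le_iff₀ hC']
            linarith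
          gcongr
      _ = _ := by field_simp

end Vale.Agent.P229
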