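import Vale.Agent.P229.Bd
import Vale.Agent.P229.Core.Spec

/-!
# P229, Core: a signed sum of targets produces the source

On the disc the sum of the targets is `tens ∘ Xi` times `η (N⁴ p) G (y)` with `(p, y) = Xi`; the
double divergence kills the terms in `η''` and `η' G'` because `v = ∂ Lam / ∂ y` has `D Xi v = (0, 1)`.
-/

open scoped ContDiff RealInnerProductSpace
open Set Filter Topology

namespace Vale.Agent.P229.WaveSrc

/-! ### Uniformly bounded families -/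

/-- A family of functions is `C^k` on `U` with a common bound. -/
def UBd {ι : Type*} {F : Type*} [NormedAddCommGroup F] [NormedSpace ℝ F] (U : Set Pl) (k : ℕ)
    (f : ι → Pl → F) : Prop :=
  ∃ B, ∀ i, ContDiffOn ℝ k (f i) U ∧ BdOn U k B (f i)

section UBd

variable {ι : Type*} {F G : Type*} [NormedAddCommGroup F] [NormedSpace ℝ F]
  [NormedAddCommGroup G] [NormedSpace ℝ G] {U V : Set Pl} {k l : ℕ}

theorem UBd.mono {f : ι → Pl → F} (h : UBd U k f) (hV : V ⊆ U) (hl : l ≤ k) : UBd V l f := by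
  obtain ⟨B, h⟩ := h
  exact ⟨B, fun i => ⟨((h i).1.of_le (by exact_mod_cast hl)).mono hV,
    ((h i).2.mono_order hl).mono_set hV⟩⟩

theorem UBd.add {f g : ι → Pl → F} (hU : IsOpen U) (hf : UBd U k f) (hg : UBd U k g) :
    UBd U k (fun i x => f i x + g i x) := by
  obtain ⟨B, hf⟩ := hf
  obtain ⟨B', hg⟩ := hg
  exact ⟨B + B', fun i =>
    ⟨(hf i).1.add (hg i).1, (hf i).2.add hU (hf i).1 (hg i).1 (hg i).2⟩⟩

theorem UBd.sub {f g : ι → Pl → F} (hU : IsOpen U) (hf : UBd U k f) (hg : UBd U k g) :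
    UBd U k (fun i x => f i x - g i x) := by
  obtain ⟨B, hf⟩ := hf
  obtain ⟨B', hg⟩ := hg
  exact ⟨B + B', fun i =>
    ⟨(hf i).1.sub (hg i).1, (hf i).2.sub hU (hf i).1 (hg i).1 (hg i).2⟩⟩

theorem UBd.mul {f g : ι → Pl → ℝ} (hU : IsOpen U) (hf : UBd U k f) (hg : UBd U k g) :
    UBd U k (fun i x => f i x * g i x) := by
  obtain ⟨B, hf⟩ := hf
  obtain ⟨B', hg⟩ := hg
  exact ⟨2 ^ k * B * B', fun i =>
    ⟨(hf i).1.mul (hg i).1, (hf i).2.mul hU (hf i).1 (hg i).1 (hg i).2⟩⟩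

theorem UBd.const (c : F) : UBd U k (fun (_ : ι) (_ : Pl) => c) :=
  ⟨‖c‖, fun _ => ⟨contDiffOn_const, bdOn_const U k c⟩⟩

theorem UBd.const_mul {f : ι → Pl → ℝ} (hU : IsOpen U) (r : ℝ) (hf : UBd U k f) :
    UBd U k (fun i x => r * f i x) :=
  (UBd.const (ι := ι) r).mul hU hf

theorem UBd.fst {f : ι → Pl → F × G} (hU : IsOpen U) (hf : UBd U k f) :
    UBd U k (fun i x => (f i x).1) := by
  obtain ⟨B, hf⟩ := hf
  exact ⟨B, fun i => ⟨(hf i).1.fst, (hf i).2.fst hU (hf i).1⟩⟩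

theorem UBd.snd {f : ι → Pl → F × G} (hU : IsOpen U) (hf : UBd U k f) :
    UBd U k (fun i x => (f i x).2) := by
  obtain ⟨B, hf⟩ := hf
  exact ⟨B, fun i => ⟨(hf i).1.snd, (hf i).2.snd hU (hf i).1⟩⟩

theorem UBd.d1 {f : ι → Pl → F} (hU : IsOpen U) (hf : UBd U (k + 1) f) :
    UBd U k (fun i => P229.d1 (f i)) := by
  obtain ⟨B, hf⟩ := hf
  exact ⟨B, fun i => ⟨contDiffOn_d1 hU (hf i).1, (hf i).2.d1 hU (hf i).1⟩⟩

theorem UBd.d2 {f : ι → Pl → F} (hU : IsOpen U) (hf : UBd U (k + 1) f) :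
    UBd U k (fun i => P229.d2 (f i)) := by
  obtain ⟨B, hf⟩ := hf
  exact ⟨B, fun i => ⟨contDiffOn_d2 hU (hf i).1, (hf i).2.d2 hU (hf i).1⟩⟩

theorem UBd.comp {f : ι → Pl → F} {g : ι → Pl → Pl} (hU : IsOpen U) (hV : IsOpen V)
    (hmaps : ∀ i, MapsTo (g i) U (V)) (hf : UBd V k f) (hg : UBd U k g) :
    UBd U k (fun i x => f i (g i x)) := by
  obtain ⟨B, hf⟩ := hf
  obtain ⟨B', hg⟩ := hg
  exact ⟨_, fun i => ⟨(hf i).1.comp (hg i).1 (hmaps i),
    (hf i).2.comp hU hV (hmaps i) (hf i).1 (hg i).1 (hg i).2⟩⟩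

theorem UBd.div {f g : ι → Pl → ℝ} (hU : IsOpen U) {c : ℝ} (hc : 0 < c) (hf : UBd U k f)
    (hg : UBd U k g) (hlow : ∀ i, ∀ x ∈ U, c ≤ g i x) : UBd U k (fun i x => f i x / g i x) := by
  obtain ⟨B, hf⟩ := hf
  obtain ⟨B', hg⟩ := hg
  exact ⟨_, fun i => ⟨(hf i).1.div (hg i).1 fun x hx => (hc.trans_le (hlow i x hx)).ne',
    (hf i).2.div hU hc (hf i).1 (hg i).1 (hg i).2
      fun x hx => (hlow i x hx).trans (le_abs_self _)⟩⟩

end UBd

/-! ### The admissible data -/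

/-- All the data of `WaveSrcSpec` with its hypotheses. -/
structure Data (C : ℝ) where
  s : ℝ
  G : Pl → R3
  e : R3
  ch : Chart
  κ : Pl → ℝ
  cL : Pl → ℝ
  P : Fin 3 → Pl → ℝ
  Q : Fin 3 → Pl → ℝ
  R : Fin 3 → Pl → ℝ
  hs : C * s ≤ 1
  hch : ch.OK s C G e
  hκ : ContDiffOn ℝ 3 κ (disc (9 / 5))
  hκb : BdOn (disc (9 / 5)) 3 C κ
  hκl : ∀ q ∈ disc (9 / 5), 1 / C ≤ κ q
  hcL : ContDiffOn ℝ 3 cL (disc 3)
  hcLb : BdOn (disc 2) 3 C cL
  hcLl : ∀ x ∈ disc 2, 1 / 2 ≤ cL x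
  hPQR : ∀ i, ContDiffOn ℝ 3 (P i) (disc 3) ∧ ContDiffOn ℝ 3 (Q i) (disc 3) ∧
    ContDiffOn ℝ 3 (R i) (disc 3) ∧ BdOn (disc 2) 3 C (P i) ∧ BdOn (disc 2) 3 C (Q i) ∧
    BdOn (disc 2) 3 C (R i)

theorem disc_subset {a b : ℝ} (ha : 0 ≤ a) (h : a ≤ b) : disc a ⊆ disc b := disc_mono ha h

namespace Data

variable {C : ℝ} (D : Data C)

/-- The first coordinate of the chart. -/
noncomputable def xa (x : Pl) : ℝ := (D.ch.Xi D.s D.G D.e x).1

/-- The second coordinate of the chart. -/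
noncomputable def xb (x : Pl) : ℝ := (D.ch.Xi D.s D.G D.e x).2

/-- The coefficients of the targets, in island coordinates. -/
noncomputable def a (i : Fin 3) (x : Pl) : ℝ := D.ch.tens i (D.ch.Xi D.s D.G D.e x)

theorem mapsTo_Xi : MapsTo (D.ch.Xi D.s D.G D.e) (disc 2) (disc (5 / 2)) := by
  obtain ⟨-, -, -, -, -, -, -, -, -, -, -, -, -, -, -, -, -, -, -, -, -, -, -, -, hPsi, h2, -⟩ :=
    D.hch
  exact fun x hx => (hPsi _ (disc_subset (by norm_num) (by norm_num) (h2 x hx))).1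

theorem Lam_Xi {x : Pl} (hx : x ∈ disc 2) : D.ch.Lam (D.ch.Xi D.s D.G D.e x) = x := by
  obtain ⟨-, -, -, -, -, -, -, -, -, -, -, -, -, -, -, -, -, -, -, -, -, -, hΦ, -, hPsi, h2, -⟩ :=
    D.hch
  show D.ch.Φ (D.ch.Θ (D.ch.Psi D.s D.G D.e (D.ch.proj D.G x))) = x
  rw [(hPsi _ (disc_subset (by norm_num) (by norm_num) (h2 x hx))).2]
  exact (hΦ x (disc_subset (by norm_num) (by norm_num) hx)).2

theorem Xi_Lam {q : Pl} (hq : q ∈ disc (5 / 2)) : D.ch.Xi D.s D.G D.e (D.ch.Lam q) = q := by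
  obtain ⟨-, -, -, -, -, -, -, -, -, -, -, -, -, -, -, -, -, -, -, -, -, hΦ, -, hΘ, -⟩ := D.hch
  show D.ch.Psi D.s D.G D.e (D.ch.proj D.G (D.ch.Φ (D.ch.Θ q))) = q
  rw [(hΦ _ (disc_subset (by norm_num) (by norm_num) (hΘ q hq).1)).2]
  exact (hΘ q hq).2

theorem mapsTo_Lam : MapsTo D.ch.Lam (disc (8 / 5)) (disc 2) := by
  obtain ⟨-, -, -, -, -, -, -, -, -, -, -, -, -, -, -, -, -, -, -, -, -, -, -, -, -, -, -, hn, -⟩ :=
    D.hch
  intro q hq
  have hq' : q ∈ disc (5 / 2) := disc_subset (by norm_num) (by norm_num) hq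
  have h1 := hn.norm_le hq'
  have hs := D.hs
  rw [Real.norm_eq_abs] at h1
  have h2 := (abs_le.1 h1).2
  have h3 : nsq q < (8 / 5) ^ 2 := hq
  show nsq (D.ch.Lam q) < 2 ^ 2
  norm_num at h3 ⊢
  linarith

theorem contDiffOn_Lam : ContDiffOn ℝ 35 D.ch.Lam (disc (5 / 2)) := by
  obtain ⟨-, -, -, -, -, -, -, -, -, -, -, -, -, hΦ, -, hΘ, -, -, -, -, -, -, -, hΘm, -⟩ := D.hch
  exact (hΦ.of_le (by norm_num)).comp hΘ
    fun q hq => disc_subset (by norm_num) (by norm_num) (hΘm q hq).1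

theorem bdOn_Lam : BdOn (disc (5 / 2)) 35 C D.ch.Lam := by
  obtain ⟨-, -, -, -, -, -, -, -, -, -, -, -, -, -, -, -, -, -, -, -, hL, -⟩ := D.hch
  exact hL

theorem contDiffOn_Xi : ContDiffOn ℝ 35 (D.ch.Xi D.s D.G D.e) (disc (12 / 5)) := by
  obtain ⟨-, -, -, -, -, -, -, -, -, -, -, -, -, -, -, -, -, -, -, -, -, -, -, -, -, -, -, -, h⟩ :=
    D.hch
  exact h

theorem bdOn_Xi : BdOn (disc (12 / 5)) 35 C (D.ch.Xi D.s D.G D.e) := by
  obtain ⟨-, -, -, -, -, -, -, -, -, -, -, -, -, -, -, -, -, -, -, hX, -⟩ := D.hch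
  exact hX

theorem one_le {C : ℝ} (D : Data C) : 1 ≤ C := by
  obtain ⟨-, -, -, -, -, -, -, -, -, -, -, -, -, -, -, -, hΦb, -, -, -, -, -, hΦ, -⟩ := D.hch
  have hx : ((1, 0) : Pl) ∈ disc (29 / 10) := by
    show nsq (1, 0) < (29 / 10) ^ 2
    norm_num [nsq]
  obtain ⟨h1, h2⟩ := hΦ _ hx
  have h3 := hΦb.norm_le h1
  rw [h2] at h3
  simpa [Prod.norm_def] using h3

end Data

open Data

variable {C : ℝ}

theorem ubd_Lam : UBd (disc (8 / 5)) 2 (fun D : Data C => D.ch.Lam) :=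
  UBd.mono (k := 35) ⟨C, fun D => ⟨D.contDiffOn_Lam, D.bdOn_Lam⟩⟩
    (disc_subset (by norm_num) (by norm_num)) (by norm_num)

theorem ubd_Xi : UBd (disc 2) 4 (fun D : Data C => D.ch.Xi D.s D.G D.e) :=
  UBd.mono (k := 35) ⟨C, fun D => ⟨D.contDiffOn_Xi, D.bdOn_Xi⟩⟩
    (disc_subset (by norm_num) (by norm_num)) (by norm_num)

theorem ubd_xa : UBd (disc 2) 4 (fun D : Data C => D.xa) := ubd_Xi.fst (isOpen_disc 2)

theorem ubd_xb : UBd (disc 2) 4 (fun D : Data C => D.xb) := ubd_Xi.snd (isOpen_disc 2)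

theorem ubd_tens (i : Fin 3) : UBd (disc (5 / 2)) 4 (fun D : Data C => D.ch.tens i) := by
  have hO := isOpen_disc (5 / 2)
  have h : UBd (disc (5 / 2)) 4 (fun D : Data C => P229.d2 D.ch.Lam) :=
    UBd.mono (k := 34) (UBd.d2 hO ⟨C, fun D => ⟨D.contDiffOn_Lam, D.bdOn_Lam⟩⟩) subset_rfl
      (by norm_num)
  have h0 : UBd (disc (5 / 2)) 4
      (fun (D : Data C) q => -2 * ((d2 D.ch.Lam q).2 * (d2 D.ch.Lam q).2)) :=
    ((h.snd hO).mul hO (h.snd hO)).const_mul hO _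
  have h1 : UBd (disc (5 / 2)) 4
      (fun (D : Data C) q => 2 * ((d2 D.ch.Lam q).1 * (d2 D.ch.Lam q).2)) :=
    ((h.fst hO).mul hO (h.snd hO)).const_mul hO _
  have h2 : UBd (disc (5 / 2)) 4
      (fun (D : Data C) q => -2 * ((d2 D.ch.Lam q).1 * (d2 D.ch.Lam q).1)) :=
    ((h.fst hO).mul hO (h.fst hO)).const_mul hO _
  fin_cases i
  · convert h0 using 3 with D q
    simp [Chart.tens, sq]
  · convert h1 using 3 with D q
    simp [Chart.tens, mul_assoc]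
  · convert h2 using 3 with D q
    simp [Chart.tens, sq]

theorem ubd_a (i : Fin 3) : UBd (disc 2) 4 (fun D : Data C => D.a i) :=
  (ubd_tens i).comp (g := fun D : Data C => D.ch.Xi D.s D.G D.e) (isOpen_disc 2) (isOpen_disc _)
    (fun D => D.mapsTo_Xi) ubd_Xi

/-! ### The coefficients -/

/-- The terms of `lin2 (a h(ξ))` that go with `h'(ξ)`. -/
noncomputable def crossT (π : Fin 3 → Pl → ℝ) (ξ : Pl → ℝ) (x : Pl) : ℝ :=
  -(1 / 2) * (2 * (d2 (π 0) x * d2 ξ x) + π 0 x * d2 (d2 ξ) x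
    - 2 * (d1 (π 1) x * d2 ξ x + d2 (π 1) x * d1 ξ x + π 1 x * d1 (d2 ξ) x)
    + 2 * (d1 (π 2) x * d1 ξ x) + π 2 x * d1 (d1 ξ) x)

/-- The first order part that goes with `h'(ξ)`. -/
noncomputable def crossJ (Q R π : Fin 3 → Pl → ℝ) (ξ : Pl → ℝ) (x : Pl) : ℝ :=
  Q 0 x * π 0 x * d1 ξ x + R 0 x * π 0 x * d2 ξ x + (Q 1 x * π 1 x * d1 ξ x
    + R 1 x * π 1 x * d2 ξ x) + (Q 2 x * π 2 x * d1 ξ x + R 2 x * π 2 x * d2 ξ x)

/-- The leading coefficient. -/
noncomputable def k0 (D : Data C) (q : Pl) : ℝ := D.cL (D.ch.Lam q) / D.κ q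

/-- The coefficient of `η G'`. -/
noncomputable def k1 (D : Data C) (q : Pl) : ℝ :=
  (D.cL (D.ch.Lam q) * crossT D.a D.xb (D.ch.Lam q) + crossJ D.Q D.R D.a D.xb (D.ch.Lam q)) / D.κ q

/-- The coefficient of `η' G`. -/
noncomputable def k2 (D : Data C) (q : Pl) : ℝ :=
  (D.cL (D.ch.Lam q) * crossT D.a D.xa (D.ch.Lam q) + crossJ D.Q D.R D.a D.xa (D.ch.Lam q)) / D.κ q

/-- The coefficient of `η G`. -/
noncomputable def k3 (D : Data C) (q : Pl) : ℝ :=
  (D.cL (D.ch.Lam q) * lin2 D.a (D.ch.Lam q) + jet1 D.P D.Q D.R D.a (D.ch.Lam q)) / D.κ q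

theorem ubd_cL : UBd (disc 2) 2 (fun D : Data C => D.cL) :=
  UBd.mono (k := 3) ⟨C, fun D => ⟨D.hcL.mono (disc_subset (by norm_num) (by norm_num)), D.hcLb⟩⟩
    subset_rfl (by norm_num)

theorem ubd_P (i : Fin 3) : UBd (disc 2) 2 (fun D : Data C => D.P i) :=
  UBd.mono (k := 3) ⟨C, fun D => ⟨(D.hPQR i).1.mono (disc_subset (by norm_num) (by norm_num)),
    (D.hPQR i).2.2.2.1⟩⟩ subset_rfl (by norm_num)

theorem ubd_Q (i : Fin 3) : UBd (disc 2) 2 (fun D : Data C => D.Q i) :=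
  UBd.mono (k := 3) ⟨C, fun D => ⟨(D.hPQR i).2.1.mono (disc_subset (by norm_num) (by norm_num)),
    (D.hPQR i).2.2.2.2.1⟩⟩ subset_rfl (by norm_num)

theorem ubd_R (i : Fin 3) : UBd (disc 2) 2 (fun D : Data C => D.R i) :=
  UBd.mono (k := 3) ⟨C, fun D => ⟨(D.hPQR i).2.2.1.mono (disc_subset (by norm_num) (by norm_num)),
    (D.hPQR i).2.2.2.2.2⟩⟩ subset_rfl (by norm_num)

theorem ubd_κ : UBd (disc (8 / 5)) 2 (fun D : Data C => D.κ) :=
  UBd.mono (k := 3) ⟨C, fun D => ⟨D.hκ, D.hκb⟩⟩ (disc_subset (by norm_num) (by norm_num))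
    (by norm_num)

theorem ubd_pull {f : Data C → Pl → ℝ} (hC : 1 ≤ C) (hf : UBd (disc 2) 2 f) :
    UBd (disc (8 / 5)) 2 (fun D q => f D (D.ch.Lam q) / D.κ q) :=
  UBd.div (isOpen_disc _) (c := 1 / C) (by positivity)
    (hf.comp (isOpen_disc _) (isOpen_disc 2) (fun D => D.mapsTo_Lam) ubd_Lam) ubd_κ
    fun D q hq => D.hκl q (disc_subset (by norm_num) (by norm_num) hq)

theorem ubd_crossT {ξ : Data C → Pl → ℝ} (hξ : UBd (disc 2) 4 ξ) :
    UBd (disc 2) 2 (fun (D : Data C) => crossT D.a (ξ D)) := by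
  have hO := isOpen_disc 2
  have h3 : UBd (disc 2) 3 ξ := hξ.mono subset_rfl (by norm_num)
  have a1 := fun i => ((ubd_a (C := C) i).mono subset_rfl (by norm_num : 3 ≤ 4)).d1 hO
  have a2 := fun i => ((ubd_a (C := C) i).mono subset_rfl (by norm_num : 3 ≤ 4)).d2 hO
  have a0 := fun i => (ubd_a (C := C) i).mono subset_rfl (by norm_num : 2 ≤ 4)
  have x1 := h3.d1 hO
  have x2 := h3.d2 hO
  have x11 := ((hξ.d1 hO).d1 hO)
  have x12 := ((hξ.d2 hO).d1 hO)
  have x22 := ((hξ.d2 hO).d2 hO)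
  exact (((((((a2 0).mul hO x2).const_mul hO 2).add hO ((a0 0).mul hO x22)).sub hO
    (((((a1 1).mul hO x2).add hO ((a2 1).mul hO x1)).add hO ((a0 1).mul hO x12)).const_mul hO 2)).add
      hO (((a1 2).mul hO x1).const_mul hO 2)).add hO ((a0 2).mul hO x11)).const_mul hO (-(1 / 2))

theorem ubd_crossJ {ξ : Data C → Pl → ℝ} (hξ : UBd (disc 2) 4 ξ) :
    UBd (disc 2) 2 (fun (D : Data C) => crossJ D.Q D.R D.a (ξ D)) := by
  have hO := isOpen_disc 2
  have h3 : UBd (disc 2) 3 ξ := hξ.mono subset_rfl (by norm_num)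
  have a0 := fun i => (ubd_a (C := C) i).mono subset_rfl (by norm_num : 2 ≤ 4)
  have t := fun i => (((ubd_Q (C := C) i).mul hO (a0 i)).mul hO (h3.d1 hO)).add hO
    (((ubd_R (C := C) i).mul hO (a0 i)).mul hO (h3.d2 hO))
  exact ((t 0).add hO (t 1)).add hO (t 2)

theorem ubd_lin2_jet1 : UBd (disc 2) 2
    (fun (D : Data C) x => D.cL x * lin2 D.a x + jet1 D.P D.Q D.R D.a x) := by
  have hO := isOpen_disc 2
  have a1 := fun i => ((ubd_a (C := C) i).mono subset_rfl (by norm_num : 3 ≤ 4)).d1 hO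
  have a2 := fun i => ((ubd_a (C := C) i).mono subset_rfl (by norm_num : 3 ≤ 4)).d2 hO
  have a0 := fun i => (ubd_a (C := C) i).mono subset_rfl (by norm_num : 2 ≤ 4)
  have hl : UBd (disc 2) 2 (fun D : Data C => lin2 D.a) :=
    (((((ubd_a 0).d2 hO).d2 hO).sub hO ((((ubd_a 1).d2 hO).d1 hO).const_mul hO 2)).add hO
      (((ubd_a 2).d1 hO).d1 hO)).const_mul hO (-(1 / 2))
  have t := fun i => (((ubd_P (C := C) i).mul hO (a0 i)).add hO
    ((ubd_Q (C := C) i).mul hO (a1 i))).add hO ((ubd_R (C := C) i).mul hO (a2 i))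
  have hj : UBd (disc 2) 2 (fun D : Data C => jet1 D.P D.Q D.R D.a) := by
    convert ((t 0).add hO (t 1)).add hO (t 2) using 1
    funext D x
    simp only [jet1, Fin.sum_univ_three]
  exact (ubd_cL.mul hO hl).add hO hj

theorem ubd_k0 (hC : 1 ≤ C) : UBd (disc (8 / 5)) 2 (k0 (C := C)) := ubd_pull hC ubd_cL

theorem ubd_k1 (hC : 1 ≤ C) : UBd (disc (8 / 5)) 2 (k1 (C := C)) :=
  ubd_pull hC ((ubd_cL.mul (isOpen_disc 2) (ubd_crossT ubd_xb)).add (isOpen_disc 2)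
    (ubd_crossJ ubd_xb))

theorem ubd_k2 (hC : 1 ≤ C) : UBd (disc (8 / 5)) 2 (k2 (C := C)) :=
  ubd_pull hC ((ubd_cL.mul (isOpen_disc 2) (ubd_crossT ubd_xa)).add (isOpen_disc 2)
    (ubd_crossJ ubd_xa))

theorem ubd_k3 (hC : 1 ≤ C) : UBd (disc (8 / 5)) 2 (k3 (C := C)) := ubd_pull hC ubd_lin2_jet1

/-! ### Derivatives of a separated product composed with two functions -/

section Sep

variable {a b c : Pl → ℝ} {x : Pl} {f g : ℝ → ℝ}

theorem diff_comp (ha : DifferentiableAt ℝ a x) (hf : ContDiff ℝ ∞ f) :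
    DifferentiableAt ℝ (fun y => f (a y)) x :=
  (hf.differentiable (by simp)).differentiableAt.comp x ha

theorem diff_sep (ha : DifferentiableAt ℝ a x) (hb : DifferentiableAt ℝ b x)
    (hf : ContDiff ℝ ∞ f) (hg : ContDiff ℝ ∞ g) :
    DifferentiableAt ℝ (fun y => f (a y) * g (b y)) x :=
  (diff_comp ha hf).mul (diff_comp hb hg)

theorem fderiv_sep (v : Pl) (ha : DifferentiableAt ℝ a x) (hb : DifferentiableAt ℝ b x)
    (hc : DifferentiableAt ℝ c x) (hf : ContDiff ℝ ∞ f) (hg : ContDiff ℝ ∞ g) :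
    fderiv ℝ (fun y => c y * (f (a y) * g (b y))) x v =
      fderiv ℝ c x v * (f (a x) * g (b x)) +
        c x * (deriv f (a x) * fderiv ℝ a x v * g (b x) +
          f (a x) * (deriv g (b x) * fderiv ℝ b x v)) := by
  have hf1 := ((hf.differentiable (by simp)).differentiableAt (x := a x)).hasDerivAt
  have hg1 := ((hg.differentiable (by simp)).differentiableAt (x := b x)).hasDerivAt
  have h1 := hf1.comp_hasFDerivAt x ha.hasFDerivAt
  have h2 := hg1.comp_hasFDerivAt x hb.hasFDerivAt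
  have h3 := hc.hasFDerivAt.fun_mul (h1.fun_mul h2)
  simp only [Function.comp_apply] at h3
  rw [h3.fderiv]
  simp
  ring

theorem contDiff_deriv' (hf : ContDiff ℝ ∞ f) : ContDiff ℝ ∞ (deriv f) :=
  hf.iterate_deriv 1

/-- The second derivative along `w` then `v`. -/
theorem fderiv2_sep {U : Set Pl} (hU : IsOpen U) (hx : x ∈ U) (v w : Pl)
    (ha : ContDiffOn ℝ (1 + 1 : ℕ) a U) (hb : ContDiffOn ℝ (1 + 1 : ℕ) b U)
    (hc : ContDiffOn ℝ (1 + 1 : ℕ) c U) (hf : ContDiff ℝ ∞ f) (hg : ContDiff ℝ ∞ g) :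
    fderiv ℝ (fun y => fderiv ℝ (fun z => c z * (f (a z) * g (b z))) y w) x v =
      fderiv ℝ (fun y => fderiv ℝ c y w) x v * (f (a x) * g (b x)) +
      (fderiv ℝ c x w * fderiv ℝ a x v + fderiv ℝ c x v * fderiv ℝ a x w
          + c x * fderiv ℝ (fun y => fderiv ℝ a y w) x v) * (deriv f (a x) * g (b x)) +
      (fderiv ℝ c x w * fderiv ℝ b x v + fderiv ℝ c x v * fderiv ℝ b x w
          + c x * fderiv ℝ (fun y => fderiv ℝ b y w) x v) * (f (a x) * deriv g (b x)) +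
      c x * (fderiv ℝ a x w * fderiv ℝ a x v) * (deriv (deriv f) (a x) * g (b x)) +
      c x * (fderiv ℝ a x w * fderiv ℝ b x v + fderiv ℝ a x v * fderiv ℝ b x w)
          * (deriv f (a x) * deriv g (b x)) +
      c x * (fderiv ℝ b x w * fderiv ℝ b x v) * (f (a x) * deriv (deriv g) (b x)) := by
  have hd : ∀ {h : Pl → ℝ}, ContDiffOn ℝ (1 + 1 : ℕ) h U → ∀ y ∈ U, DifferentiableAt ℝ h y :=
    fun h y hy => diffAt_of_open hU h (by norm_num) hy
  have hd' : ∀ {h : Pl → ℝ}, ContDiffOn ℝ (1 + 1 : ℕ) h U →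
      DifferentiableAt ℝ (fun y => fderiv ℝ h y w) x :=
    fun h => diffAt_of_open hU (contDiffOn_apply_fderiv hU h w) le_rfl hx
  have hF : ∀ y ∈ U, fderiv ℝ (fun z => c z * (f (a z) * g (b z))) y w =
      fderiv ℝ c y w * (f (a y) * g (b y)) +
        ((c y * fderiv ℝ a y w) * (deriv f (a y) * g (b y)) +
          (c y * fderiv ℝ b y w) * (f (a y) * deriv g (b y))) := by
    intro y hy
    rw [fderiv_sep w (hd ha y hy) (hd hb y hy) (hd hc y hy) hf hg]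
    ring
  have he := eventually_of_mem (hU.mem_nhds hx) hF
  rw [Filter.EventuallyEq.fderiv_eq he]
  have dca : DifferentiableAt ℝ (fun y => c y * fderiv ℝ a y w) x := (hd hc x hx).mul (hd' ha)
  have dcb : DifferentiableAt ℝ (fun y => c y * fderiv ℝ b y w) x := (hd hc x hx).mul (hd' hb)
  have s1 : DifferentiableAt ℝ (fun y => fderiv ℝ c y w * (f (a y) * g (b y))) x :=
    (hd' hc).mul (diff_sep (hd ha x hx) (hd hb x hx) hf hg)
  have s2 : DifferentiableAt ℝ (fun y => c y * fderiv ℝ a y w * (deriv f (a y) * g (b y))) x :=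
    dca.mul (diff_sep (hd ha x hx) (hd hb x hx) (contDiff_deriv' hf) hg)
  have s3 : DifferentiableAt ℝ (fun y => c y * fderiv ℝ b y w * (f (a y) * deriv g (b y))) x :=
    dcb.mul (diff_sep (hd ha x hx) (hd hb x hx) hf (contDiff_deriv' hg))
  rw [fderiv_fun_add s1 (s2.fun_add s3), fderiv_fun_add s2 s3, add_apply, add_apply,
    fderiv_sep v (hd ha x hx) (hd hb x hx) (hd' hc) hf hg,
    fderiv_sep v (hd ha x hx) (hd hb x hx) dca (contDiff_deriv' hf) hg,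
    fderiv_sep v (hd ha x hx) (hd hb x hx) dcb hf (contDiff_deriv' hg),
    fderiv_fun_mul (hd hc x hx) (hd' ha), fderiv_fun_mul (hd hc x hx) (hd' hb)]
  simp
  ring

end Sep

/-! ### The identity -/

theorem d1_fun (f : Pl → ℝ) : d1 f = fun y => fderiv ℝ f y (1, 0) := rfl

theorem d2_fun (f : Pl → ℝ) : d2 f = fun y => fderiv ℝ f y (0, 1) := rfl

theorem contDiff_eta0 : ContDiff ℝ ∞ eta0 :=
  (⟨1 / 2, 1, by norm_num, by norm_num⟩ : ContDiffBump (0 : ℝ)).contDiff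

theorem contDiff_wave (N : ℕ) (δ : Fin N → ℤ) : ContDiff ℝ ∞ (wave N δ) := by
  have hz : ContDiff ℝ ∞ zeta0 :=
    (⟨1 / 10, 1 / 5, by norm_num, by norm_num⟩ : ContDiffBump (0 : ℝ)).contDiff
  unfold wave wave1
  exact ContDiff.sum fun j _ =>
    contDiff_const.mul ((hz.comp (contDiff_const.mul (contDiff_id.sub contDiff_const))).div_const _)

theorem deriv_eta0_scale (r y : ℝ) :
    deriv (fun p => eta0 (r * p)) y = r * deriv eta0 (r * y) := by
  have h := ((contDiff_eta0.differentiable (by simp)).differentiableAt (x := r * y)).hasDerivAt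
  have h2 := h.comp y ((hasDerivAt_id y).const_mul r)
  rw [show (fun p => eta0 (r * p)) = eta0 ∘ HMul.hMul r from rfl, h2.deriv, mul_one, mul_comm]

/-- `D Xi v = (0, 1)` for `v = ∂ Lam / ∂ y`. -/
theorem chart_dir (D : Data C) {q : Pl} (hq : q ∈ disc (8 / 5)) :
    (d2 D.ch.Lam q).1 * d1 D.xa (D.ch.Lam q) + (d2 D.ch.Lam q).2 * d2 D.xa (D.ch.Lam q) = 0 ∧
    (d2 D.ch.Lam q).1 * d1 D.xb (D.ch.Lam q) + (d2 D.ch.Lam q).2 * d2 D.xb (D.ch.Lam q) = 1 := by
  have hO := isOpen_disc (5 / 2)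
  have hq' : q ∈ disc (5 / 2) := disc_subset (by norm_num) (by norm_num) hq
  have hL : DifferentiableAt ℝ D.ch.Lam q :=
    diffAt_of_open hO D.contDiffOn_Lam (by norm_num) hq'
  have hXd : DifferentiableAt ℝ (D.ch.Xi D.s D.G D.e) (D.ch.Lam q) :=
    diffAt_of_open (isOpen_disc _) D.contDiffOn_Xi (by norm_num)
      (disc_subset (by norm_num) (by norm_num) (D.mapsTo_Lam hq))
  have ha : DifferentiableAt ℝ D.xa (D.ch.Lam q) := hXd.fst
  have hb : DifferentiableAt ℝ D.xb (D.ch.Lam q) := hXd.snd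
  have e1 := d2_comp ha hL
  have e2 := d2_comp hb hL
  have he1 : EqOn (fun y => D.xa (D.ch.Lam y)) (fun y => y.1) (disc (5 / 2)) :=
    fun y hy => congrArg Prod.fst (D.Xi_Lam hy)
  have he2 : EqOn (fun y => D.xb (D.ch.Lam y)) (fun y => y.2) (disc (5 / 2)) :=
    fun y hy => congrArg Prod.snd (D.Xi_Lam hy)
  rw [d2_congr hO he1 hq'] at e1
  rw [d2_congr hO he2 hq'] at e2
  simp only [smul_eq_mul] at e1 e2
  constructor
  · rw [← e1]; simp [d2, fderiv_fst]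
  · rw [← e2]; simp [d2, fderiv_snd]

theorem contDiffOn_comp_coe {ι : Type*} {f : ι → Pl → ℝ} {U : Set Pl} (h : UBd U 4 f) (i : ι) :
    ContDiffOn ℝ (1 + 1 : ℕ) (f i) U := by
  obtain ⟨B, h⟩ := h
  exact (h i).1.of_le (by norm_num)

/-- The identity for a general profile. -/
theorem key (D : Data C) {q : Pl} (hq : q ∈ disc (8 / 5)) (F : Fin 3 → Pl → ℝ) (t : ℝ)
    (f g : ℝ → ℝ) (hf : ContDiff ℝ ∞ f) (hg : ContDiff ℝ ∞ g)
    (hF : ∀ i, EqOn (F i) (fun y => t * D.a i y * (f (D.xa y) * g (D.xb y))) (disc 2)) :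
    (D.cL (D.ch.Lam q) * lin2 F (D.ch.Lam q) + jet1 D.P D.Q D.R F (D.ch.Lam q)) / D.κ q =
      t * (k0 D q * f q.1 * deriv (deriv g) q.2 + k1 D q * f q.1 * deriv g q.2
        + k2 D q * deriv f q.1 * g q.2 + k3 D q * f q.1 * g q.2) := by
  have hO := isOpen_disc 2
  have hx := D.mapsTo_Lam hq
  set x := D.ch.Lam q with hxdef
  have hq' : q ∈ disc (5 / 2) := disc_subset (by norm_num) (by norm_num) hq
  have hXq : D.ch.Xi D.s D.G D.e x = q := D.Xi_Lam hq'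
  have hA : D.xa x = q.1 := congrArg Prod.fst hXq
  have hB : D.xb x = q.2 := congrArg Prod.snd hXq
  have hc := fun i => contDiffOn_comp_coe (ubd_a (C := C) i) D
  have ha := contDiffOn_comp_coe (ubd_xa (C := C)) D
  have hb := contDiffOn_comp_coe (ubd_xb (C := C)) D
  have hd : ∀ {h : Pl → ℝ}, ContDiffOn ℝ (1 + 1 : ℕ) h (disc 2) → DifferentiableAt ℝ h x :=
    fun h => diffAt_of_open hO h (by norm_num) hx
  have hFi : ∀ i, EqOn (F i) (fun y => (t * D.a i y) * (f (D.xa y) * g (D.xb y))) (disc 2) := hF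
  have hta := fun i => (contDiffOn_const (c := t)).mul (hc i)
  -- values and derivatives of the increments
  have e0 : ∀ i, F i x = t * D.a i x * (f (D.xa x) * g (D.xb x)) := fun i => hF i hx
  have e1 : ∀ i (v : Pl), fderiv ℝ (F i) x v = fderiv ℝ (fun y => t * D.a i y) x v *
      (f (D.xa x) * g (D.xb x)) + t * D.a i x * (deriv f (D.xa x) * fderiv ℝ D.xa x v * g (D.xb x)
        + f (D.xa x) * (deriv g (D.xb x) * fderiv ℝ D.xb x v)) := by
    intro i v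
    rw [Filter.EventuallyEq.fderiv_eq (eventually_of_mem (hO.mem_nhds hx) (hFi i)),
      fderiv_sep v (hd ha) (hd hb) (hd (hta i)) hf hg]
  have e2 : ∀ i (v w : Pl), fderiv ℝ (fun y => fderiv ℝ (F i) y w) x v =
      fderiv ℝ (fun y => fderiv ℝ (fun z => (t * D.a i z) * (f (D.xa z) * g (D.xb z))) y w) x v := by
    intro i v w
    apply congrArg (fun L : Pl →L[ℝ] ℝ => L v)
    refine Filter.EventuallyEq.fderiv_eq (eventually_of_mem (hO.mem_nhds hx) fun y hy => ?_)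
    simp only
    rw [Filter.EventuallyEq.fderiv_eq (eventually_of_mem (hO.mem_nhds hy) (hFi i))]
  have c1 : ∀ i (v : Pl), fderiv ℝ (fun y => t * D.a i y) x v = t * fderiv ℝ (D.a i) x v := by
    intro i v
    rw [fderiv_const_mul (hd (hc i))]
    rfl
  have c2 : ∀ i (v w : Pl), fderiv ℝ (fun y => fderiv ℝ (fun z => t * D.a i z) y w) x v =
      t * fderiv ℝ (fun y => fderiv ℝ (D.a i) y w) x v := by
    intro i v w
    have hee : (fun y => fderiv ℝ (fun z => t * D.a i z) y w) =ᶠ[𝓝 x]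
        fun y => t * fderiv ℝ (D.a i) y w := by
      refine eventually_of_mem (hO.mem_nhds hx) fun y hy => ?_
      simp only
      rw [fderiv_const_mul (diffAt_of_open hO (hc i) (by norm_num) hy)]
      rfl
    rw [hee.fderiv_eq,
      fderiv_const_mul (diffAt_of_open hO (contDiffOn_apply_fderiv hO (hc i) w) le_rfl hx)]
    rfl
  -- the tensor at the point
  have t0 : D.a 0 x = -2 * (d2 D.ch.Lam q).2 ^ 2 := by
    show D.ch.tens 0 (D.ch.Xi D.s D.G D.e x) = _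
    rw [hXq]; simp [Chart.tens]
  have t1 : D.a 1 x = 2 * (d2 D.ch.Lam q).1 * (d2 D.ch.Lam q).2 := by
    show D.ch.tens 1 (D.ch.Xi D.s D.G D.e x) = _
    rw [hXq]; simp [Chart.tens]
  have t2 : D.a 2 x = -2 * (d2 D.ch.Lam q).1 ^ 2 := by
    show D.ch.tens 2 (D.ch.Xi D.s D.G D.e x) = _
    rw [hXq]; simp [Chart.tens]
  obtain ⟨hv1, hv2⟩ := chart_dir D hq
  set v := d2 D.ch.Lam q with hv
  simp only [k0, k1, k2, k3, crossT, crossJ, ← hxdef]
  simp only [lin2, jet1, Fin.sum_univ_three, d1_fun, d2_fun, e0, e1, e2,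
    fderiv2_sep hO hx _ _ ha hb (hta _) hf hg, c1, c2, hA, hB] at hv1 hv2 ⊢
  simp only [t0, t1, t2]
  simp only [div_eq_mul_inv]
  linear_combination (norm := ring)
    (D.cL x * t * (D.κ q)⁻¹ * (v.1 * fderiv ℝ D.xa x (1, 0) + v.2 * fderiv ℝ D.xa x (0, 1))
        * deriv (deriv f) q.1 * g q.2) * hv1 +
      (2 * D.cL x * t * (D.κ q)⁻¹ * (v.1 * fderiv ℝ D.xb x (1, 0) + v.2 * fderiv ℝ D.xb x (0, 1))
        * deriv f q.1 * deriv g q.2) * hv1 +
      (D.cL x * t * (D.κ q)⁻¹ * (v.1 * fderiv ℝ D.xb x (1, 0) + v.2 * fderiv ℝ D.xb x (0, 1) + 1)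
        * f q.1 * deriv (deriv g) q.2) * hv2

theorem waveSrcSpec : WaveSrcSpec := by
  intro C
  rcases le_or_gt 1 C with hC | hC
  · obtain ⟨B0, h0⟩ := ubd_k0 hC
    obtain ⟨B1, h1⟩ := ubd_k1 hC
    obtain ⟨B2, h2⟩ := ubd_k2 hC
    obtain ⟨B3, h3⟩ := ubd_k3 hC
    refine ⟨max (2 * C) (max (max B0 B1) (max B2 B3)), 1 / C, le_max_of_le_left (by linarith),
      by positivity, ?_⟩
    intro s _ hsle G e ch κ cL P Q R hok hκ hκb hκl hcL hcLb hcLl hPQR
    have hs : C * s ≤ 1 := by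
      have := mul_le_mul_of_nonneg_left hsle (by linarith : (0 : ℝ) ≤ C)
      rwa [mul_one_div, div_self (by linarith : C ≠ 0)] at this
    let D : Data C := ⟨s, G, e, ch, κ, cL, P, Q, R, hs, hok, hκ, hκb, hκl, hcL, hcLb, hcLl, hPQR⟩
    refine ⟨k0 D, k1 D, k2 D, k3 D, (h0 D).1, (h1 D).1, (h2 D).1, (h3 D).1,
      (h0 D).2.mono_const ((le_max_left _ _).trans (le_max_left _ _) |>.trans (le_max_right _ _)),
      (h1 D).2.mono_const ((le_max_right _ _).trans (le_max_left _ _) |>.trans (le_max_right _ _)),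
      (h2 D).2.mono_const ((le_max_left _ _).trans (le_max_right _ _) |>.trans (le_max_right _ _)),
      (h3 D).2.mono_const ((le_max_right _ _).trans (le_max_right _ _) |>.trans (le_max_right _ _)),
      fun q hq => ?_, fun N t δ _ q hq => ?_⟩
    · have hq' : q ∈ disc (9 / 5) := disc_subset (by norm_num) (by norm_num) hq
      have hk1 : 0 < κ q := (by positivity : (0 : ℝ) < 1 / C).trans_le (hκl q hq')
      have hk2 : κ q ≤ C := (le_abs_self _).trans (by simpa using hκb.norm_le hq')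
      have hk3 := hcLl _ (D.mapsTo_Lam hq)
      show _ ≤ cL (ch.Lam q) / κ q
      calc 1 / max (2 * C) (max (max B0 B1) (max B2 B3)) ≤ 1 / (2 * C) :=
            one_div_le_one_div_of_le (by linarith) (le_max_left _ _)
        _ ≤ (1 / 2) / κ q := by
            rw [div_le_div_iff₀ (by linarith) hk1]
            linarith
        _ ≤ cL (ch.Lam q) / κ q := div_le_div_of_nonneg_right hk3 hk1.le
    · have hF : ∀ i, EqOn (fun x => t * ∑ j, (δ j : ℝ) * ch.tgt s G e N j i x)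
          (fun y => t * D.a i y * ((fun p => eta0 ((N : ℝ) ^ 4 * p)) (D.xa y) * wave N δ (D.xb y)))
          (disc 2) := by
        intro i y hy
        simp only [Chart.tgt, hy, if_true, wave, Finset.mul_sum]
        exact Finset.sum_congr rfl fun j _ => by
          simp only [Data.a, Data.xa, Data.xb, D]; ring
      have := key D hq (fun i x => t * ∑ j, (δ j : ℝ) * ch.tgt s G e N j i x) t
        (fun p => eta0 ((N : ℝ) ^ 4 * p)) (wave N δ)
        (contDiff_eta0.comp (contDiff_const.mul contDiff_id)) (contDiff_wave N δ) hF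
      rw [this, deriv_eta0_scale]
      rfl
  · refine ⟨1, 1, le_rfl, one_pos, fun s _ _ G e ch κ cL P Q R hok _ _ _ _ _ _ _ => ?_⟩
    exfalso
    obtain ⟨-, -, -, -, -, -, -, -, -, -, -, -, -, -, -, -, hΦb, -, -, -, -, -, hΦ, -⟩ := hok
    have hx : ((1, 0) : Pl) ∈ disc (29 / 10) := by
      show nsq (1, 0) < (29 / 10) ^ 2
      norm_num [nsq]
    obtain ⟨h1, h2⟩ := hΦ _ hx
    have h3 := hΦb.norm_le h1
    rw [h2] at h3
    simp [Prod.norm_def] at h3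
    linarith

end Vale.Agent.P229.WaveSrc
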